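import Vale.Agent.P174b.MatTools

/-! The base point of the homotopy: solutions and their Jacobians. -/

set_option linter.unusedSectionVars false

open Matrix
open scoped Matrix.Norms.Elementwise

namespace Vale.Agent.P174b

theorem sign_const {E : Type*} [NormedAddCommGroup E] [NormedSpace ℝ E] [FiniteDimensional ℝ E]
    (L : ℝ → E →L[ℝ] E) (hc : ∀ v, Continuous fun t => L t v)
    (hi : ∀ t v, L t v = 0 → v = 0) : 0 < (L 0).det * (L 1).det := by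
  have h1 : Continuous fun t => (L t).det :=
    ContinuousLinearMap.continuous_det.comp (continuous_clm_apply.2 hc)
  have h2 : ∀ t, (L t).det ≠ 0 := fun t =>
    (LinearMap.isUnit_det _ ((LinearMap.isUnit_iff_ker_eq_bot _).2
      (LinearMap.ker_eq_bot'.2 (hi t)))).ne_zero
  by_contra h
  have h3 : (0 : ℝ) ∈ Set.uIcc (L 0).det (L 1).det := by
    rw [Set.mem_uIcc]
    rcases mul_nonpos_iff.1 (not_lt.1 h) with h | h
    · exact Or.inr ⟨h.2, h.1⟩
    · exact Or.inl h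
  obtain ⟨t, -, ht⟩ := intermediate_value_uIcc (a := 0) (b := 1) h1.continuousOn h3
  exact h2 t ht

section One

variable {ι ν : Type*} [Fintype ι] [DecidableEq ι] [Fintype ν] [DecidableEq ν]

noncomputable def xV (J Z : Matrix ι ν ℂ) : Matrix ι ν ℂ := Z + J * (1 - Jᴴ * Z)

noncomputable def xH (V : Matrix ι ν ℂ) (X : Matrix ν ν ℂ) : Matrix ι ι ℂ := V * (X + Xᴴ) * Vᴴ

noncomputable def G0 (J : Matrix ι ν ℂ) (δ : ν → ℂ) (d : ℕ) (b : Matrix ν ν ℂ) : Matrix ι ι ℂ :=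
  J * ((diagonal δ)ᴴ * b ^ d) * Jᴴ - (1 - J * Jᴴ)

theorem H_xV {J : Matrix ι ν ℂ} (hJ : Jᴴ * J = 1) (Z : Matrix ι ν ℂ) : Jᴴ * xV J Z = 1 := by
  rw [xV, Matrix.mul_add, ← Matrix.mul_assoc, hJ]
  simp

theorem xH_H (V : Matrix ι ν ℂ) (X : Matrix ν ν ℂ) : (xH V X)ᴴ = xH V X := by
  simp [xH, conjTranspose_mul, Matrix.mul_assoc, add_comm]

theorem corner_unitary {J : Matrix ι ν ℂ} (hJ : Jᴴ * J = 1) {x : Matrix ν ν ℂ} (hx : xᴴ * x = 1)
    (ε : ℂ) (hε : star ε * ε = 1) :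
    (J * x * Jᴴ + ε • (1 - J * Jᴴ))ᴴ * (J * x * Jᴴ + ε • (1 - J * Jᴴ)) = 1 := by
  have h1 : Jᴴ * (1 - J * Jᴴ) = 0 := by rw [Matrix.mul_sub, ← Matrix.mul_assoc, hJ]; simp
  have h2 : (1 - J * Jᴴ) * J = 0 := by rw [Matrix.sub_mul, Matrix.mul_assoc, hJ]; simp
  have h3 : (1 - J * Jᴴ) * (1 - J * Jᴴ) = 1 - J * Jᴴ := by
    rw [Matrix.sub_mul, Matrix.mul_assoc, h1]; simp
  have h4 : (1 - J * Jᴴ)ᴴ = 1 - J * Jᴴ := by simp [conjTranspose_mul]
  rw [conjTranspose_add, conjTranspose_smul, h4, conjTranspose_mul, conjTranspose_mul,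
    conjTranspose_conjTranspose, Matrix.add_mul, Matrix.mul_add, Matrix.mul_add]
  simp only [Matrix.mul_smul, Matrix.smul_mul, smul_smul, h3, Matrix.mul_assoc, h1,
    ← Matrix.mul_assoc Jᴴ J, hJ, Matrix.one_mul, ← Matrix.mul_assoc xᴴ x, hx,
    ← Matrix.mul_assoc (1 - J * Jᴴ) J, h2, mul_comm ε, hε]
  simp

theorem diag_unitary {δ : ν → ℂ} (hδ : ∀ i, ‖δ i‖ = 1) : diagonal δ * (diagonal δ)ᴴ = 1 := by
  rw [diagonal_conjTranspose, diagonal_mul_diagonal, ← diagonal_one]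
  congr 1
  ext i
  simp [Complex.mul_conj, Complex.normSq_eq_norm_sq, hδ]

theorem pow_unitary {b : Matrix ν ν ℂ} (hb : bᴴ * b = 1) (d : ℕ) : (b ^ d)ᴴ * b ^ d = 1 := by
  induction d with
  | zero => simp
  | succ d ih =>
    rw [pow_succ, conjTranspose_mul, Matrix.mul_assoc, ← Matrix.mul_assoc _ (b ^ d), ih,
      Matrix.one_mul, hb]

theorem G0_unitary {J : Matrix ι ν ℂ} (hJ : Jᴴ * J = 1) {δ : ν → ℂ} (hδ : ∀ i, ‖δ i‖ = 1) (d : ℕ)
    {b : Matrix ν ν ℂ} (hb : bᴴ * b = 1) : (G0 J δ d b)ᴴ * G0 J δ d b = 1 := by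
  have := corner_unitary hJ (x := (diagonal δ)ᴴ * b ^ d) (by
    rw [conjTranspose_mul, conjTranspose_conjTranspose, Matrix.mul_assoc,
      ← Matrix.mul_assoc (diagonal δ), diag_unitary hδ, Matrix.one_mul, pow_unitary hb]) (-1)
    (by simp)
  rwa [neg_one_smul, ← sub_eq_add_neg] at this

theorem G0_fixed {J : Matrix ι ν ℂ} (hJ : Jᴴ * J = 1) (δ : ν → ℂ) (d : ℕ) (b : Matrix ν ν ℂ)
    {W : Matrix ι ν ℂ} (h : G0 J δ d b * W = W) :
    J * (Jᴴ * W) = W ∧ (diagonal δ)ᴴ * b ^ d * (Jᴴ * W) = Jᴴ * W := by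
  have h1 : Jᴴ * (G0 J δ d b * W) = (diagonal δ)ᴴ * b ^ d * (Jᴴ * W) := by
    simp only [G0, Matrix.sub_mul, Matrix.mul_sub, Matrix.mul_assoc, ← Matrix.mul_assoc Jᴴ J, hJ,
      Matrix.one_mul]
    simp
  rw [h] at h1
  refine ⟨?_, h1.symm⟩
  have h2 : G0 J δ d b * W = J * (Jᴴ * W) - (W - J * (Jᴴ * W)) := by
    conv_rhs => enter [1]; rw [h1]
    simp only [G0, Matrix.sub_mul, Matrix.mul_assoc, Matrix.one_mul]
  rw [h] at h2
  have h3 : (2 : ℂ) • (J * (Jᴴ * W) - W) = 0 := by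
    rw [← sub_eq_zero.2 h2.symm]
    module
  exact sub_eq_zero.1 ((smul_eq_zero.1 h3).resolve_left two_ne_zero)

theorem herm_skew {A B : Matrix ν ν ℂ} (hA : Aᴴ = A) (hB : Bᴴ = -B) (h : A + B = 0) :
    A = 0 ∧ B = 0 := by
  have h1 := congrArg conjTranspose h
  rw [conjTranspose_add, hA, hB, conjTranspose_zero] at h1
  have h2 : (2 : ℂ) • A = 0 := by
    rw [← add_zero (0 : Matrix ν ν ℂ)]
    conv_rhs => enter [1]; rw [← h]
    conv_rhs => enter [2]; rw [← h1]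
    module
  have h3 := (smul_eq_zero.1 h2).resolve_left two_ne_zero
  exact ⟨h3, by simpa [h3] using h⟩

theorem base_solution {J : Matrix ι ν ℂ} (hJ : Jᴴ * J = 1) {δ : ν → ℂ} (hδ : ∀ i, ‖δ i‖ = 1)
    (hδi : Function.Injective δ) (d : ℕ) {b : Matrix ν ν ℂ} {Z : Matrix ι ν ℂ}
    (h1 : bᴴ * b - 1 + (Jᴴ * Z - (Jᴴ * Z)ᴴ) = 0)
    (h2 : G0 J δ d b * (1 + xH (xV J Z) (Jᴴ * Z)) * xV J Z = xV J Z)
    (hn : ‖xH (xV J Z) (Jᴴ * Z)‖ ≤ 1 / (Fintype.card ι + 1)) :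
    Z = 0 ∧ ∃ β : ν → ℂ, b = diagonal β ∧ ∀ i, ‖β i‖ = 1 ∧ β i ^ d = δ i := by
  obtain ⟨h3, h4⟩ := herm_skew (by simp [conjTranspose_mul]) (by simp) h1
  rw [sub_eq_zero] at h3 h4
  obtain ⟨B, C, hBC, hCB, hW⟩ := exists_isometry _ _ (H_xV hJ Z)
  have hH : xH (xV J Z) (Jᴴ * Z) = 0 := by
    refine isometry_herm_zero (xV J Z * C) _ _ (G0_unitary hJ hδ d h3) (xH_H _ _) ?_ ?_ hn
    · have : xH (xV J Z) (Jᴴ * Z) = xV J Z * C * (B * (Jᴴ * Z + (Jᴴ * Z)ᴴ) * (xV J Z)ᴴ) := by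
        simp only [xH, Matrix.mul_assoc, ← Matrix.mul_assoc C B, hCB, Matrix.one_mul]
      rw [this, ← Matrix.mul_assoc (xV J Z * C)ᴴ, hW, Matrix.one_mul]
    · rw [← Matrix.mul_assoc, h2]
  have hX : Jᴴ * Z = 0 := by
    have h5 : Jᴴ * xH (xV J Z) (Jᴴ * Z) * J = Jᴴ * Z + (Jᴴ * Z)ᴴ := by
      have := congrArg conjTranspose (H_xV hJ Z)
      rw [conjTranspose_mul, conjTranspose_conjTranspose, conjTranspose_one] at this
      rw [xH, ← Matrix.mul_assoc, ← Matrix.mul_assoc, H_xV hJ, Matrix.mul_assoc, this]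
      simp
    rw [hH, ← h4] at h5
    have h6 : (2 : ℂ) • (Jᴴ * Z) = 0 := by rw [two_smul, ← h5]; simp
    exact (smul_eq_zero.1 h6).resolve_left two_ne_zero
  rw [hH, add_zero, Matrix.mul_one] at h2
  obtain ⟨h7, h8⟩ := G0_fixed hJ δ d b h2
  rw [H_xV hJ, Matrix.mul_one] at h7 h8
  refine ⟨by simpa [xV, hX] using h7.symm, fun i => b i i, ?_⟩
  have h9 : b ^ d = diagonal δ := by
    rw [← Matrix.one_mul (b ^ d), ← diag_unitary hδ, Matrix.mul_assoc, h8, Matrix.mul_one]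
  have h10 : b = diagonal fun i => b i i := by
    ext i k
    by_cases hik : i = k
    · simp [hik]
    · have h11 : b * diagonal δ = diagonal δ * b := by rw [← h9, ← pow_succ, ← pow_succ']
      have h12 := congrFun (congrFun h11 i) k
      rw [mul_diagonal, diagonal_mul] at h12
      have h13 : b i k * (δ k - δ i) = 0 := by linear_combination h12
      rw [diagonal_apply_ne _ hik]
      exact (mul_eq_zero.1 h13).resolve_right (sub_ne_zero.2 fun h => hik (hδi h).symm)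
  refine ⟨h10, fun i => ⟨?_, ?_⟩⟩
  · rw [h10, diagonal_conjTranspose, diagonal_mul_diagonal] at h3
    have := congrFun (congrFun h3 i) i
    simp only [diagonal_apply_eq, one_apply_eq, Pi.star_apply, Complex.star_def,
      Complex.conj_mul'] at this
    have h14 : ‖b i i‖ ^ 2 = 1 := by exact_mod_cast this
    exact (pow_eq_one_iff_of_nonneg (norm_nonneg _) two_ne_zero).1 h14
  · rw [h10, diagonal_pow] at h9
    simpa using congrFun (congrFun h9 i) i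

noncomputable def tau (d : ℕ) (β : ν → ℂ) : Matrix ν ν ℂ :=
  Matrix.of fun i k => ∑ l ∈ Finset.range d, (β k * star (β i)) ^ l

noncomputable def L1 (J : Matrix ι ν ℂ) (β : ν → ℂ) (b : Matrix ν ν ℂ) (Z : Matrix ι ν ℂ) :
    Matrix ν ν ℂ :=
  (diagonal β)ᴴ * b + ((diagonal β)ᴴ * b)ᴴ + (Jᴴ * Z - (Jᴴ * Z)ᴴ)

noncomputable def L2 (J : Matrix ι ν ℂ) (β : ν → ℂ) (τ b : Matrix ν ν ℂ) (Z : Matrix ι ν ℂ) :
    Matrix ι ν ℂ :=
  J * (τ ⊙ ((diagonal β)ᴴ * b) + (Jᴴ * Z + (Jᴴ * Z)ᴴ)) - ((Z - J * (Jᴴ * Z)) + (Z - J * (Jᴴ * Z)))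

theorem base_deriv {J : Matrix ι ν ℂ} (hJ : Jᴴ * J = 1) {δ β : ν → ℂ} {d : ℕ}
    (hβ : ∀ i, ‖β i‖ = 1 ∧ β i ^ d = δ i) {b : ℝ → Matrix ν ν ℂ} {Z : ℝ → Matrix ι ν ℂ}
    {b' : Matrix ν ν ℂ} {Z' : Matrix ι ν ℂ} (hb : HasDerivAt b b' 0) (hZ : HasDerivAt Z Z' 0)
    (hb0 : b 0 = diagonal β) (hZ0 : Z 0 = 0) :
    HasDerivAt (fun t => (b t)ᴴ * b t - 1 + (Jᴴ * Z t - (Jᴴ * Z t)ᴴ)) (L1 J β b' Z') 0 ∧
    HasDerivAt (fun t => G0 J δ d (b t) * (1 + xH (xV J (Z t)) (Jᴴ * Z t)) * xV J (Z t) -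
      xV J (Z t)) (L2 J β (tau d β) b' Z') 0 := by
  have hββ : ∀ i, star (β i) * β i = 1 := fun i => by
    simp [Complex.conj_mul', (hβ i).1]
  have hX : HasDerivAt (fun t => Jᴴ * Z t) (Jᴴ * Z') 0 :=
    (hasDerivAt_mmul (hasDerivAt_const _ Jᴴ) hZ).congr_deriv (by simp)
  have hV : HasDerivAt (fun t => xV J (Z t)) (Z' - J * (Jᴴ * Z')) 0 :=
    (hZ.add (hasDerivAt_mmul (hasDerivAt_const _ J) (hX.const_sub 1))).congr_deriv
      (by simp [sub_eq_add_neg])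
  have hV0 : xV J (Z 0) = J := by simp [xV, hZ0]
  have hH : HasDerivAt (fun t => xH (xV J (Z t)) (Jᴴ * Z t)) (J * (Jᴴ * Z' + (Jᴴ * Z')ᴴ) * Jᴴ) 0 :=
    (hasDerivAt_mmul (hasDerivAt_mmul hV (hX.add (hasDerivAt_mH hX))) (hasDerivAt_mH hV)
      ).congr_deriv (by simp [hZ0, xV])
  have hH0 : xH (xV J (Z 0)) (Jᴴ * Z 0) = 0 := by simp [xH, hZ0]
  have hP := hasDerivAt_mpow_diag hb β hb0 d
  have hG : HasDerivAt (fun t => G0 J δ d (b t)) (J * (tau d β ⊙ ((diagonal β)ᴴ * b')) * Jᴴ) 0 := by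
    refine ((hasDerivAt_mmul (hasDerivAt_mmul (hasDerivAt_const _ J)
      (hasDerivAt_mmul (hasDerivAt_const _ (diagonal δ)ᴴ) hP)) (hasDerivAt_const _ Jᴴ)).sub_const
      _).congr_deriv ?_
    simp only [Matrix.zero_mul, zero_add, Matrix.mul_zero, add_zero]
    congr 2
    ext i k
    rw [hadamard_apply, diagonal_conjTranspose, diagonal_conjTranspose, diagonal_mul, diagonal_mul,
      of_apply, tau, of_apply,
      ← Finset.sum_range_reflect (fun l => β i ^ l * β k ^ (d - 1 - l)) d, ← mul_assoc, ← mul_assoc]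
    congr 1
    rw [Finset.mul_sum, Finset.sum_mul]
    refine Finset.sum_congr rfl fun l hl => ?_
    obtain ⟨e, rfl⟩ : ∃ e, d = l + 1 + e := ⟨d - 1 - l, by have := Finset.mem_range.1 hl; omega⟩
    have e1 : l + 1 + e - 1 - l = e := by omega
    have e2 : l + 1 + e - 1 - e = l := by omega
    rw [e1, e2, Pi.star_apply, Pi.star_apply, ← (hβ i).2, star_pow]
    have : (star (β i) * β i) ^ e = 1 := by rw [hββ, one_pow]
    rw [mul_pow] at this
    linear_combination (star (β i) ^ (l + 1) * β k ^ l) * this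
  have hG0 : G0 J δ d (b 0) = J * Jᴴ - (1 - J * Jᴴ) := by
    have : (diagonal δ)ᴴ * b 0 ^ d = 1 := by
      rw [hb0, diagonal_pow, diagonal_conjTranspose, diagonal_mul_diagonal, ← diagonal_one]
      congr 1
      ext i
      rw [Pi.star_apply, Pi.pow_apply, ← (hβ i).2, star_pow, ← mul_pow, hββ, one_pow]
    rw [G0, this, Matrix.mul_one]
  constructor
  · refine (((hasDerivAt_mmul (hasDerivAt_mH hb) hb).sub_const 1).add
      (hX.sub (hasDerivAt_mH hX))).congr_deriv ?_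
    rw [L1, hb0, conjTranspose_mul _ b', conjTranspose_conjTranspose, add_comm (b'ᴴ * _)]
  · refine ((hasDerivAt_mmul (hasDerivAt_mmul hG (hH.const_add 1)) hV).sub hV).congr_deriv ?_
    rw [hH0, hV0, hG0, L2]
    simp only [add_zero, Matrix.mul_one, Matrix.add_mul, Matrix.sub_mul, Matrix.mul_sub,
      Matrix.mul_add, Matrix.mul_assoc, hJ, ← Matrix.mul_assoc Jᴴ J, Matrix.one_mul]
    abel

theorem L_inj {J : Matrix ι ν ℂ} (hJ : Jᴴ * J = 1) {β : ν → ℂ} (hβ : ∀ i, β i ≠ 0)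
    {τ : Matrix ν ν ℂ} (hτ : ∀ i k, star (τ k i) = τ i k) (hτ0 : ∀ i k, τ i k ≠ 0)
    {b : Matrix ν ν ℂ} {Z : Matrix ι ν ℂ} (h1 : L1 J β b Z = 0) (h2 : L2 J β τ b Z = 0) :
    b = 0 ∧ Z = 0 := by
  obtain ⟨h3, h4⟩ := herm_skew (by simp [add_comm]) (by simp) h1
  have h5 : τ ⊙ ((diagonal β)ᴴ * b) + (Jᴴ * Z + (Jᴴ * Z)ᴴ) = 0 := by
    have := congrArg (Jᴴ * ·) h2
    simpa [L2, Matrix.mul_sub, Matrix.mul_add, ← Matrix.mul_assoc, hJ] using this
  rw [add_comm] at h5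
  obtain ⟨h6, h7⟩ := herm_skew (by simp [add_comm]) (by
    ext i k
    rw [conjTranspose_apply, Matrix.neg_apply, hadamard_apply, hadamard_apply, star_mul', hτ,
      ← conjTranspose_apply, eq_neg_of_add_eq_zero_right h3]
    simp) h5
  have hX : Jᴴ * Z = 0 := by
    rw [← sub_eq_zero.1 h4] at h6
    have h8 : (2 : ℂ) • (Jᴴ * Z) = 0 := by rw [two_smul, h6]
    exact (smul_eq_zero.1 h8).resolve_left two_ne_zero
  constructor
  · ext i k
    have := congrFun (congrFun h7 i) k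
    rw [hadamard_apply, diagonal_conjTranspose, diagonal_mul] at this
    simpa [hτ0, hβ] using this
  · rw [L2, h7, hX] at h2
    have h8 : (2 : ℂ) • Z = 0 := by
      rw [two_smul, ← neg_eq_zero, neg_add]
      simpa using h2
    exact (smul_eq_zero.1 h8).resolve_left two_ne_zero

theorem tau_log {n d : ℕ} (hd : 0 < d) {δ β : Fin n → ℂ} (hδ : Function.Injective δ)
    (hβ : ∀ i, ‖β i‖ = 1 ∧ β i ^ d = δ i) :
    ∃ ζ : Fin n → Fin n → ℂ, (∀ i k, star (ζ k i) = ζ i k) ∧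
      ∀ i k, Complex.exp (ζ i k) = tau d β i k := by
  have hββ : ∀ i, β i * star (β i) = 1 := fun i => by
    simp [Complex.mul_conj', (hβ i).1]
  have h1 : ∀ i k, star (tau d β k i) = tau d β i k := fun i k => by
    simp [tau, star_sum, mul_comm]
  have h2 : ∀ i, tau d β i i = d := fun i => by
    simp only [tau, of_apply, hββ]
    simp
  have h3 : ∀ i k, tau d β i k ≠ 0 := by
    intro i k h
    by_cases hik : i = k
    · rw [hik, h2] at h
      exact hd.ne' (by exact_mod_cast h)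
    · have h4 := geom_sum_mul (β k * star (β i)) d
      rw [tau, of_apply] at h
      rw [h, zero_mul, mul_pow] at h4
      have h5 : (β i * star (β i)) ^ d = 1 := by rw [hββ, one_pow]
      rw [mul_pow] at h5
      apply hik
      apply hδ
      rw [← (hβ i).2, ← (hβ k).2]
      linear_combination β i ^ d * h4 + β k ^ d * h5
  refine ⟨fun i k => if i < k then Complex.log (tau d β i k) else star (Complex.log (tau d β k i)),
    fun i k => ?_, fun i k => ?_⟩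
  · rcases lt_trichotomy i k with h | rfl | h
    · simp [h, h.not_gt]
    · simp [h2, ← Complex.natCast_log]
    · simp [h, h.not_gt]
  · by_cases h : i < k
    · simp [h, Complex.exp_log (h3 i k)]
    · simp only [h, if_false, Complex.star_def, Complex.exp_conj, Complex.exp_log (h3 k i)]
      exact h1 i k

end One

end Vale.Agent.P174b
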