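import Vale.Agent.P174b.Key

/-! The core contradiction for a balanced spherical picture. -/

set_option linter.unusedSectionVars false

open Matrix

namespace Vale.Agent.P174b

variable {G : Type*} [Group G]

theorem no_short_diag {S : Type*} [Fintype S] [DecidableEq S] (E : ℕ) (hE : Fintype.card S = 2 * E)
    (g : G) (h : ∀ ω : Circle, ∃ lam : Circle, PL (mtr _ (tr0 G))
      (diagonal fun u : Option S => piG G (u.elim (lam, g) fun _ => (ω, 1))) (4 * Real.pi * E)) :
    g = 1 := by
  classical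
  by_contra hg
  refine phase_contra E (orderOf g) (fun e => hg (orderOf_eq_one_iff.1 e)) fun ω => ?_
  obtain ⟨lam, hl⟩ := h ω
  refine ⟨lam, fun z hz K => ?_⟩
  have h1 := hl.psi_le isTr_tr0.matrix hz K
  have h2 : ∀ j : ℕ, mtr _ (tr0 G) ((diagonal fun u : Option S =>
      piG G (u.elim (lam, g) fun _ => (ω, 1))) ^ j) =
      2 * E * (ω : ℂ) ^ j + if orderOf g ∣ j then (lam : ℂ) ^ j else 0 := by
    intro j
    simp only [diagonal_pow, mtr_apply, diagonal_apply_eq, Pi.pow_apply, ← map_pow,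
      Fintype.sum_option, Option.elim, piG_apply, tr0_single, orderOf_dvd_iff_pow_eq_one]
    simp [hE, add_comm, tr0_single]
  have h3 : mtr (Option S) (tr0 G) 1 = 2 * E + 1 := by
    have h1 : tr0 G 1 = 1 := MonoidAlgebra.coeff_one_one
    simp [mtr_apply, h1, hE]
  simpa only [Psi, h2, one_pow, h3] using h1

theorem EF_faceWord {S H X : Type*} [DecidableEq S] [Group H] (κ : H →* G) (lt : S → X)
    (sg : S → Bool) (Q : Wr (Option S) H) (L : List S) :
    EF κ lt sg (faceWord Q L) = (L.map fun s => Monoid.Coprod.inr (FreeGroup.mk [(lt s, sg s)]) *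
      Monoid.Coprod.inl (κ (Q.l (some s)))).prod := by
  induction L with
  | nil => rfl
  | cons a L ih =>
    rw [faceWord] at ih
    simp [faceWord, ih, mul_assoc]

theorem EF_flatMap {S H X F : Type*} [DecidableEq S] [Group H] (κ : H →* G) (lt : S → X)
    (sg : S → Bool) (w : F → List (H ⊕ S)) (fs : List F) :
    EF κ lt sg (fs.flatMap w) = (fs.map fun f => EF κ lt sg (w f)).prod := by
  induction fs with
  | nil => rfl
  | cons a L ih => simp [ih]

theorem lets_flatMap {S H F : Type*} [DecidableEq S] [Group H] (w : F → List (H ⊕ S))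
    (fs : List F) : lets (fs.flatMap w) = fs.flatMap fun f => lets (w f) := by
  induction fs with
  | nil => rfl
  | cons a L ih => simp [ih]

variable {α : Type*} [Fintype α] [DecidableEq α]

def syl (x : α × Bool × G) : Monoid.Coprod G (FreeGroup α) :=
  Monoid.Coprod.inr (FreeGroup.mk [(x.1, x.2.1)]) * Monoid.Coprod.inl x.2.2

def evS (l : List (α × Bool × G)) : Monoid.Coprod G (FreeGroup α) := (l.map syl).prod

theorem core (k : α → ℕ) (r : ∀ a, Fin (k a + 1) → α × Bool × G) {d : ℕ} (hd : 0 < d)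
    (hc : ∀ c a', (Finset.univ.filter fun p : Σ a, Fin (k a + 1) =>
        (r p.1 p.2).1 = c ∧ p.1 = a' ∧ (r p.1 p.2).2.1 = true).card =
      (Finset.univ.filter fun p : Σ a, Fin (k a + 1) =>
        (r p.1 p.2).1 = c ∧ p.1 = a' ∧ (r p.1 p.2).2.1 = false).card + if a' = c then d else 0)
    (n : ℕ) (fs : List (α × Bool × Fin n)) (hnd : fs.Nodup) (hall : ∀ f, f ∈ fs)
    (len : α × Bool × Fin n → ℕ) (u : ∀ f, Fin (len f) → α × Bool × G) (g : G)
    (hg : (fs.map fun f => evS (List.ofFn (u f)) *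
      (if f.2.1 = true then evS (List.ofFn (r f.1)) else (evS (List.ofFn (r f.1)))⁻¹) *
      (evS (List.ofFn (u f)))⁻¹).prod = Monoid.Coprod.inl g) : g = 1 := by
  rw [← inv_eq_one]
  let Pos := Σ a, Fin (k a + 1)
  let St := Σ f, Fin (len f)
  have iPos : DecidableEq Pos := Classical.decEq _
  have iSt : DecidableEq St := Classical.decEq _
  refine no_short_diag (S := Pr Pos St n × Bool) (Fintype.card (Pr Pos St n))
    (by rw [Fintype.card_prod, Fintype.card_bool, mul_comm]) _ fun ω => ?_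
  let ν : Equiv.Perm Pos := Equiv.sigmaCongrRight fun a => finRotate (k a + 1)
  have hν : ∀ a j, ν ⟨a, j⟩ = ⟨a, finRotate _ j⟩ := fun _ _ => rfl
  have hν' : ∀ a j, ν.symm ⟨a, finRotate _ j⟩ = ⟨a, j⟩ := fun a j => by
    rw [← hν, Equiv.symm_apply_apply]
  let Q : Wr (Option (Pr Pos St n × Bool)) (Circle × G) := Qw ν (fun p => (r p.1 p.2).2.2) ω
  let lt : Pr Pos St n × Bool → α := fun s =>
    Sum.elim (fun x : Pos × Fin n => (r x.1.1 x.1.2).1) (fun st : St => (u st.1 st.2).1) s.1
  let sg : Pr Pos St n × Bool → Bool := sgn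
    (Sum.elim (fun x : Pos × Fin n => (r x.1.1 x.1.2).2.1) fun st : St => (u st.1 st.2).2.1)
  let fl : ∀ f : α × Bool × Fin n, Fin (k f.1 + 1) → Pr Pos St n × Bool := fun f j =>
    (.inl (⟨f.1, j⟩, f.2.2), f.2.1)
  have hfl : ∀ f, Function.Injective (fl f) := fun f i j h => by simpa [fl, Pos] using h
  let face : α × Bool × Fin n → List ((Circle × G) ⊕ (Pr Pos St n × Bool)) := fun f =>
    if f.2.1 = true then faceWord Q (List.ofFn (fl f)) else invWord (faceWord Q⁻¹ (List.ofFn (fl f)))
  let us : ∀ f : α × Bool × Fin n,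
      List ((Pr Pos St n × Bool) × (Pr Pos St n × Bool) × (Circle × G)) := fun f =>
    List.ofFn fun j : Fin (len f) => ((.inr ⟨f, j⟩, true), (.inr ⟨f, j⟩, false), (1, (u f j).2.2))
  let blk := fun f => conjW ((ω, 1) : Circle × G) (us f) (face f)
  have hface : ∀ f, Good Q (face f) 1 := by
    rintro ⟨a, _ | _, i⟩
    · refine good_inv_face Q _ (hfl _) fun j => ?_
      rw [Wr.inv_r, Equiv.Perm.inv_eq_iff_eq]
      rfl
    · refine good_face Q _ (hfl _) fun j => ?_
      show some ((Sum.inl (ν.symm ⟨a, finRotate _ j⟩, i), true) : Pr Pos St n × Bool) = _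
      rw [hν']
  have hlf : ∀ f, (lets (face f)).Perm (List.ofFn (fl f)) := by
    rintro ⟨a, _ | _, i⟩
    · simp only [face, Bool.false_eq_true, if_false, lets_invWord, lets_faceWord]
      exact List.reverse_perm _
    · simp only [face, if_true, lets_faceWord]
      exact List.Perm.refl _
  have hlb : ∀ f, (lets (blk f)).Perm
      ((List.ofFn fun j : Fin (len f) => ((.inr ⟨f, j⟩, true) : Pr Pos St n × Bool)) ++
      ((List.ofFn fun j : Fin (len f) => ((.inr ⟨f, j⟩, false) : Pr Pos St n × Bool)) ++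
        List.ofFn (fl f))) := by
    intro f
    refine (lets_conjW _ _ _).trans ?_
    simp only [us, List.map_ofFn, Function.comp_def]
    exact ((hlf f).append_left _).append_left _
  let own : Pr Pos St n × Bool → α × Bool × Fin n := fun s =>
    Sum.elim (fun x : Pos × Fin n => (x.1.1, s.2, x.2)) (fun st : St => st.1) s.1
  have hmem : ∀ f s, s ∈ lets (blk f) ↔ own s = f := by
    intro f s
    rw [(hlb f).mem_iff]
    simp only [List.mem_append, List.mem_ofFn]
    constructor
    · rintro (⟨j, rfl⟩ | ⟨j, rfl⟩ | ⟨j, rfl⟩) <;> rfl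
    · rintro rfl
      rcases s with ⟨⟨⟨a, j⟩, i⟩ | ⟨f, j⟩, b⟩
      · exact Or.inr (Or.inr ⟨j, rfl⟩)
      · cases b
        · exact Or.inr (Or.inl ⟨j, rfl⟩)
        · exact Or.inl ⟨j, rfl⟩
  have hbnd : ∀ f, (lets (blk f)).Nodup := by
    intro f
    rw [(hlb f).nodup_iff, List.nodup_append, List.nodup_append]
    refine ⟨List.nodup_ofFn.2 fun i j h => by simpa [St] using h,
      ⟨List.nodup_ofFn.2 fun i j h => by simpa [St] using h, List.nodup_ofFn.2 (hfl f), ?_⟩, ?_⟩
    · simp only [List.mem_ofFn]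
      rintro _ ⟨i, rfl⟩ _ ⟨j, rfl⟩ h
      simp [fl] at h
    · simp only [List.mem_append, List.mem_ofFn]
      rintro _ ⟨i, rfl⟩ _ (⟨j, rfl⟩ | ⟨j, rfl⟩) h <;> simp [fl] at h
  have hnd0 : (lets (fs.flatMap blk)).Nodup := by
    rw [lets_flatMap, List.nodup_flatMap]
    refine ⟨fun f _ => hbnd f, hnd.imp fun {f f'} hff s h1 h2 => hff ?_⟩
    rw [← (hmem _ _).1 h1, ← (hmem _ _).1 h2]
  have hall0 : ∀ s, s ∈ lets (fs.flatMap blk) := fun s => by
    rw [lets_flatMap, List.mem_flatMap]
    exact ⟨own s, hall _, (hmem _ _).2 rfl⟩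
  obtain ⟨x, R₂, hx, hR₂, hEW⟩ := Good.flatMap blk (fun f => 1 + (us f).length) fs
    (fun f _ => good_conjW (hface f) (us f) (by
      simp only [us, List.mem_ofFn]
      rintro _ ⟨j, rfl⟩
      exact ⟨rfl, rfl, rfl, rfl⟩) (hbnd f)) hnd0
  have hxQ : x = Q := by
    refine Wr.ext (funext fun i => ?_) (Equiv.ext fun i => ?_)
    · rcases i with _ | s
      · exact hx.1
      · exact (hx.2.2.1 s (hall0 s)).1
    · rcases i with _ | s
      · exact hx.2.1
      · exact (hx.2.2.1 s (hall0 s)).2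
  have hEF : EF (MonoidHom.snd Circle G) lt sg (fs.flatMap blk) = Monoid.Coprod.inl g := by
    rw [EF_flatMap, ← hg]
    congr 1
    refine List.map_congr_left fun f _ => ?_
    rw [EF_conjW _ _ _ rfl _ (by
      simp only [us, List.mem_ofFn]
      rintro _ ⟨j, rfl⟩
      exact ⟨rfl, rfl⟩)]
    have h1 : ((us f).map fun v => Monoid.Coprod.inr (FreeGroup.mk [(lt v.1, sg v.1)]) *
        Monoid.Coprod.inl (MonoidHom.snd Circle G v.2.2)).prod = evS (List.ofFn (u f)) := by
      simp only [us, evS, List.map_ofFn]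
      rfl
    rw [h1]
    congr 2
    rcases f with ⟨a, _ | _, i⟩
    · simp only [face, Bool.false_eq_true, if_false, EF_invWord, EF_faceWord, evS, List.map_ofFn]
      congr 3
      funext j
      have h2 : MonoidHom.snd Circle G (Q⁻¹.l (some (fl (a, false, i) j))) = (r a j).2.2 := by
        show (((fun p : Pos => (r p.1 p.2).2.2) (ν.symm (ν ⟨a, j⟩)))⁻¹)⁻¹ = _
        rw [Equiv.symm_apply_apply, inv_inv]
      simp only [Function.comp, h2, syl]
      congr 5
      simp [sg, sgn, fl]
    · simp only [face, if_true, EF_faceWord, evS, List.map_ofFn]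
      rfl
  refine ⟨(tot (fs.flatMap blk)).1⁻¹, ?_⟩
  obtain ⟨h1, D, ι, k₁, R₁, h2, h3, h4, h5, h6⟩ := word_planar (MonoidHom.snd Circle G) lt sg
    (fs.flatMap blk ++ [.inl ((tot (fs.flatMap blk)).1⁻¹, g⁻¹)]) (by simpa using hnd0)
    (by simpa using hall0) (by simp [hEF])
  have h7 : tot (fs.flatMap blk ++ [.inl ((tot (fs.flatMap blk)).1⁻¹, g⁻¹)]) = 1 :=
    Prod.ext (by simp [tot_append]) h1
  rw [h7, map_one, one_mul, EW_append, hEW, hxQ] at h6
  have h8 : k₁ = Fintype.card (Pr Pos St n) := by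
    have h9 := List.toFinset_card_of_nodup hnd0
    rw [Finset.eq_univ_iff_forall.2 fun s => List.mem_toFinset.2 (hall0 s), Finset.card_univ,
      Fintype.card_prod, Fintype.card_bool] at h9
    simp only [lets_append, lets_inl, lets_nil, List.append_nil] at h4
    omega
  have h10 : (fs.map fun f => 1 + (us f).length).sum =
      2 * (Fintype.card α * n) + Fintype.card St := by
    rw [← List.sum_toFinset _ hnd, Finset.eq_univ_iff_forall.2 fun f => List.mem_toFinset.2 (hall f)]
    simp [us, St, Finset.sum_add_distrib]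
    ring
  exact key_length (fun p : Pos => p.1) ν (fun p => rfl) _ _ _ _ _ hd hc D ι h2
    (fun s => (h3 s).1) (fun s => (h3 s).2.1) (fun s => (h3 s).2.2) ω _ (h8 ▸ h5) (h10 ▸ hR₂)
    (by simpa using h6.symm)

end Vale.Agent.P174b
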