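import Mathlib

namespace Vale.Agent.P174b

/-- The exponent-sum homomorphism `G * F(X) → ℤ^X`: it kills `G` and sends `x_j` to `e_j`. -/
def expSum (G : Type*) [Group G] (X : Type*) [DecidableEq X] :
    Monoid.Coprod G (FreeGroup X) →* Multiplicative (X → ℤ) :=
  Monoid.Coprod.lift 1 (FreeGroup.lift fun j => Multiplicative.ofAdd (Pi.single j 1))

end Vale.Agent.P174b
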