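import Vale.Agent.P174b.Base
import Vale.Agent.Lib.Degree

/-! The fixed vector theorem. -/

set_option linter.unusedSectionVars false

open Matrix Filter Topology
open scoped Matrix.Norms.Elementwise

namespace Vale.Agent.P174b

theorem dense_compl_iUnion {E κ : Type*} [NormedAddCommGroup E] [NormedSpace ℝ E]
    [FiniteDimensional ℝ E] [Countable κ] (f : κ → E → E) (hf : ∀ i, ContDiff ℝ 1 (f i))
    (S : κ → Submodule ℝ E) (hS : ∀ i, S i ≠ ⊤) : Dense (⋃ i, f i '' S i)ᶜ := by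
  rcases isEmpty_or_nonempty κ with h | ⟨⟨i₀⟩⟩
  · simp
  refine dense_compl_of_dimH_lt_finrank ?_
  rw [dimH_iUnion]
  have h0 := Submodule.finrank_lt (hS i₀)
  refine lt_of_le_of_lt (b := ((Module.finrank ℝ E - 1 : ℕ) : ENNReal)) (iSup_le fun i => ?_)
    (by exact_mod_cast (by omega : Module.finrank ℝ E - 1 < Module.finrank ℝ E))
  have h1 : f i '' S i = Set.range (f i ∘ (S i).subtypeL) := by
    ext y
    simp
  rw [h1]
  refine ((hf i).comp (S i).subtypeL.contDiff).dimH_range_le.trans ?_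
  have h2 := Submodule.finrank_lt (hS i)
  exact_mod_cast (by omega : Module.finrank ℝ (S i) ≤ Module.finrank ℝ E - 1)

section

variable {D : Type*} [NormedAddCommGroup D] [NormedSpace ℝ D] {ι ν : Type*} [Fintype ι]
  [DecidableEq ι] [Fintype ν] [DecidableEq ν] {N : WithTop ℕ∞}

theorem contDiff_xV (J : Matrix ι ν ℂ) {Z : D → Matrix ι ν ℂ} (hZ : ContDiff ℝ N Z) :
    ContDiff ℝ N fun x => xV J (Z x) := by
  unfold xV
  fun_prop

theorem contDiff_xH {V : D → Matrix ι ν ℂ} {X : D → Matrix ν ν ℂ} (hV : ContDiff ℝ N V)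
    (hX : ContDiff ℝ N X) : ContDiff ℝ N fun x => xH (V x) (X x) := by
  unfold xH
  fun_prop

theorem contDiff_chV (ch : Chart ι ν) {Z : D → Matrix ι ι ℂ} (hZ : ContDiff ℝ N Z) :
    ContDiff ℝ N fun x => chV ch (Z x) := by
  refine contDiff_const.add (contDiff_matrix.2 fun i k => ?_)
  by_cases h : ch.2.2 i k = true
  · simpa [h] using contDiff_const
  · simpa [h] using contDiff_entry hZ _ _

theorem contDiff_chX (ch : Chart ι ν) {Z : D → Matrix ι ι ℂ} (hZ : ContDiff ℝ N Z) :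
    ContDiff ℝ N fun x => chX ch (Z x) :=
  contDiff_matrix.2 fun _ _ => contDiff_entry hZ _ _

theorem isometry_norm_le {W : Matrix ι ν ℂ} (h : Wᴴ * W = 1) : ‖W‖ ≤ 1 := by
  refine (norm_le_iff zero_le_one).2 fun i k => ?_
  have h1 := congrFun (congrFun h k) k
  simp only [mul_apply, conjTranspose_apply, one_apply_eq, Complex.star_def,
    Complex.conj_mul'] at h1
  have h2 : ∑ i, ‖W i k‖ ^ 2 = 1 := by exact_mod_cast h1
  have h3 := Finset.single_le_sum (f := fun i => ‖W i k‖ ^ 2) (fun _ _ => by positivity)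
    (Finset.mem_univ i)
  rw [h2] at h3
  exact (sq_le_one_iff₀ (norm_nonneg _)).1 h3

end

variable {α : Type*} [Fintype α] [DecidableEq α] {n : ℕ} {ι : α → Type*} [∀ c, Fintype (ι c)]
  [∀ c, DecidableEq (ι c)]

abbrev BB (α : Type*) (n : ℕ) := α → Matrix (Fin n) (Fin n) ℂ

abbrev E0 (ι : α → Type*) (n : ℕ) := BB α n × ∀ c, Matrix (ι c) (Fin n) ℂ

abbrev EP (ι : α → Type*) (n : ℕ) := BB α n × ∀ c, Matrix (ι c) (ι c) ℂ

noncomputable def Phi (J : ∀ c, Matrix (ι c) (Fin n) ℂ)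
    (F : ℝ × BB α n → ∀ c, Matrix (ι c) (ι c) ℂ) (q : EP ι n) (x : ℝ × E0 ι n) : E0 ι n :=
  (fun c => (x.2.1 c)ᴴ * x.2.1 c - 1 + ((J c)ᴴ * x.2.2 c - ((J c)ᴴ * x.2.2 c)ᴴ) - x.1 • q.1 c,
    fun c => F (x.1, x.2.1) c * (1 + xH (xV (J c) (x.2.2 c)) ((J c)ᴴ * x.2.2 c)) *
      xV (J c) (x.2.2 c) - (1 + x.1 • q.2 c) * xV (J c) (x.2.2 c))

theorem contDiff_Phi (J : ∀ c, Matrix (ι c) (Fin n) ℂ)
    {F : ℝ × BB α n → ∀ c, Matrix (ι c) (ι c) ℂ} (hF : ContDiff ℝ 2 F) (q : EP ι n) :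
    ContDiff ℝ 2 (Phi J F q) := by
  have hZ : ∀ c, ContDiff ℝ 2 fun x : ℝ × E0 ι n => x.2.2 c :=
    contDiff_pi.1 (contDiff_snd.comp contDiff_snd)
  have hF' : ∀ c, ContDiff ℝ 2 fun x : ℝ × E0 ι n => F (x.1, x.2.1) c :=
    contDiff_pi.1 (hF.comp (by fun_prop))
  refine ContDiff.prodMk (contDiff_pi.2 fun c => ?_) (contDiff_pi.2 fun c => ?_)
  · have h1 := contDiff_mmul (contDiff_const (c := (J c)ᴴ)) (hZ c)
    exact ContDiff.sub (ContDiff.add (by fun_prop) (h1.sub (contDiff_mH h1))) (by fun_prop)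
  · have h1 := contDiff_mmul (contDiff_const (c := (J c)ᴴ)) (hZ c)
    have h2 := contDiff_xV (J c) (hZ c)
    exact (contDiff_mmul (contDiff_mmul (hF' c) (contDiff_const.add (contDiff_xH h2 h1))) h2).sub
      (contDiff_mmul (by fun_prop) h2)

theorem hasDerivAt_line {E : Type*} [NormedAddCommGroup E] [NormedSpace ℝ E] (x v : E) :
    HasDerivAt (fun t : ℝ => x + t • v) v 0 :=
  (((hasDerivAt_id (0 : ℝ)).smul_const v).const_add x).congr_deriv (one_smul _ _)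

noncomputable def Lfam (J : ∀ c, Matrix (ι c) (Fin n) ℂ) (β : α → Fin n → ℂ) (τ : BB α n) :
    E0 ι n →L[ℝ] E0 ι n :=
  LinearMap.toContinuousLinearMap
    { toFun := fun v => (fun c => L1 (J c) (β c) (v.1 c) (v.2 c),
        fun c => L2 (J c) (β c) (τ c) (v.1 c) (v.2 c))
      map_add' := fun v w => by
        refine Prod.ext (funext fun c => ?_) (funext fun c => ?_)
        · simp only [L1, Prod.fst_add, Prod.snd_add, Pi.add_apply, Matrix.mul_add,
            conjTranspose_add]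
          abel
        · simp only [L2, Prod.fst_add, Prod.snd_add, Pi.add_apply, Matrix.mul_add,
            conjTranspose_add, hadamard_add]
          abel
      map_smul' := fun r v => by
        refine Prod.ext (funext fun c => ?_) (funext fun c => ?_)
        · simp [L1, smul_sub]
        · simp [L2, smul_sub, Matrix.mul_add] }

theorem Lfam_apply (J : ∀ c, Matrix (ι c) (Fin n) ℂ) (β : α → Fin n → ℂ) (τ : BB α n)
    (v : E0 ι n) : Lfam J β τ v = (fun c => L1 (J c) (β c) (v.1 c) (v.2 c),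
        fun c => L2 (J c) (β c) (τ c) (v.1 c) (v.2 c)) := rfl

theorem base_sign {J : ∀ c, Matrix (ι c) (Fin n) ℂ} (hJ : ∀ c, (J c)ᴴ * J c = 1)
    {F : ℝ × BB α n → ∀ c, Matrix (ι c) (ι c) ℂ} (hF : ContDiff ℝ 2 F) (q : EP ι n)
    {δ : Fin n → ℂ} (hδ : ∀ i, ‖δ i‖ = 1) (hδi : Function.Injective δ) {d : ℕ} (hd : 0 < d)
    (hF0 : ∀ b c, F (0, b) c = G0 (J c) δ d (b c)) (x : E0 ι n) (hx : Phi J F q (0, x) = 0)
    (hn : ∀ c, ‖xH (xV (J c) (x.2 c)) ((J c)ᴴ * x.2 c)‖ ≤ 1 / (Fintype.card (ι c) + 1)) :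
    0 < (Lfam J (fun _ _ => 1) (fun _ => Matrix.of fun _ _ => 1)).det *
      (fderiv ℝ (fun y => Phi J F q (0, y)) x).det := by
  have h1 := fun c => base_solution (hJ c) hδ hδi d (b := x.1 c) (Z := x.2 c)
    (by simpa [Phi] using congrFun (congrArg Prod.fst hx) c)
    (by simpa [Phi, hF0, sub_eq_zero] using congrFun (congrArg Prod.snd hx) c) (hn c)
  choose hZ β hb hβ using h1
  choose ζ hζ hζ' using fun c => tau_log hd hδi (hβ c)
  have hβ0 : ∀ c i, β c i ≠ 0 := fun c i h => by simpa [h] using (hβ c i).1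
  have hD : fderiv ℝ (fun y => Phi J F q (0, y)) x = Lfam J β (fun c => tau d (β c)) := by
    refine ContinuousLinearMap.ext fun v => ?_
    have h2 : Differentiable ℝ fun y => Phi J F q (0, y) :=
      ((contDiff_Phi J hF q).comp (f := fun y : E0 ι n => ((0 : ℝ), y))
        (by fun_prop)).differentiable (by norm_num)
    have h3 := hasDerivAt_line x v
    have h4 := (h2 x).hasFDerivAt.comp_hasDerivAt_of_eq 0 h3 (by simp)
    refine h4.unique ?_
    have h5 := fun c => base_deriv (hJ c) (hβ c) (b := fun t : ℝ => x.1 c + t • v.1 c)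
      (Z := fun t : ℝ => x.2 c + t • v.2 c) (b' := v.1 c) (Z' := v.2 c)
      (hasDerivAt_line _ _) (hasDerivAt_line _ _)
      (by simpa using hb c) (by simpa using hZ c)
    rw [Lfam_apply]
    have h6 := (hasDerivAt_pi.2 fun c => (h5 c).1).prodMk (hasDerivAt_pi.2 fun c => (h5 c).2)
    refine h6.congr_of_eventuallyEq (Eventually.of_forall fun t => ?_)
    simp [Phi, hF0]
  have h7 := sign_const (fun t : ℝ => Lfam J (fun c i => Complex.exp (t * Complex.log (β c i)))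
    (fun c => Matrix.of fun i k => Complex.exp (t * ζ c i k))) ?_ ?_
  · simp only [Complex.ofReal_zero, zero_mul, Complex.exp_zero, Complex.ofReal_one, one_mul,
      Complex.exp_log (hβ0 _ _), hζ'] at h7
    rw [hD]
    exact h7
  · intro v
    refine Continuous.prodMk (continuous_pi fun c => ?_) (continuous_pi fun c => ?_)
    · simp only [L1]
      fun_prop
    simp only [L2]
    refine Continuous.sub (continuous_const.matrix_mul (Continuous.add ?_ continuous_const))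
      continuous_const
    refine continuous_matrix fun i k => ?_
    simp only [hadamard_apply, of_apply, diagonal_conjTranspose, diagonal_mul, Pi.star_apply]
    fun_prop
  · intro t v hv
    have h8 := fun c => L_inj (hJ c) (fun i => Complex.exp_ne_zero _)
      (τ := Matrix.of fun i k => Complex.exp (t * ζ c i k))
      (fun i k => by
        rw [of_apply, of_apply, ← hζ c i k, Complex.star_def, ← Complex.exp_conj]
        simp)
      (fun i k => Complex.exp_ne_zero _) (congrFun (congrArg Prod.fst hv) c)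
      (congrFun (congrArg Prod.snd hv) c)
    exact Prod.ext (funext fun c => (h8 c).1) (funext fun c => (h8 c).2)

abbrev Mod (ι : α → Type*) (n : ℕ) :=
  (ℝ × BB α n) × (∀ c, Matrix (ι c) (Fin n) ℂ) × ∀ c, Matrix (ι c) (ι c) ℂ

def Kset (ι : α → Type*) [∀ c, Fintype (ι c)] [∀ c, DecidableEq (ι c)] (n : ℕ) : Set (Mod ι n) :=
  {k | k.1.1 ∈ Set.Icc (0 : ℝ) 1 ∧ ‖k.1.2‖ ≤ 2 ∧ ∀ c, (k.2.1 c)ᴴ * k.2.1 c = 1 ∧
    (k.2.2 c)ᴴ = k.2.2 c ∧ k.2.1 c * ((k.2.1 c)ᴴ * k.2.2 c) = k.2.2 c ∧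
    ‖k.2.2 c‖ ≤ 1 / (Fintype.card (ι c) + 1)}

theorem isCompact_Kset : IsCompact (Kset ι n) := by
  have hW : ∀ c, Continuous fun k : Mod ι n => k.2.1 c := fun c => by fun_prop
  have hH : ∀ c, Continuous fun k : Mod ι n => k.2.2 c := fun c => by fun_prop
  have i1 : ProperSpace (ℝ × BB α n) := FiniteDimensional.proper_real _
  have i2 : ProperSpace (∀ c, Matrix (ι c) (Fin n) ℂ) := FiniteDimensional.proper_real _
  have i3 : ProperSpace (∀ c, Matrix (ι c) (ι c) ℂ) := FiniteDimensional.proper_real _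
  refine Metric.isCompact_of_isClosed_isBounded ?_ ?_
  · simp only [Kset, Set.ofPred_and, Set.ofPred_forall]
    refine (isClosed_Icc.preimage (by fun_prop)).inter ((isClosed_le (by fun_prop)
      continuous_const).inter (isClosed_iInter fun c => ?_))
    exact (isClosed_eq ((hW c).matrix_conjTranspose.matrix_mul (hW c)) continuous_const).inter
      ((isClosed_eq (hH c).matrix_conjTranspose (hH c)).inter
      ((isClosed_eq ((hW c).matrix_mul ((hW c).matrix_conjTranspose.matrix_mul (hH c)))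
      (hH c)).inter (isClosed_le (hH c).norm continuous_const)))
  · refine isBounded_iff_forall_norm_le.2 ⟨2, fun k hk => ?_⟩
    obtain ⟨h1, h2, h3⟩ := hk
    simp only [Prod.norm_def, max_le_iff]
    refine ⟨⟨?_, h2⟩, (pi_norm_le_iff_of_nonneg zero_le_two).2 fun c => ?_,
      (pi_norm_le_iff_of_nonneg zero_le_two).2 fun c => ?_⟩
    · rw [Real.norm_of_nonneg h1.1]
      linarith [h1.2]
    · linarith [isometry_norm_le (h3 c).1]
    · refine (h3 c).2.2.2.trans ?_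
      rw [div_le_iff₀ (by positivity)]
      have : (0 : ℝ) ≤ Fintype.card (ι c) := Nat.cast_nonneg _
      linarith

noncomputable def kap (q : EP ι n) (k : Mod ι n) (c : α) : Matrix (Fin n) (Fin n) ℂ :=
  k.1.1 • q.1 c - ((k.1.2 c)ᴴ * k.1.2 c - 1)

noncomputable def Eqn (F : ℝ × BB α n → ∀ c, Matrix (ι c) (ι c) ℂ) (q : EP ι n) (k : Mod ι n) :
    E0 ι n :=
  (fun c => kap q k c + (kap q k c)ᴴ,
    fun c => F k.1 c * (1 + k.2.2 c) * k.2.1 c - (1 + k.1.1 • q.2 c) * k.2.1 c)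

theorem continuous_kap (c : α) : Continuous fun z : EP ι n × Mod ι n => kap z.1 z.2 c := by
  unfold kap
  fun_prop

theorem continuous_Eqn {F : ℝ × BB α n → ∀ c, Matrix (ι c) (ι c) ℂ} (hF : Continuous F) :
    Continuous fun z : EP ι n × Mod ι n => Eqn F z.1 z.2 := by
  refine Continuous.prodMk (continuous_pi fun c => ?_) (continuous_pi fun c => ?_)
  · exact (continuous_kap c).add (continuous_kap c).matrix_conjTranspose
  · fun_prop

theorem Eqn_zero {F : ℝ × BB α n → ∀ c, Matrix (ι c) (ι c) ℂ} {q : EP ι n} {k : Mod ι n}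
    (hk : k ∈ Kset ι n) (h : Eqn F q k = 0) (hq : k.1.1 • q = 0)
    (hU : (∀ a, (k.1.2 a)ᴴ * k.1.2 a = 1) → ∀ c, (F k.1 c)ᴴ * F k.1 c = 1) :
    (∀ a, (k.1.2 a)ᴴ * k.1.2 a = 1) ∧ ∀ c, k.2.2 c = 0 ∧ F k.1 c * k.2.1 c = k.2.1 c := by
  have h1 : ∀ a, (k.1.2 a)ᴴ * k.1.2 a = 1 := by
    intro a
    have h2 : kap q k a + (kap q k a)ᴴ = 0 := congrFun (congrArg Prod.fst h) a
    have h3 : k.1.1 • q.1 a = 0 := congrFun (congrArg Prod.fst hq) a
    rw [kap, h3] at h2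
    have h4 : (2 : ℂ) • ((k.1.2 a)ᴴ * k.1.2 a - 1) = 0 := by
      rw [two_smul, ← neg_eq_zero, ← h2]
      simp [conjTranspose_mul]
    exact sub_eq_zero.1 ((smul_eq_zero.1 h4).resolve_left two_ne_zero)
  refine ⟨h1, fun c => ?_⟩
  have h2 : F k.1 c * (1 + k.2.2 c) * k.2.1 c - (1 + k.1.1 • q.2 c) * k.2.1 c = 0 :=
    congrFun (congrArg Prod.snd h) c
  have h3 : k.1.1 • q.2 c = 0 := congrFun (congrArg Prod.snd hq) c
  rw [h3, add_zero, Matrix.one_mul, sub_eq_zero] at h2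
  obtain ⟨-, h4, h5, h6⟩ := hk.2.2 c
  have h7 := isometry_herm_zero _ _ _ (hU h1 c) h4 h5 h2 h6
  rw [h7, add_zero, Matrix.mul_one] at h2
  exact ⟨h7, h2⟩

abbrev Idx (ι : α → Type*) (n : ℕ) := Σ c₀, ι c₀ × Fin n × ∀ c, Chart (ι c) (Fin n)

noncomputable def Xi (F : ℝ × BB α n → ∀ c, Matrix (ι c) (ι c) ℂ) (i : Idx ι n) (y : EP ι n) :
    EP ι n :=
  Real.exp (-(y.2 i.1 i.2.1 ((i.2.2.2 i.1).1 i.2.2.1)).re) •
    (fun c => (y.1 c)ᴴ * y.1 c - 1 + (chX (i.2.2.2 c) (y.2 c) - (chX (i.2.2.2 c) (y.2 c))ᴴ),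
      fun c => F (Real.exp (y.2 i.1 i.2.1 ((i.2.2.2 i.1).1 i.2.2.1)).re, y.1) c *
        (1 + xH (chV (i.2.2.2 c) (y.2 c)) (chX (i.2.2.2 c) (y.2 c))) +
        y.2 c * (1 - chV (i.2.2.2 c) (y.2 c) *
          (2 - (emb (i.2.2.2 c).1)ᴴ * chV (i.2.2.2 c) (y.2 c)) * (emb (i.2.2.2 c).1)ᴴ) - 1)

theorem contDiff_Xi {F : ℝ × BB α n → ∀ c, Matrix (ι c) (ι c) ℂ} (hF : ContDiff ℝ 1 F)
    (i : Idx ι n) : ContDiff ℝ 1 (Xi F i) := by
  have hZ : ∀ c, ContDiff ℝ 1 fun y : EP ι n => y.2 c := contDiff_pi.1 contDiff_snd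
  have ht : ContDiff ℝ 1 fun y : EP ι n => (y.2 i.1 i.2.1 ((i.2.2.2 i.1).1 i.2.2.1)).re :=
    Complex.reCLM.contDiff.comp (contDiff_entry (hZ i.1) _ _)
  have hF' : ∀ c, ContDiff ℝ 1 fun y : EP ι n =>
      F (Real.exp (y.2 i.1 i.2.1 ((i.2.2.2 i.1).1 i.2.2.1)).re, y.1) c :=
    contDiff_pi.1 (hF.comp (ht.exp.prodMk contDiff_fst))
  refine ht.neg.exp.smul (ContDiff.prodMk (contDiff_pi.2 fun c => ?_) (contDiff_pi.2 fun c => ?_))
  · have h1 := contDiff_chX (i.2.2.2 c) (hZ c)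
    exact ContDiff.add (by fun_prop) (h1.sub (contDiff_mH h1))
  · have h1 := contDiff_chX (i.2.2.2 c) (hZ c)
    have h2 := contDiff_chV (i.2.2.2 c) (hZ c)
    exact ((contDiff_mmul (hF' c) (contDiff_const.add (contDiff_xH h2 h1))).add
      (contDiff_mmul (hZ c) (contDiff_const.sub (contDiff_mmul (contDiff_mmul h2
        (contDiff_const.sub (contDiff_mmul contDiff_const h2))) contDiff_const)))).sub
      contDiff_const

def Ksub (i : Idx ι n) : Submodule ℝ (EP ι n) where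
  carrier := {y | (y.2 i.1 i.2.1 ((i.2.2.2 i.1).1 i.2.2.1)).im = 0}
  add_mem' := fun {a b} ha hb => by
    simp only [Set.mem_ofPred_eq] at ha hb ⊢
    simp [ha, hb]
  zero_mem' := by simp
  smul_mem' := fun r a ha => by
    simp only [Set.mem_ofPred_eq] at ha ⊢
    simp [ha]

theorem Ksub_ne_top (i : Idx ι n) : Ksub i ≠ ⊤ := by
  intro h
  have : ((0, fun c => Matrix.of fun _ _ => Complex.I) : EP ι n) ∈ Ksub i := by
    rw [h]; trivial
  have h2 : Complex.I.im = 0 := this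
  simp at h2

theorem degenerate_mem {F : ℝ × BB α n → ∀ c, Matrix (ι c) (ι c) ℂ} {q : EP ι n} {k : Mod ι n}
    (hk : k ∈ Kset ι n) (h : Eqn F q k = 0) (hs : 0 < k.1.1) (c₀ : α) (j : Fin n → ι c₀)
    (hj : Function.Injective j) (hdet : ((emb j)ᴴ * k.2.1 c₀).det = 0) :
    q ∈ ⋃ i, Xi F i '' Ksub i := by
  obtain ⟨ch₀, T₀, T₀', i₁, k₀, h1, h2, h3, h4⟩ := chart_degenerate _ _ (hk.2.2 c₀).1 j hj hdet
  have h5 : ∀ c, ∃ (ch : Chart (ι c) (Fin n)) (T T' : Matrix (Fin n) (Fin n) ℂ),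
      T * T' = 1 ∧ ChartOK ch (k.2.1 c * T) ∧
        ∀ e : c₀ = c, ch.2.2 (e ▸ i₁) k₀ = true ∧ ∀ l, ch.2.1 l k₀ ≠ e ▸ i₁ := by
    intro c
    by_cases e : c₀ = c
    · subst e
      exact ⟨ch₀, T₀, T₀', h1, h2, fun _ => ⟨h3, h4⟩⟩
    · obtain ⟨ch, T, T', h6, h7⟩ := chart_generic _ _ (hk.2.2 c).1
      exact ⟨ch, T, T', h6, h7, fun e' => absurd e' e⟩
  choose ch T T' hT hch hsp using h5
  have hκ : ∀ c, (kap q k c)ᴴ = -kap q k c := fun c =>
    eq_neg_of_add_eq_zero_right (congrFun (congrArg Prod.fst h) c)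
  have hE : ∀ c, ((1 + k.1.1 • q.2 c) - F k.1 c * (1 + k.2.2 c)) * (k.2.1 c * T c) = 0 := by
    intro c
    have h2 : F k.1 c * (1 + k.2.2 c) * k.2.1 c - (1 + k.1.1 • q.2 c) * k.2.1 c = 0 :=
      congrFun (congrArg Prod.snd h) c
    rw [← Matrix.mul_assoc, Matrix.sub_mul, ← sub_eq_zero.1 h2, sub_self, Matrix.zero_mul]
  choose Z hZ1 hZ2 hZ3 hZ4 using fun c => chart_pack (ch c) _ (hch c)
    ((1 / 2 : ℂ) • (T' c * ((k.2.1 c)ᴴ * k.2.2 c * k.2.1 c) * (T' c)ᴴ + kap q k c)) _ (hE c)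
    (Real.log k.1.1)
  have ht : Z c₀ i₁ ((ch c₀).1 k₀) = Real.log k.1.1 :=
    hZ4 c₀ i₁ k₀ (hsp c₀ rfl).1 (hsp c₀ rfl).2
  have hh : ∀ c, (T' c * ((k.2.1 c)ᴴ * k.2.2 c * k.2.1 c) * (T' c)ᴴ)ᴴ =
      T' c * ((k.2.1 c)ᴴ * k.2.2 c * k.2.1 c) * (T' c)ᴴ := fun c => by
    simp [conjTranspose_mul, (hk.2.2 c).2.1, Matrix.mul_assoc]
  refine Set.mem_iUnion.2 ⟨⟨c₀, i₁, k₀, ch⟩, (k.1.2, Z), ?_, ?_⟩
  · show (Z c₀ i₁ ((ch c₀).1 k₀)).im = 0
    rw [ht, Complex.ofReal_im]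
  · simp only [Xi, ht, Complex.ofReal_re, Real.exp_neg, Real.exp_log hs, hZ1, hZ2, hZ3]
    rw [inv_smul_eq_iff₀ hs.ne']
    refine Prod.ext (funext fun c => ?_) (funext fun c => ?_)
    · simp only [conjTranspose_smul, conjTranspose_add, hh, hκ, Prod.smul_fst, Pi.smul_apply]
      have : k.1.1 • q.1 c = (k.1.2 c)ᴴ * k.1.2 c - 1 + kap q k c := by simp [kap]
      rw [this]
      simp only [one_div, star_inv₀, star_ofNat]
      module
    · have h6 : xH (k.2.1 c * T c) ((1 / 2 : ℂ) •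
          (T' c * ((k.2.1 c)ᴴ * k.2.2 c * k.2.1 c) * (T' c)ᴴ + kap q k c)) = k.2.2 c := by
        have h7 : ((1 / 2 : ℂ) • (T' c * ((k.2.1 c)ᴴ * k.2.2 c * k.2.1 c) * (T' c)ᴴ + kap q k c)) +
            ((1 / 2 : ℂ) • (T' c * ((k.2.1 c)ᴴ * k.2.2 c * k.2.1 c) * (T' c)ᴴ + kap q k c))ᴴ =
            T' c * ((k.2.1 c)ᴴ * k.2.2 c * k.2.1 c) * (T' c)ᴴ := by
          simp only [conjTranspose_smul, conjTranspose_add, hh, hκ, one_div, star_inv₀, star_ofNat]
          module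
        have h8 : (T' c)ᴴ * (T c)ᴴ = 1 := by rw [← conjTranspose_mul, hT, conjTranspose_one]
        have h9 : k.2.2 c * (k.2.1 c * (k.2.1 c)ᴴ) = k.2.2 c := by
          have := congrArg conjTranspose (hk.2.2 c).2.2.1
          simpa [conjTranspose_mul, (hk.2.2 c).2.1, Matrix.mul_assoc] using this
        rw [xH, h7, conjTranspose_mul]
        simp only [Matrix.mul_assoc, ← Matrix.mul_assoc (T c) (T' c), hT,
          ← Matrix.mul_assoc (T' c)ᴴ (T c)ᴴ, h8, Matrix.one_mul, h9, (hk.2.2 c).2.2.1]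
      simp only [h6, Prod.smul_snd, Pi.smul_apply]
      abel

noncomputable def Zfun (J : ∀ c, Matrix (ι c) (Fin n) ℂ) (q : EP ι n) (k : Mod ι n) : E0 ι n :=
  (k.1.2, fun c => k.2.1 c * ((J c)ᴴ * k.2.1 c)⁻¹ +
    J c * ((1 / 2 : ℂ) • ((J c)ᴴ * k.2.2 c * J c + kap q k c) - 1))

theorem model_of_chart {J : ∀ c, Matrix (ι c) (Fin n) ℂ} (hJ : ∀ c, (J c)ᴴ * J c = 1)
    {F : ℝ × BB α n → ∀ c, Matrix (ι c) (ι c) ℂ} {q : EP ι n} {s : ℝ} (hs : s ∈ Set.Icc (0 : ℝ) 1)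
    {x : E0 ι n} (hx : Phi J F q (s, x) = 0) (hb : ‖x.1‖ ≤ 2)
    (hn : ∀ c, ‖xH (xV (J c) (x.2 c)) ((J c)ᴴ * x.2 c)‖ ≤ 1 / (Fintype.card (ι c) + 1)) :
    ∃ W, ((s, x.1), W, fun c => xH (xV (J c) (x.2 c)) ((J c)ᴴ * x.2 c)) ∈ Kset ι n ∧
      Eqn F q ((s, x.1), W, fun c => xH (xV (J c) (x.2 c)) ((J c)ᴴ * x.2 c)) = 0 ∧
      Zfun J q ((s, x.1), W, fun c => xH (xV (J c) (x.2 c)) ((J c)ᴴ * x.2 c)) = x := by
  choose B C hBC hCB hW using fun c => exists_isometry _ _ (H_xV (hJ c) (x.2 c))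
  have hκ : ∀ c W H, kap q ((s, x.1), W, H) c = (J c)ᴴ * x.2 c - ((J c)ᴴ * x.2 c)ᴴ := by
    intro c W H
    have : (x.1 c)ᴴ * x.1 c - 1 + ((J c)ᴴ * x.2 c - ((J c)ᴴ * x.2 c)ᴴ) - s • q.1 c = 0 :=
      congrFun (congrArg Prod.fst hx) c
    rw [kap, ← sub_eq_zero.1 this]
    simp
  refine ⟨fun c => xV (J c) (x.2 c) * C c, ⟨hs, hb, fun c => ⟨hW c, xH_H _ _, ?_, hn c⟩⟩, ?_, ?_⟩
  · have : xH (xV (J c) (x.2 c)) ((J c)ᴴ * x.2 c) = xV (J c) (x.2 c) * C c *
        (B c * ((J c)ᴴ * x.2 c + ((J c)ᴴ * x.2 c)ᴴ) * (xV (J c) (x.2 c))ᴴ) := by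
      simp only [xH, Matrix.mul_assoc, ← Matrix.mul_assoc (C c) (B c), hCB, Matrix.one_mul]
    simp only
    rw [this, ← Matrix.mul_assoc (xV (J c) (x.2 c) * C c)ᴴ, hW, Matrix.one_mul]
  · refine Prod.ext (funext fun c => ?_) (funext fun c => ?_)
    · simp [Eqn, hκ]
    · have : F (s, x.1) c * (1 + xH (xV (J c) (x.2 c)) ((J c)ᴴ * x.2 c)) *
          xV (J c) (x.2 c) - (1 + s • q.2 c) * xV (J c) (x.2 c) = 0 :=
        congrFun (congrArg Prod.snd hx) c
      simp only [Eqn, ← Matrix.mul_assoc, ← Matrix.sub_mul, Prod.snd_zero, Pi.zero_apply]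
      rw [Matrix.sub_mul, this, Matrix.zero_mul]
  · refine Prod.ext rfl (funext fun c => ?_)
    have h1 : ((J c)ᴴ * (xV (J c) (x.2 c) * C c))⁻¹ = B c := by
      rw [← Matrix.mul_assoc, H_xV (hJ c), Matrix.one_mul]
      exact inv_eq_left_inv (hBC c)
    have h5 : (J c)ᴴ * xH (xV (J c) (x.2 c)) ((J c)ᴴ * x.2 c) * J c =
        (J c)ᴴ * x.2 c + ((J c)ᴴ * x.2 c)ᴴ := by
      have := congrArg conjTranspose (H_xV (hJ c) (x.2 c))
      rw [conjTranspose_mul, conjTranspose_conjTranspose, conjTranspose_one] at this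
      rw [xH, ← Matrix.mul_assoc, ← Matrix.mul_assoc, H_xV (hJ c), Matrix.mul_assoc, this]
      simp
    simp only [Zfun, h1, hκ, h5]
    have h6 : (1 / 2 : ℂ) • ((J c)ᴴ * x.2 c + ((J c)ᴴ * x.2 c)ᴴ +
        ((J c)ᴴ * x.2 c - ((J c)ᴴ * x.2 c)ᴴ)) = (J c)ᴴ * x.2 c := by module
    rw [h6, Matrix.mul_assoc, hCB, Matrix.mul_one, xV, Matrix.mul_sub, Matrix.mul_sub]
    abel

theorem fixed_vector (j : ∀ c, Fin n → ι c) (hj : ∀ c, Function.Injective (j c))
    {F : ℝ × BB α n → ∀ c, Matrix (ι c) (ι c) ℂ} (hF : ContDiff ℝ 2 F)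
    (hU : ∀ s b, (∀ a, (b a)ᴴ * b a = 1) → ∀ c, (F (s, b) c)ᴴ * F (s, b) c = 1)
    {δ : Fin n → ℂ} (hδ : ∀ i, ‖δ i‖ = 1) (hδi : Function.Injective δ) {d : ℕ} (hd : 0 < d)
    (hF0 : ∀ b c, F (0, b) c = G0 (emb (j c)) δ d (b c)) :
    ∃ b : BB α n, (∀ a, (b a)ᴴ * b a = 1) ∧ ∀ c, ∃ W : Matrix (ι c) (Fin n) ℂ,
      Wᴴ * W = 1 ∧ F (1, b) c * W = W := by
  by_contra hno
  have hJ : ∀ c, (emb (j c))ᴴ * emb (j c) = 1 := fun c => embH_mul_emb (hj c)
  have hrpos : ∀ c, (0 : ℝ) < 1 / (Fintype.card (ι c) + 1) := fun c => by positivity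
  have hH : ∀ c, Continuous fun k : Mod ι n => k.2.2 c := fun c => by fun_prop
  let Bad : Set (Mod ι n) := Kset ι n ∩ ({k | k.1.1 = 1} ∪ {k | ‖k.1.2‖ = 2} ∪
    ⋃ c, {k | ‖k.2.2 c‖ = 1 / (Fintype.card (ι c) + 1)})
  have hBad : IsCompact Bad := isCompact_Kset.inter_right
    (((isClosed_eq (by fun_prop) continuous_const).union
      (isClosed_eq (by fun_prop) continuous_const)).union
      (isClosed_iUnion_of_finite fun c => isClosed_eq (hH c).norm continuous_const))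
  have hA : ∀ᶠ q : EP ι n in 𝓝 0, ∀ k ∈ Bad, Eqn F q k ≠ 0 := by
    refine hBad.eventually_forall_of_forall_eventually fun k hk => ?_
    refine (continuous_Eqn hF.continuous).continuousAt.eventually_ne fun h => ?_
    obtain ⟨h1, h2⟩ := Eqn_zero hk.1 h (smul_zero _) (hU k.1.1 k.1.2)
    rcases hk.2 with (h3 | h3) | h3
    · refine hno ⟨k.1.2, h1, fun c => ⟨k.2.1 c, (hk.1.2.2 c).1, ?_⟩⟩
      rw [← show k.1.1 = 1 from h3]
      exact (h2 c).2
    · have : ‖k.1.2‖ ≤ 1 := (pi_norm_le_iff_of_nonneg zero_le_one).2 fun a =>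
        isometry_norm_le (h1 a)
      rw [show ‖k.1.2‖ = 2 from h3] at this
      norm_num at this
    · obtain ⟨c, h4⟩ := Set.mem_iUnion.1 h3
      have h5 : ‖k.2.2 c‖ = 1 / (Fintype.card (ι c) + 1) := h4
      rw [(h2 c).1, norm_zero] at h5
      exact (hrpos c).ne h5
  obtain ⟨q, hqB, hqA⟩ := (dense_compl_iUnion (Xi F) (contDiff_Xi (hF.of_le (by norm_num)))
    Ksub Ksub_ne_top).inter_nhds_nonempty hA
  have hnd : ∀ k ∈ Kset ι n, Eqn F q k = 0 → ∀ c, ((emb (j c))ᴴ * k.2.1 c).det ≠ 0 := by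
    intro k hk h c hdet
    rcases hk.1.1.eq_or_lt with hs | hs
    · obtain ⟨h1, h2⟩ := Eqn_zero hk h (by rw [← hs, zero_smul]) (hU k.1.1 k.1.2)
      have h3 := (h2 c).2
      rw [show k.1 = (0, k.1.2) from Prod.ext hs.symm rfl, hF0] at h3
      have h4 := (G0_fixed (hJ c) _ _ _ h3).1
      have h5 : ((emb (j c))ᴴ * k.2.1 c)ᴴ * ((emb (j c))ᴴ * k.2.1 c) = 1 := by
        rw [conjTranspose_mul, conjTranspose_conjTranspose, Matrix.mul_assoc, h4, (hk.2.2 c).1]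
      have h6 := congrArg det h5
      rw [det_mul, hdet, mul_zero, det_one] at h6
      exact zero_ne_one h6
    · exact hqB (degenerate_mem hk h hs c (j c) (hj c) hdet)
  have hEq : Continuous (Eqn F q) :=
    (continuous_Eqn hF.continuous).comp (continuous_const.prodMk continuous_id)
  have hSol : IsCompact (Kset ι n ∩ {k | Eqn F q k = 0}) :=
    isCompact_Kset.inter_right (isClosed_eq hEq continuous_const)
  obtain ⟨R, hR⟩ := hSol.exists_bound_of_continuousOn (f := Zfun (fun c => emb (j c)) q) (by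
    intro k hk
    refine ContinuousAt.continuousWithinAt ?_
    refine ContinuousAt.prodMk (by fun_prop) (continuousAt_pi.2 fun c => ?_)
    have hW : Continuous fun k : Mod ι n => k.2.1 c := by fun_prop
    have h1 : ContinuousAt (fun k : Mod ι n => ((emb (j c))ᴴ * k.2.1 c)⁻¹) k := by
      refine ContinuousAt.comp (f := fun k : Mod ι n => (emb (j c))ᴴ * k.2.1 c)
        (continuousAt_matrix_inv _ ?_) (continuous_const.matrix_mul hW).continuousAt
      rw [Ring.inverse_eq_inv']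
      exact continuousAt_inv₀ (hnd k hk.1 hk.2 c)
    have h2 : Continuous fun z : Matrix (ι c) (Fin n) ℂ × Matrix (Fin n) (Fin n) ℂ => z.1 * z.2 :=
      continuous_fst.matrix_mul continuous_snd
    refine (h2.continuousAt.comp (hW.continuousAt.prodMk h1)).add (Continuous.continuousAt ?_)
    have h3 : Continuous fun k : Mod ι n => kap q k c :=
      (continuous_kap c).comp (continuous_const.prodMk continuous_id)
    exact continuous_const.matrix_mul (((((continuous_const.matrix_mul (hH c)).matrix_mul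
      continuous_const).add h3).const_smul (1 / 2 : ℂ)).sub continuous_const))
  have hHx : ∀ c, Continuous fun x : E0 ι n =>
      ‖xH (xV (emb (j c)) (x.2 c)) ((emb (j c))ᴴ * x.2 c)‖ := fun c => by
    unfold xH xV
    fun_prop
  have : ProperSpace (E0 ι n) := FiniteDimensional.proper_real _
  let Ω : Set (E0 ι n) := Metric.ball 0 (R + 1) ∩ ({x | ‖x.1‖ < 2} ∩
    ⋂ c, {x | ‖xH (xV (emb (j c)) (x.2 c)) ((emb (j c))ᴴ * x.2 c)‖ < 1 / (Fintype.card (ι c) + 1)})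
  let K : Set (E0 ι n) := Metric.closedBall 0 (R + 1) ∩ ({x | ‖x.1‖ ≤ 2} ∩
    ⋂ c, {x | ‖xH (xV (emb (j c)) (x.2 c)) ((emb (j c))ᴴ * x.2 c)‖ ≤ 1 / (Fintype.card (ι c) + 1)})
  have hΩK : Ω ⊆ K := fun x hx => ⟨Metric.ball_subset_closedBall hx.1,
    le_of_lt (show ‖x.1‖ < 2 from hx.2.1), Set.mem_iInter.2 fun c => by
      have h := Set.mem_iInter.1 hx.2.2 c
      rw [Set.mem_ofPred_eq] at h ⊢
      exact h.le⟩
  have hfr : ∀ s ∈ Set.Icc (0 : ℝ) 1, ∀ x : E0 ι n, ‖x.1‖ ≤ 2 →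
      (∀ c, ‖xH (xV (emb (j c)) (x.2 c)) ((emb (j c))ᴴ * x.2 c)‖ ≤ 1 / (Fintype.card (ι c) + 1)) →
      Phi (fun c => emb (j c)) F q (s, x) = 0 → x ∈ Ω ∧ s ≠ 1 := by
    intro s hs x hb hn hx
    obtain ⟨W, h1, h2, h3⟩ := model_of_chart hJ hs hx hb hn
    have h4 := hR _ ⟨h1, h2⟩
    rw [h3] at h4
    refine ⟨⟨by rw [mem_ball_zero_iff]; linarith, lt_of_le_of_ne hb fun h => ?_,
      Set.mem_iInter.2 fun c => lt_of_le_of_ne (hn c) fun h => ?_⟩, fun h => ?_⟩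
    · exact hqA _ ⟨h1, Or.inl (Or.inr h)⟩ h2
    · exact hqA _ ⟨h1, Or.inr (Set.mem_iUnion.2 ⟨c, h⟩)⟩ h2
    · exact hqA _ ⟨h1, Or.inl (Or.inl h)⟩ h2
  obtain ⟨x, hx, hx'⟩ := Vale.Agent.Lib.Degree.exists_zero (Phi (fun c => emb (j c)) F q)
    (contDiff_Phi _ hF q) Ω K
    (Metric.isOpen_ball.inter ((isOpen_lt (by fun_prop) continuous_const).inter
      (isOpen_iInter_of_finite fun c => isOpen_lt (hHx c) continuous_const)))
    ((isCompact_closedBall _ _).inter_right ((isClosed_le (by fun_prop) continuous_const).inter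
      (isClosed_iInter fun c => isClosed_le (hHx c) continuous_const))) hΩK
    (fun s hs x hx h => (hfr s hs x hx.2.1 (Set.mem_iInter.1 hx.2.2) h).1) _
    (fun x hx h => base_sign hJ hF q hδ hδi hd hF0 x h (Set.mem_iInter.1 (hΩK hx).2.2)) (by
      choose β hβ using fun i => IsAlgClosed.exists_pow_nat_eq (δ i) hd
      have hβ1 : ∀ i, ‖β i‖ = 1 := fun i => by
        have := hδ i
        rw [← hβ i, norm_pow] at this
        exact (pow_eq_one_iff_of_nonneg (norm_nonneg _) hd.ne').1 this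
      have hu : (diagonal β)ᴴ * diagonal β = 1 := mul_eq_one_comm.1 (diag_unitary hβ1)
      have hu' : (diagonal δ)ᴴ * diagonal β ^ d = 1 := by
        rw [diagonal_pow, show β ^ d = δ from funext hβ]
        exact mul_eq_one_comm.1 (diag_unitary hδ)
      have h0 : Phi (fun c => emb (j c)) F q (0, (fun _ => diagonal β, 0)) = 0 := by
        refine Prod.ext (funext fun c => ?_) (funext fun c => ?_)
        · simp [Phi, -diagonal_conjTranspose, hu]
        · simp [Phi, -diagonal_conjTranspose, hF0, G0, hu', xH, xV, Matrix.sub_mul,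
            Matrix.mul_assoc, hJ]
      refine ⟨_, (hfr 0 (by simp) _ ?_ (fun c => ?_) h0).1, h0⟩
      · exact ((pi_norm_le_iff_of_nonneg zero_le_one).2 fun a => isometry_norm_le hu).trans
          one_le_two
      · simpa [xH] using (hrpos c).le)
  exact (hfr 1 (by simp) x (hΩK hx).2.1 (Set.mem_iInter.1 (hΩK hx).2.2) hx').2 rfl

end Vale.Agent.P174b
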