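import Vale.Agent.P174b.Phase

/-! The complex group algebra with its trace, and monomial matrices. -/

set_option linter.unusedSectionVars false

open Matrix

namespace Vale.Agent.P174b

section GA

variable {G : Type*} [Group G]

noncomputable instance gaStar : Star (MonoidAlgebra ℂ G) :=
  ⟨fun x => MonoidAlgebra.ofCoeff
    ((x.coeff.equivMapDomain (Equiv.inv G)).mapRange star (star_zero ℂ))⟩

theorem coeff_star (x : MonoidAlgebra ℂ G) (g : G) : (star x).coeff g = star (x.coeff g⁻¹) := rfl

theorem ga_star_single (g : G) (c : ℂ) :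
    star (MonoidAlgebra.single g c) = MonoidAlgebra.single g⁻¹ (star c) := by
  classical
  ext h
  rw [coeff_star, MonoidAlgebra.coeff_single, MonoidAlgebra.coeff_single, Finsupp.single_apply,
    Finsupp.single_apply]
  by_cases e : g = h⁻¹
  · simp [e]
  · rw [if_neg e, if_neg fun e' => e (by rw [← e', inv_inv]), star_zero]

theorem ga_star_add (x y : MonoidAlgebra ℂ G) : star (x + y) = star x + star y := by
  ext g
  simp [coeff_star]

theorem ga_star_zero : star (0 : MonoidAlgebra ℂ G) = 0 := by
  ext g
  simp [coeff_star]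

noncomputable instance gaStarRing : StarRing (MonoidAlgebra ℂ G) where
  star_involutive x := by
    ext g
    simp [coeff_star]
  star_mul x y := by
    induction x using MonoidAlgebra.induction_linear with
    | zero => simp [ga_star_zero]
    | add a b ha hb => rw [add_mul, ga_star_add, ga_star_add, ha, hb, mul_add]
    | single g c =>
      induction y using MonoidAlgebra.induction_linear with
      | zero => simp [ga_star_zero]
      | add a b ha hb => rw [mul_add, ga_star_add, ga_star_add, ha, hb, add_mul]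
      | single h e => simp [MonoidAlgebra.single_mul_single, ga_star_single, mul_comm]
  star_add := ga_star_add

instance gaStarModule : StarModule ℂ (MonoidAlgebra ℂ G) where
  star_smul c x := by
    ext g
    simp [coeff_star]

noncomputable def tr0 (G : Type*) [Group G] : MonoidAlgebra ℂ G →ₗ[ℂ] ℂ where
  toFun x := x.coeff 1
  map_add' x y := by simp
  map_smul' c x := by simp

theorem tr0_apply (x : MonoidAlgebra ℂ G) : tr0 G x = x.coeff 1 := rfl

theorem tr0_single [DecidableEq G] (g : G) (c : ℂ) :
    tr0 G (MonoidAlgebra.single g c) = if g = 1 then c else 0 := by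
  simp [tr0_apply, Finsupp.single_apply]

theorem isTr_tr0 : IsTr (tr0 G) where
  comm x y := by
    classical
    induction x using MonoidAlgebra.induction_linear with
    | zero => simp
    | add a b ha hb => rw [add_mul, mul_add, map_add, map_add, ha, hb]
    | single g c =>
      induction y using MonoidAlgebra.induction_linear with
      | zero => simp
      | add a b ha hb => rw [add_mul, mul_add, map_add, map_add, ha, hb]
      | single h e =>
        simp only [MonoidAlgebra.single_mul_single, tr0_single, mul_comm c e, mul_eq_one_comm]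
  pos x := by
    have : tr0 G (star x * x) = ∑ h ∈ x.coeff.support, ((‖x.coeff h‖ ^ 2 : ℝ) : ℂ) := by
      show (star x * x).coeff 1 = _
      rw [MonoidAlgebra.coeff_mul_apply_right, Finsupp.sum]
      refine Finset.sum_congr rfl fun h _ => ?_
      simp [coeff_star, Complex.conj_mul']
    rw [this, ← Complex.ofReal_sum, Complex.ofReal_re]
    positivity
  star_eq x := by simp [tr0_apply, coeff_star]

noncomputable def piG (G : Type*) [Group G] : Circle × G →* MonoidAlgebra ℂ G where
  toFun h := MonoidAlgebra.single h.2 h.1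
  map_one' := by simp [MonoidAlgebra.one_def]
  map_mul' a b := by simp [MonoidAlgebra.single_mul_single]

theorem piG_apply (h : Circle × G) : piG G h = MonoidAlgebra.single h.2 (h.1 : ℂ) := rfl

theorem star_piG (h : Circle × G) : star (piG G h) = piG G h⁻¹ := by
  rw [piG_apply, piG_apply, ga_star_single, Prod.snd_inv, Prod.fst_inv, Circle.coe_inv_eq_conj]
  rfl

theorem piG_scalar (c : Circle) : piG G (c, 1) = algebraMap ℂ _ (c : ℂ) := rfl

theorem ga_star_algebraMap (c : ℂ) :
    star (algebraMap ℂ (MonoidAlgebra ℂ G) c) = algebraMap ℂ _ (star c) := by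
  show star (MonoidAlgebra.single 1 c) = MonoidAlgebra.single 1 (star c)
  rw [ga_star_single, inv_one]

end GA

section Mat

variable {A : Type*} [Ring A] [StarRing A] [Algebra ℂ A] [StarModule ℂ A] {T : Type*} [Fintype T]
  [DecidableEq T]

noncomputable def mtr (T : Type*) [Fintype T] (τ : A →ₗ[ℂ] ℂ) : Matrix T T A →ₗ[ℂ] ℂ :=
  τ ∘ₗ Matrix.traceLinearMap T ℂ A

theorem mtr_apply (τ : A →ₗ[ℂ] ℂ) (x : Matrix T T A) : mtr T τ x = ∑ i, τ (x i i) := by
  simp [mtr, trace]

theorem IsTr.matrix {τ : A →ₗ[ℂ] ℂ} (h : IsTr τ) : IsTr (mtr T τ) where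
  comm x y := by
    simp only [mtr_apply, mul_apply, map_sum]
    rw [Finset.sum_comm]
    exact Finset.sum_congr rfl fun i _ => Finset.sum_congr rfl fun j _ => h.comm _ _
  pos x := by
    simp only [mtr_apply, mul_apply, map_sum, Complex.re_sum, star_apply]
    exact Finset.sum_nonneg fun i _ => Finset.sum_nonneg fun j _ => h.pos _
  star_eq x := by
    simp only [mtr_apply, star_apply, star_sum, h.star_eq]

noncomputable def liftMat (T A : Type*) [Fintype T] [DecidableEq T] [Ring A] [StarRing A]
    [Algebra ℂ A] [StarModule ℂ A] : Matrix T T ℂ →⋆ₐ[ℂ] Matrix T T A where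
  toAlgHom := (Algebra.ofId ℂ A).mapMatrix
  map_star' x := by
    ext i j
    exact algebraMap_star_comm (A := A) (x j i)

theorem liftMat_apply (x : Matrix T T ℂ) (i j : T) :
    liftMat T A x i j = algebraMap ℂ A (x i j) := rfl

end Mat

@[ext]
structure Wr (T H : Type*) where
  l : T → H
  r : Equiv.Perm T

namespace Wr

variable {T H : Type*} [Group H]

instance : Mul (Wr T H) := ⟨fun x y => ⟨fun i => x.l i * y.l (x.r⁻¹ i), x.r * y.r⟩⟩

instance : One (Wr T H) := ⟨⟨fun _ => 1, 1⟩⟩

instance : Inv (Wr T H) := ⟨fun x => ⟨fun i => (x.l (x.r i))⁻¹, x.r⁻¹⟩⟩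

@[simp] theorem mul_l (x y : Wr T H) (i : T) : (x * y).l i = x.l i * y.l (x.r⁻¹ i) := rfl

@[simp] theorem mul_r (x y : Wr T H) : (x * y).r = x.r * y.r := rfl

@[simp] theorem one_l (i : T) : (1 : Wr T H).l i = 1 := rfl

@[simp] theorem one_r : (1 : Wr T H).r = 1 := rfl

@[simp] theorem inv_l (x : Wr T H) (i : T) : x⁻¹.l i = (x.l (x.r i))⁻¹ := rfl

@[simp] theorem inv_r (x : Wr T H) : x⁻¹.r = x.r⁻¹ := rfl

instance : Group (Wr T H) :=
  Group.ofLeftAxioms
    (fun x y z => by
      refine Wr.ext (funext fun i => ?_) (mul_assoc _ _ _)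
      simp [mul_assoc])
    (fun x => by
      refine Wr.ext (funext fun i => ?_) (one_mul _)
      simp)
    (fun x => by
      refine Wr.ext (funext fun i => ?_) (inv_mul_cancel _)
      simp)

def perm : Equiv.Perm T →* Wr T H where
  toFun σ := ⟨fun _ => 1, σ⟩
  map_one' := rfl
  map_mul' a b := by
    refine Wr.ext (funext fun i => ?_) rfl
    simp

@[simp] theorem perm_l (σ : Equiv.Perm T) (i : T) : (perm σ : Wr T H).l i = 1 := rfl

@[simp] theorem perm_r (σ : Equiv.Perm T) : (perm σ : Wr T H).r = σ := rfl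

def diag : (T → H) →* Wr T H where
  toFun γ := ⟨γ, 1⟩
  map_one' := rfl
  map_mul' a b := by
    refine Wr.ext (funext fun i => ?_) (mul_one _).symm
    simp

@[simp] theorem diag_l (γ : T → H) (i : T) : (diag γ : Wr T H).l i = γ i := rfl

@[simp] theorem diag_r (γ : T → H) : (diag γ : Wr T H).r = 1 := rfl

end Wr

/-- Products of `k` conjugates of transpositions. -/
inductive TL {T H : Type*} [DecidableEq T] [Group H] : Wr T H → ℕ → Prop
  | one : TL 1 0
  | step (x w : Wr T H) (k : ℕ) (a b : T) : TL x k → a ≠ b →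
      TL (x * (w * Wr.perm (Equiv.swap a b) * w⁻¹)) (k + 1)

section TL

variable {T H : Type*} [DecidableEq T] [Group H]

theorem TL.cast {x y : Wr T H} {a b : ℕ} (h : TL x a) (h1 : x = y) (h2 : a = b) : TL y b :=
  h1 ▸ h2 ▸ h

theorem TL.swap (w : Wr T H) {a b : T} (h : a ≠ b) :
    TL (w * Wr.perm (Equiv.swap a b) * w⁻¹) 1 :=
  (TL.step 1 w 0 a b TL.one h).cast (one_mul _) rfl

theorem TL.mul {x y : Wr T H} {a b : ℕ} (hx : TL x a) (hy : TL y b) : TL (x * y) (a + b) := by
  induction hy with
  | one => exact hx.cast (mul_one _).symm rfl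
  | step y w k c d _ h ih => exact (TL.step _ w _ c d ih h).cast (mul_assoc _ _ _) rfl

theorem TL.conj {x : Wr T H} {a : ℕ} (hx : TL x a) (u : Wr T H) : TL (u * x * u⁻¹) a := by
  induction hx with
  | one => exact TL.one.cast (by simp) rfl
  | step y w k c d _ h ih => exact (TL.step _ (u * w) _ c d ih h).cast (by group) rfl

theorem TL.inv {x : Wr T H} {a : ℕ} (hx : TL x a) : TL x⁻¹ a := by
  induction hx with
  | one => exact TL.one.cast (by simp) rfl
  | step y w k c d _ h ih =>
    refine ((TL.swap w h).mul ih).cast ?_ (add_comm _ _)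
    rw [_root_.mul_inv_rev, _root_.mul_inv_rev, _root_.mul_inv_rev, ← map_inv, Equiv.swap_inv,
      inv_inv, mul_assoc w]

end TL

section Mon

variable {A : Type*} [Ring A] [StarRing A] [Algebra ℂ A] [StarModule ℂ A] {T : Type*} [Fintype T]
  [DecidableEq T] {H : Type*} [Group H]

def Mon (π : H →* A) : Wr T H →* Matrix T T A where
  toFun x := Matrix.of fun i j => if i = x.r j then π (x.l i) else 0
  map_one' := by
    ext i j
    simp [one_apply]
  map_mul' x y := by
    ext i k
    simp only [of_apply, mul_apply, mul_ite, mul_zero, Finset.sum_ite_eq', Finset.mem_univ,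
      if_true, Wr.mul_r, Wr.mul_l, Equiv.Perm.mul_apply, ite_mul, zero_mul]
    by_cases h : i = x.r (y.r k)
    · subst h
      simp
    · simp [h]

theorem Mon_apply (π : H →* A) (x : Wr T H) (i j : T) :
    Mon π x i j = if i = x.r j then π (x.l i) else 0 := rfl

theorem star_Mon {π : H →* A} (hπ : ∀ h, star (π h) = π h⁻¹) (x : Wr T H) :
    star (Mon π x) = Mon π x⁻¹ := by
  ext i j
  rw [star_apply, Mon_apply, Mon_apply]
  by_cases h : j = x.r i
  · subst h
    simp [hπ]
  · rw [if_neg h, if_neg fun e => h (by simp [e]), star_zero]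

theorem Mon_mem {π : H →* A} (hπ : ∀ h, star (π h) = π h⁻¹) (x : Wr T H) :
    Mon π x ∈ unitary (Matrix T T A) := by
  rw [Unitary.mem_iff, star_Mon hπ, ← map_mul, ← map_mul]
  simp

theorem TL.pl {π : H →* A} (hπ : ∀ h, star (π h) = π h⁻¹) {τ : A →ₗ[ℂ] ℂ} (hτ : IsTr τ)
    (h1 : τ 1 = 1) {x : Wr T H} {k : ℕ} (hx : TL x k) :
    PL (mtr T τ) (Mon π x) (Real.pi * k) := by
  induction hx with
  | one => exact PL.one.cast (map_one _).symm (by simp)
  | step y w k a b _ h ih =>
    have h2 : PL (mtr T τ) (Mon π (Wr.perm (Equiv.swap a b))) Real.pi := by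
      refine (PL.invol ?_ ?_).cast rfl ?_
      · rw [star_Mon hπ, ← map_inv, Equiv.swap_inv]
      · rw [← map_mul, ← map_mul, Equiv.swap_mul_self, map_one, map_one]
      · have h3 : mtr T τ (1 - Mon π (Wr.perm (Equiv.swap a b))) = 2 := by
          rw [mtr_apply, Finset.sum_eq_add_of_mem a b (Finset.mem_univ _) (Finset.mem_univ _) h]
          · simp [Mon_apply, h, h.symm, h1]
            norm_num
          · intro c _ hc
            simp [Mon_apply, Equiv.swap_apply_of_ne_of_ne hc.1 hc.2]
        rw [← Complex.sub_re, ← map_sub, h3]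
        simp
    refine (ih.mul (h2.conj hτ.matrix (Mon_mem hπ w))).cast ?_ (by push_cast; ring)
    rw [star_Mon hπ, map_mul, map_mul, map_mul]

end Mon

end Vale.Agent.P174b
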