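import Vale.Agent.P174b.Phase

/-! Unitary matrices with a large fixed space are short products of reflections. -/

set_option linter.unusedSectionVars false

open Complex Matrix

namespace Vale.Agent.P174b

variable {ι : Type*} [Fintype ι] [DecidableEq ι]

noncomputable def rk1 (M : Matrix ι ι ℂ) (j : ι) : Matrix ι ι ℂ :=
  ((Mᴴ * M) j j)⁻¹ • (M * single j j 1 * Mᴴ)

theorem single_sandwich (X : Matrix ι ι ℂ) (j : ι) :
    single j j (1 : ℂ) * X * single j j 1 = X j j • single j j (1 : ℂ) := by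
  simp

theorem star_diag_gram (M : Matrix ι ι ℂ) (j : ι) : star ((Mᴴ * M) j j) = (Mᴴ * M) j j := by
  rw [← conjTranspose_apply, conjTranspose_mul, conjTranspose_conjTranspose]

theorem rk1_star (M : Matrix ι ι ℂ) (j : ι) : star (rk1 M j) = rk1 M j := by
  rw [rk1, star_smul, star_inv₀, star_diag_gram]
  simp [star_eq_conjTranspose, Matrix.mul_assoc]

theorem rk1_mul (M : Matrix ι ι ℂ) (j : ι) (h : (Mᴴ * M) j j ≠ 0) :
    rk1 M j * rk1 M j = rk1 M j := by
  have : M * single j j 1 * Mᴴ * (M * single j j 1 * Mᴴ) =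
      (Mᴴ * M) j j • (M * single j j 1 * Mᴴ) := by
    calc _ = M * (single j j 1 * (Mᴴ * M) * single j j 1) * Mᴴ := by simp only [Matrix.mul_assoc]
      _ = _ := by rw [single_sandwich, Matrix.mul_smul, Matrix.smul_mul]
  rw [rk1, smul_mul_assoc, mul_smul_comm, this, smul_smul _ ((Mᴴ * M) j j), inv_mul_cancel₀ h,
    one_smul]

theorem rk1_trace (M : Matrix ι ι ℂ) (j : ι) (h : (Mᴴ * M) j j ≠ 0) : trace (rk1 M j) = 1 := by
  rw [rk1, trace_smul, trace_mul_cycle, trace_mul_single]
  simp [h]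

theorem gram_eq_zero (M : Matrix ι ι ℂ) (j : ι) (h : (Mᴴ * M) j j = 0) :
    M * single j j (1 : ℂ) = 0 := by
  have : trace ((M * single j j (1 : ℂ))ᴴ * (M * single j j (1 : ℂ))) = 0 := by
    rw [conjTranspose_mul, conjTranspose_single, star_one, ← Matrix.mul_assoc,
      Matrix.mul_assoc _ Mᴴ, single_sandwich, h]
    simp
  open scoped ComplexOrder in exact trace_conjTranspose_mul_self_eq_zero_iff.1 this

theorem refl_induction (P : ℕ → Matrix ι ι ℂ → Prop) (h1 : P 0 1)
    (hstep : ∀ k U θ p, P k U → U ∈ unitary (Matrix ι ι ℂ) → star p = p → p * p = p →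
      trace p = 1 → θ ∈ Set.Icc 0 (2 * Real.pi) → P (k + 1) (refl θ p * U)) (k : ℕ) :
    ∀ U R : Matrix ι ι ℂ, U ∈ unitary (Matrix ι ι ℂ) → star R = R → R * R = R → U * R = R →
      trace R + k = Fintype.card ι → P k U := by
  induction k with
  | zero =>
    intro U R hU hR hR2 hUR htr
    have h2 : trace ((1 - R)ᴴ * (1 - R)) = 0 := by
      rw [← star_eq_conjTranspose, star_sub, star_one, hR, sub_mul, mul_sub, mul_sub, hR2]
      simp at htr ⊢
      rw [htr, sub_self]
    have h3 : 1 - R = 0 := by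
      open scoped ComplexOrder in exact trace_conjTranspose_mul_self_eq_zero_iff.1 h2
    rw [sub_eq_zero] at h3
    rw [← h3, mul_one] at hUR
    rwa [hUR]
  | succ k ih =>
    intro U R hU hR hR2 hUR htr
    obtain ⟨Q, hQ⟩ : ∃ Q, Q = 1 - R := ⟨_, rfl⟩
    have hQs : Qᴴ = Q := by rw [← star_eq_conjTranspose, hQ, star_sub, star_one, hR]
    have hQ2 : Q * Q = Q := by rw [hQ, sub_mul, mul_sub, mul_sub, hR2]; simp
    have hQR : Q * R = 0 := by rw [hQ, sub_mul, hR2]; simp
    have hRQ : R * Q = 0 := by rw [hQ, mul_sub, hR2]; simp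
    obtain ⟨j, hj⟩ : ∃ j, (Qᴴ * Q) j j ≠ 0 := by
      by_contra hc
      push Not at hc
      rw [hQs, hQ2] at hc
      have : trace Q = 0 := Finset.sum_eq_zero fun j _ => hc j
      rw [hQ, trace_sub, trace_one, ← htr] at this
      have h4 : ((k + 1 : ℕ) : ℂ) = 0 := by linear_combination this
      exact Nat.succ_ne_zero k (by exact_mod_cast h4)
    have hR1 : R * rk1 Q j = 0 := by
      rw [rk1, mul_smul_comm, ← Matrix.mul_assoc, ← Matrix.mul_assoc, hRQ]; simp
    have hR1' : rk1 Q j * R = 0 := by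
      rw [rk1, smul_mul_assoc, Matrix.mul_assoc, hQs, hQR]; simp
    have key : ∀ W : Matrix ι ι ℂ, W ∈ unitary (Matrix ι ι ℂ) → W * R = R →
        W * (Q * single j j 1) = Q * single j j 1 → P k W := by
      intro W hW hWR hWQ
      refine ih W (R + rk1 Q j) hW (by rw [star_add, hR, rk1_star]) ?_ ?_ ?_
      · rw [add_mul, mul_add, mul_add, hR2, hR1, hR1', rk1_mul _ _ hj]; simp
      · rw [mul_add, hWR, rk1, mul_smul_comm, ← Matrix.mul_assoc, hWQ]
      · rw [trace_add, rk1_trace _ _ hj, ← htr]; push_cast; ring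
    obtain ⟨M, hM⟩ : ∃ M, M = (U - 1) * Q := ⟨_, rfl⟩
    by_cases hc : (Mᴴ * M) j j = 0
    · have h5 := gram_eq_zero M j hc
      rw [hM, Matrix.mul_assoc, sub_mul, one_mul, sub_eq_zero] at h5
      have := hstep k U 0 _ (key U hU hUR h5) hU (rk1_star Q j) (rk1_mul _ _ hj) (rk1_trace _ _ hj)
        ⟨le_rfl, by positivity⟩
      rwa [refl_zero, one_mul] at this
    · have hU1 : Uᴴ * U = 1 := hU.1
      obtain ⟨a, ha⟩ : ∃ a, a = (Mᴴ * (U * Q)) j j := ⟨_, rfl⟩
      have hca : (Mᴴ * M) j j = a + star a := by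
        rw [ha, ← conjTranspose_apply, ← Matrix.add_apply]
        refine congrFun (congrFun ?_ j) j
        simp only [hM, conjTranspose_mul, hQs, conjTranspose_sub, conjTranspose_one,
          conjTranspose_conjTranspose, sub_mul, mul_sub, Matrix.mul_assoc, one_mul, mul_one,
          ← Matrix.mul_assoc Uᴴ U, hU1]
        abel
      have ha0 : a ≠ 0 := fun h => hc (by rw [hca, h]; simp)
      set w : ℂ := star a / a with hw
      have hw1 : ‖w‖ = 1 := by rw [hw, norm_div, norm_star, div_self (norm_ne_zero_iff.2 ha0)]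
      set φ : ℝ := Real.pi - arg w with hφ
      have hexp : cexp ((-φ : ℝ) * I) = -w := by
        have := norm_mul_exp_arg_mul_I w
        rw [hw1] at this
        rw [hφ]
        push_cast
        rw [neg_sub, sub_mul, Complex.exp_sub, exp_pi_mul_I]
        simp at this
        rw [this]
        ring
      have hp := rk1_star M j
      have hp2 := rk1_mul M j hc
      have hMR : Mᴴ * R = 0 := by
        have : Uᴴ * R = R := by
          conv_lhs => rw [← hUR, ← Matrix.mul_assoc, hU1, one_mul]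
        rw [hM, conjTranspose_mul, Matrix.mul_assoc, conjTranspose_sub, sub_mul, this]
        simp
      have h6 := key (refl (-φ) (rk1 M j) * U) (mul_mem (refl_mem hp hp2 _) hU) ?_ ?_
      · have := hstep k _ φ _ h6 (mul_mem (refl_mem hp hp2 _) hU) hp hp2 (rk1_trace _ _ hc)
          ⟨by have := arg_le_pi w; linarith, by have := neg_pi_lt_arg w; linarith⟩
        rwa [← mul_assoc, refl_mul_refl hp2, add_neg_cancel, refl_zero, one_mul] at this
      · rw [mul_assoc, hUR, refl, add_mul, smul_mul_assoc, rk1, smul_mul_assoc, Matrix.mul_assoc,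
          hMR]
        simp
      · have h7 : M * single j j 1 * Mᴴ * (U * (Q * single j j 1)) = a • (M * single j j 1) := by
          calc _ = M * (single j j 1 * (Mᴴ * (U * Q)) * single j j 1) := by
                simp only [Matrix.mul_assoc]
            _ = _ := by rw [single_sandwich, Matrix.mul_smul, ha]
        rw [mul_assoc, refl, add_mul, smul_mul_assoc, rk1, smul_mul_assoc, h7, hexp, smul_smul,
          smul_smul]
        have h8 : (-w - 1) * ((Mᴴ * M) j j)⁻¹ * a = -1 := by
          rw [hw]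
          rw [hca] at hc ⊢
          field_simp
          ring
        rw [h8, hM, Matrix.mul_assoc, sub_mul]
        simp

theorem isTr_trace : IsTr (Matrix.traceLinearMap ι ℂ ℂ) where
  comm x y := trace_mul_comm x y
  pos x := by
    open scoped ComplexOrder in
    exact (Complex.nonneg_iff.1 (posSemidef_conjTranspose_mul_self x).trace_nonneg).1
  star_eq x := trace_conjTranspose x

theorem pl_pair (k : ℕ) (U R : Matrix ι ι ℂ) (hU : U ∈ unitary (Matrix ι ι ℂ)) (hR : star R = R)
    (hR2 : R * R = R) (hUR : U * R = R) (htr : trace R + k = Fintype.card ι) :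
    ∃ Θ, PL (Matrix.traceLinearMap ι ℂ ℂ) U Θ ∧
      PL (Matrix.traceLinearMap ι ℂ ℂ) (star U) (2 * Real.pi * k - Θ) := by
  refine refl_induction (fun k U => ∃ Θ, PL (Matrix.traceLinearMap ι ℂ ℂ) U Θ ∧
      PL (Matrix.traceLinearMap ι ℂ ℂ) (star U) (2 * Real.pi * k - Θ)) ?_ ?_ k U R hU hR hR2 hUR htr
  · exact ⟨0, PL.one, PL.one.cast (star_one _).symm (by simp)⟩
  · rintro k U θ p ⟨Θ, h1, h2⟩ - hp hp2 hp3 hθ
    refine ⟨θ + Θ, ((PL.refl hp hp2 hθ.1).mul h1).cast rfl (by simp [hp3]), ?_⟩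
    refine (h2.mul (PL.refl hp hp2 (sub_nonneg.2 hθ.2))).cast ?_ (by simp [hp3]; ring)
    rw [star_mul, star_refl hp, sub_eq_add_neg, ← refl_mul_refl hp2, refl_two_pi, one_mul]

/-- The product of two hermitian unitaries exchanging two orthogonal projections. -/
theorem pl_two_invol (k : ℕ) (a b L R S : Matrix ι ι ℂ) (ha : star a = a) (ha2 : a * a = 1)
    (hb : star b = b) (hb2 : b * b = 1) (hL : star L = L) (hL2 : L * L = L)
    (hLR : L * R = 0) (haL : a * L = R * a) (hbL : b * L = R * b)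
    (hab : a * (1 - L - R) = b * (1 - L - R))
    (hS : star S = S) (hS2 : S * S = S) (hLS : L * S = S) (hfix : a * b * S = S)
    (htr : trace S + k = trace L) :
    PL (Matrix.traceLinearMap ι ℂ ℂ) (a * b) (2 * Real.pi * k) := by
  have hRa : R = a * L * a := by rw [haL, mul_assoc, ha2, mul_one]
  have hRb : R = b * L * b := by rw [hbL, mul_assoc, hb2, mul_one]
  have haR : a * R = L * a := by rw [hRa, ← mul_assoc, ← mul_assoc, ha2, one_mul]
  have hbR : b * R = L * b := by rw [hRb, ← mul_assoc, ← mul_assoc, hb2, one_mul]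
  have hXL : a * b * L = L * (a * b) := by rw [mul_assoc, hbL, ← mul_assoc, haR, mul_assoc]
  have hXR : a * b * R = R * (a * b) := by rw [mul_assoc, hbR, ← mul_assoc, haL, mul_assoc]
  have hYL : b * a * L = L * (b * a) := by rw [mul_assoc, haL, ← mul_assoc, hbR, mul_assoc]
  have hXY : a * b * (b * a) = 1 := by rw [mul_assoc, ← mul_assoc b, hb2, one_mul, ha2]
  have hYX : b * a * (a * b) = 1 := by rw [mul_assoc, ← mul_assoc a, ha2, one_mul, hb2]
  have hSL : S * L = S := by rw [← hS, ← hL, ← star_mul, hLS]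
  have hX1 : a * b * (1 - L - R) = 1 - L - R := by rw [mul_assoc, ← hab, ← mul_assoc, ha2, one_mul]
  have hst : star (a * b * L + (1 - L)) = b * a * L + (1 - L) := by
    rw [star_add, star_sub, star_one, star_mul, star_mul, hL, ha, hb, hYL]
  have aux : ∀ X Y : Matrix ι ι ℂ, X * L = L * X → Y * L = L * Y → X * Y = 1 →
      (X * L + (1 - L)) * (Y * L + (1 - L)) = 1 := by
    intro X Y h1 h2 h3
    have h4 : X * L * (Y * L) = L := by
      rw [mul_assoc, ← mul_assoc L, ← h2, mul_assoc, hL2, ← mul_assoc, h3, one_mul]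
    have h5 : X * L * (1 - L) = 0 := by rw [mul_assoc, mul_sub, hL2]; simp
    have h6 : (1 - L) * (Y * L) = 0 := by rw [h2, ← mul_assoc, sub_mul, hL2]; simp
    have h7 : (1 - L) * (1 - L) = 1 - L := by rw [sub_mul, mul_sub, mul_sub, hL2]; simp
    rw [add_mul, mul_add, mul_add, h4, h5, h6, h7]
    simp
  have hU : a * b * L + (1 - L) ∈ unitary (Matrix ι ι ℂ) := by
    rw [Unitary.mem_iff, hst]
    exact ⟨aux _ _ hYL hXL hYX, aux _ _ hXL hYL hXY⟩
  obtain ⟨Θ, h1, h2⟩ := pl_pair k _ (S + (1 - L)) hU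
    (by rw [star_add, star_sub, star_one, hS, hL])
    (by simp only [add_mul, mul_add, sub_mul, mul_sub, hS2, hL2, hLS, hSL, one_mul, mul_one]; abel)
    (by simp only [add_mul, mul_add, sub_mul, mul_sub, mul_assoc _ L, hL2, hLS, hfix, one_mul,
      mul_one]; abel)
    (by rw [trace_add, trace_sub, trace_one, ← htr]; ring)
  have ha' : a ∈ unitary (Matrix ι ι ℂ) := by rw [Unitary.mem_iff, ha]; exact ⟨ha2, ha2⟩
  refine (h1.mul (h2.conj isTr_trace ha')).cast ?_ (by ring)
  have h8 : a * (b * a * L + (1 - L)) * a = a * b * R + (1 - R) := by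
    rw [mul_add, add_mul, mul_sub, sub_mul, mul_one, ha2, ← hRa, hRa]
    simp only [mul_assoc]
  rw [hst, ha, h8]
  have h9 : a * b * L * (a * b * R) = 0 := by
    rw [hXR, mul_assoc, ← mul_assoc L, hLR]; simp
  have h10 : L * (a * b * R) = 0 := by rw [hXR, ← mul_assoc, hLR, zero_mul]
  have h11 : a * b = a * b * L + a * b * R + (1 - L - R) := by
    rw [← hX1, ← mul_add, ← mul_add]; simp
  have h12 : L * (1 - R) = L := by rw [mul_sub, hLR]; simp
  rw [add_mul, mul_add, mul_add, h9, sub_mul, h10, mul_assoc _ L, h12, sub_mul 1 L, h12]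
  conv_rhs => rw [h11]
  simp only [one_mul]
  abel

end Vale.Agent.P174b
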