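import Vale.Agent.P174b.FV
import Vale.Agent.P174b.Refl

/-! Smooth homotopies of unitary valued maps and the block form of the fixed vector theorem. -/

set_option linter.unusedSectionVars false

open Matrix
open scoped Matrix.Norms.Elementwise

namespace Vale.Agent.P174b

variable {α : Type*} [Fintype α] [DecidableEq α] {n : ℕ}

def Un (b : BB α n) : Prop := ∀ a, (b a)ᴴ * b a = 1

section One

variable {ι : Type*} [Fintype ι] [DecidableEq ι]

def Htp (f g : BB α n → Matrix ι ι ℂ) : Prop :=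
  ∃ F : ℝ × BB α n → Matrix ι ι ℂ, ContDiff ℝ 2 F ∧ (∀ s b, Un b → (F (s, b))ᴴ * F (s, b) = 1) ∧
    (∀ b, Un b → F (0, b) = f b) ∧ ∀ b, Un b → F (1, b) = g b

theorem unit_mul {x y : Matrix ι ι ℂ} (hx : xᴴ * x = 1) (hy : yᴴ * y = 1) :
    (x * y)ᴴ * (x * y) = 1 := by
  rw [conjTranspose_mul, Matrix.mul_assoc, ← Matrix.mul_assoc xᴴ, hx, Matrix.one_mul, hy]

theorem unit_H {x : Matrix ι ι ℂ} (hx : xᴴ * x = 1) : xᴴᴴ * xᴴ = 1 := by
  rw [conjTranspose_conjTranspose]
  exact mul_eq_one_comm.1 hx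

theorem Htp.mul {f g f' g' : BB α n → Matrix ι ι ℂ} (h : Htp f g) (h' : Htp f' g') :
    Htp (fun b => f b * f' b) (fun b => g b * g' b) := by
  obtain ⟨F, h1, h2, h3, h4⟩ := h
  obtain ⟨F', h1', h2', h3', h4'⟩ := h'
  exact ⟨fun x => F x * F' x, contDiff_mmul h1 h1', fun s b hb => unit_mul (h2 s b hb) (h2' s b hb),
    fun b hb => by simp only [h3 b hb, h3' b hb], fun b hb => by simp only [h4 b hb, h4' b hb]⟩

theorem Htp.congr {f g f' g' : BB α n → Matrix ι ι ℂ} (h : Htp f g)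
    (hf : ∀ b, Un b → f b = f' b) (hg : ∀ b, Un b → g b = g' b) : Htp f' g' := by
  obtain ⟨F, h1, h2, h3, h4⟩ := h
  exact ⟨F, h1, h2, fun b hb => (h3 b hb).trans (hf b hb), fun b hb => (h4 b hb).trans (hg b hb)⟩

theorem Htp.refl {f : BB α n → Matrix ι ι ℂ} (h1 : ContDiff ℝ 2 f)
    (h2 : ∀ b, Un b → (f b)ᴴ * f b = 1) : Htp f f :=
  ⟨fun x => f x.2, h1.comp contDiff_snd, fun _ b hb => h2 b hb, fun _ _ => rfl, fun _ _ => rfl⟩

theorem Htp.symm {f g : BB α n → Matrix ι ι ℂ} (h : Htp f g) : Htp g f := by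
  obtain ⟨F, h1, h2, h3, h4⟩ := h
  exact ⟨fun x => F (1 - x.1, x.2), h1.comp (by fun_prop), fun s b hb => h2 _ b hb,
    fun b hb => by simpa using h4 b hb, fun b hb => by simpa using h3 b hb⟩

theorem Htp.trans {f g k : BB α n → Matrix ι ι ℂ} (h : Htp f g) (h' : Htp g k) : Htp f k := by
  obtain ⟨F, h1, h2, h3, h4⟩ := h
  obtain ⟨F', h1', h2', h3', h4'⟩ := h'
  refine ⟨fun x => F x * (F (1, x.2))ᴴ * F' x,
    contDiff_mmul (contDiff_mmul h1 (contDiff_mH (h1.comp (by fun_prop)))) h1',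
    fun s b hb => unit_mul (unit_mul (h2 s b hb) (unit_H (h2 1 b hb))) (h2' s b hb),
    fun b hb => ?_, fun b hb => ?_⟩
  · simp only
    rw [h3' b hb, ← h4 b hb, Matrix.mul_assoc, h2 1 b hb, Matrix.mul_one, h3 b hb]
  · simp only
    rw [mul_eq_one_comm.1 (h2 1 b hb), Matrix.one_mul, h4' b hb]

theorem Htp.const {U : Matrix ι ι ℂ} (hU : Uᴴ * U = 1) :
    Htp (fun _ : BB α n => (1 : Matrix ι ι ℂ)) fun _ => U := by
  refine refl_induction (fun _ U => Htp (fun _ : BB α n => (1 : Matrix ι ι ℂ)) fun _ => U)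
    (Htp.refl contDiff_const fun _ _ => by simp) ?_ (Fintype.card ι) U 0
    ⟨hU, mul_eq_one_comm.1 hU⟩ (by simp) (by simp) (by simp) (by simp)
  intro k U θ p h _ hp hp2 _ _
  have h1 : Htp (fun _ : BB α n => (1 : Matrix ι ι ℂ)) fun _ => Vale.Agent.P174b.refl θ p := by
    refine ⟨fun x => Vale.Agent.P174b.refl (x.1 * θ) p, ?_, fun s b _ => (refl_mem hp hp2 _).1,
      fun b _ => by simp [refl_zero], fun b _ => by simp⟩
    refine contDiff_const.add (contDiff_csmul (ContDiff.sub (ContDiff.cexp ?_) contDiff_const)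
      contDiff_const)
    exact (Complex.ofRealCLM.contDiff.comp (contDiff_fst.mul contDiff_const)).mul contDiff_const
  exact (h1.mul h).congr (fun _ _ => by simp) fun _ _ => rfl

noncomputable def corner (J : Matrix ι (Fin n) ℂ) (x : Matrix (Fin n) (Fin n) ℂ) : Matrix ι ι ℂ :=
  1 + J * (x - 1) * Jᴴ

theorem corner_mul {J : Matrix ι (Fin n) ℂ} (hJ : Jᴴ * J = 1) (x y : Matrix (Fin n) (Fin n) ℂ) :
    corner J x * corner J y = corner J (x * y) := by
  simp only [corner, Matrix.mul_add, Matrix.add_mul, Matrix.mul_sub, Matrix.sub_mul,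
    Matrix.mul_assoc, ← Matrix.mul_assoc Jᴴ J, hJ, Matrix.one_mul, Matrix.mul_one]
  abel

theorem corner_one (J : Matrix ι (Fin n) ℂ) : corner J 1 = 1 := by simp [corner]

theorem corner_unit {J : Matrix ι (Fin n) ℂ} (hJ : Jᴴ * J = 1) {x : Matrix (Fin n) (Fin n) ℂ}
    (hx : xᴴ * x = 1) : (corner J x)ᴴ * corner J x = 1 := by
  have : (corner J x)ᴴ = corner J xᴴ := by simp [corner, conjTranspose_mul, Matrix.mul_assoc]
  rw [this, corner_mul hJ, hx, corner_one]

theorem htp_corner_refl {J : Matrix ι (Fin n) ℂ} (hJ : Jᴴ * J = 1)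
    {x : BB α n → Matrix (Fin n) (Fin n) ℂ} (h1 : ContDiff ℝ 2 x)
    (h2 : ∀ b, Un b → (x b)ᴴ * x b = 1) :
    Htp (fun b => corner J (x b)) fun b => corner J (x b) :=
  Htp.refl (by unfold corner; fun_prop) fun b hb => corner_unit hJ (h2 b hb)

theorem htp_corner_orth {J J' : Matrix ι (Fin n) ℂ} (hJ : Jᴴ * J = 1) (hJ' : J'ᴴ * J' = 1)
    (ho : Jᴴ * J' = 0) {x : BB α n → Matrix (Fin n) (Fin n) ℂ} (h1 : ContDiff ℝ 2 x)
    (h2 : ∀ b, Un b → (x b)ᴴ * x b = 1) :
    Htp (fun b => corner J (x b)) fun b => corner J' (x b) := by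
  have ho' : J'ᴴ * J = 0 := by simpa using congrArg conjTranspose ho
  obtain ⟨U, hU⟩ : ∃ U, U = 1 - J * Jᴴ - J' * J'ᴴ + J * J'ᴴ + J' * Jᴴ := ⟨_, rfl⟩
  have hUH : Uᴴ = U := by
    simp only [hU, conjTranspose_add, conjTranspose_sub, conjTranspose_mul, conjTranspose_one,
      conjTranspose_conjTranspose]
    abel
  have hUJ : U * J = J' := by
    simp [hU, Matrix.add_mul, Matrix.sub_mul, Matrix.mul_assoc, hJ, ho']
  have hUJ' : U * J' = J := by
    simp [hU, Matrix.add_mul, Matrix.sub_mul, Matrix.mul_assoc, hJ', ho]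
  have hUU : U * U = 1 := by
    conv_lhs => enter [2]; rw [hU]
    simp only [Matrix.mul_add, Matrix.mul_sub, ← Matrix.mul_assoc, hUJ, hUJ', Matrix.mul_one]
    rw [hU]
    abel
  have hc : Htp (fun _ : BB α n => (1 : Matrix ι ι ℂ)) fun _ => U := Htp.const (by rw [hUH, hUU])
  refine ((hc.mul (htp_corner_refl hJ h1 h2)).mul hc).congr (fun _ _ => by simp) fun b _ => ?_
  have : Jᴴ * U = J'ᴴ := by rw [← hUJ, conjTranspose_mul, hUH]
  rw [corner, corner, Matrix.mul_add, Matrix.add_mul, Matrix.mul_one, hUU, ← Matrix.mul_assoc,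
    ← Matrix.mul_assoc, hUJ, Matrix.mul_assoc, this]

variable {P : Type*} [Fintype P] [DecidableEq P]

noncomputable def rho (J : P → Matrix ι (Fin n) ℂ) (x : P → Matrix (Fin n) (Fin n) ℂ)
    (T : Finset P) : Matrix ι ι ℂ :=
  1 + ∑ p ∈ T, J p * (x p - 1) * (J p)ᴴ

theorem rho_union {J : P → Matrix ι (Fin n) ℂ} (ho : ∀ p q, p ≠ q → (J p)ᴴ * J q = 0)
    (x : P → Matrix (Fin n) (Fin n) ℂ) {T T' : Finset P} (h : Disjoint T T') :
    rho J x T * rho J x T' = rho J x (T ∪ T') := by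
  have : (∑ p ∈ T, J p * (x p - 1) * (J p)ᴴ) * ∑ p ∈ T', J p * (x p - 1) * (J p)ᴴ = 0 := by
    rw [Finset.sum_mul_sum]
    refine Finset.sum_eq_zero fun p hp => Finset.sum_eq_zero fun q hq => ?_
    have : p ≠ q := fun e => Finset.disjoint_left.1 h hp (e ▸ hq)
    simp only [Matrix.mul_assoc, ← Matrix.mul_assoc (J p)ᴴ, ho p q this]
    simp
  rw [rho, rho, rho, add_mul, mul_add, mul_add, this, Finset.sum_union h]
  simp only [one_mul, mul_one]
  abel

theorem htp_rho_pow {J : P → Matrix ι (Fin n) ℂ} (hJ : ∀ p, (J p)ᴴ * J p = 1)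
    (ho : ∀ p q, p ≠ q → (J p)ᴴ * J q = 0) (p₀ : P) (x : P → BB α n → Matrix (Fin n) (Fin n) ℂ)
    {y : BB α n → Matrix (Fin n) (Fin n) ℂ} (h1 : ContDiff ℝ 2 y)
    (h2 : ∀ b, Un b → (y b)ᴴ * y b = 1) (T : Finset P) (hT : ∀ p ∈ T, x p = y) :
    Htp (fun b => corner (J p₀) (y b ^ T.card)) fun b => rho J (fun p => x p b) T := by
  induction T using Finset.induction_on with
  | empty =>
    exact (Htp.refl (f := fun _ => 1) contDiff_const fun _ _ => by simp).congr
      (fun _ _ => by simp [corner]) fun _ _ => by simp [rho]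
  | insert p T hp ih =>
    have h3 : Htp (fun b => corner (J p₀) (y b)) fun b => corner (J p) (y b) := by
      by_cases e : p₀ = p
      · exact e ▸ htp_corner_refl (hJ p₀) h1 h2
      · exact htp_corner_orth (hJ _) (hJ _) (ho _ _ e) h1 h2
    refine (h3.mul (ih fun q hq => hT q (Finset.mem_insert_of_mem hq))).congr
      (fun b _ => ?_) fun b _ => ?_
    · rw [corner_mul (hJ _), Finset.card_insert_of_notMem hp, pow_succ']
    · rw [Finset.insert_eq, ← rho_union ho _ (Finset.disjoint_singleton_left.2 hp)]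
      simp [rho, corner, hT p (Finset.mem_insert_self _ _)]

theorem htp_rho {J : P → Matrix ι (Fin n) ℂ} (hJ : ∀ p, (J p)ᴴ * J p = 1)
    (ho : ∀ p q, p ≠ q → (J p)ᴴ * J q = 0) (p₀ : P) (a : P → α) (ε : P → Bool) (c : α) (d : ℕ)
    (hc : ∀ a', (Finset.univ.filter fun p => a p = a' ∧ ε p = true).card =
      (Finset.univ.filter fun p => a p = a' ∧ ε p = false).card + if a' = c then d else 0)
    (A : Finset α) :
    Htp (fun b : BB α n => corner (J p₀) (if c ∈ A then b c ^ d else 1))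
      fun b => rho J (fun p => if ε p = true then b (a p) else (b (a p))ᴴ)
        (Finset.univ.filter fun p => a p ∈ A) := by
  induction A using Finset.induction_on with
  | empty =>
    exact (Htp.refl (f := fun _ => 1) contDiff_const fun _ _ => by simp).congr
      (fun _ _ => by simp [corner]) fun _ _ => by simp [rho]
  | insert a' A ha ih =>
    have h1 := htp_rho_pow hJ ho p₀
      (fun p (b : BB α n) => if ε p = true then b (a p) else (b (a p))ᴴ) (y := fun b => b a')
      (by fun_prop) (fun b hb => hb a') (Finset.univ.filter fun p => a p = a' ∧ ε p = true)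
      (fun p hp => by
        obtain ⟨h1, h2⟩ := (Finset.mem_filter.1 hp).2
        simp [h1, h2])
    have h2 := htp_rho_pow hJ ho p₀
      (fun p (b : BB α n) => if ε p = true then b (a p) else (b (a p))ᴴ) (y := fun b => (b a')ᴴ)
      (by fun_prop) (fun b hb => unit_H (hb a'))
      (Finset.univ.filter fun p => a p = a' ∧ ε p = false)
      (fun p hp => by
        obtain ⟨h1, h2⟩ := (Finset.mem_filter.1 hp).2
        simp [h1, h2])
    refine ((ih.mul h1).mul h2).congr (fun b hb => ?_) fun b _ => ?_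
    · rw [corner_mul (hJ _), corner_mul (hJ _), hc, add_comm, pow_add, Matrix.mul_assoc,
        Matrix.mul_assoc, ← conjTranspose_pow, mul_eq_one_comm.1 (pow_unitary (hb a') _),
        Matrix.mul_one]
      by_cases e : a' = c
      · subst e
        simp [ha]
      · simp [e, Ne.symm e]
    · rw [rho_union ho, rho_union ho]
      · congr 1
        ext p
        cases h : ε p <;> simp [h, or_comm]
      · rw [Finset.disjoint_left]
        intro p h3 h4
        simp only [Finset.mem_union, Finset.mem_filter, Finset.mem_univ, true_and] at h3 h4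
        rcases h3 with h3 | h3
        · exact ha (h4.1 ▸ h3)
        · simp [h3.2] at h4
      · rw [Finset.disjoint_left]
        intro p h3 h4
        simp only [Finset.mem_filter, Finset.mem_univ, true_and] at h3 h4
        exact ha (h4.1 ▸ h3)

end One

theorem fixed_vector_blocks {ι : α → Type*} [∀ c, Fintype (ι c)] [∀ c, DecidableEq (ι c)]
    {P : α → Type*} [∀ c, Fintype (P c)] [∀ c, DecidableEq (P c)] (a : ∀ c, P c → α)
    (ε : ∀ c, P c → Bool) (j : ∀ c, P c → Fin n → ι c)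
    (hj : ∀ c p k q l, j c p k = j c q l → p = q ∧ k = l) {d : ℕ} (hd : 0 < d)
    (hc : ∀ c a', (Finset.univ.filter fun p => a c p = a' ∧ ε c p = true).card =
      (Finset.univ.filter fun p => a c p = a' ∧ ε c p = false).card + if a' = c then d else 0)
    (C : ∀ c, Matrix (ι c) (ι c) ℂ) (hC : ∀ c, (C c)ᴴ * C c = 1) :
    ∃ b : BB α n, Un b ∧ ∀ c, ∃ W : Matrix (ι c) (Fin n) ℂ, Wᴴ * W = 1 ∧
      rho (fun p => emb (j c p)) (fun p => if ε c p = true then b (a c p) else (b (a c p))ᴴ)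
        Finset.univ * C c * W = W := by
  have hp : ∀ c, Nonempty (P c) := by
    intro c
    have := hc c c
    rw [if_pos rfl] at this
    obtain ⟨p, -⟩ := Finset.card_pos.1 (show 0 < (Finset.univ.filter
      fun p => a c p = c ∧ ε c p = true).card by omega)
    exact ⟨p⟩
  let p₀ : ∀ c, P c := fun c => (hp c).some
  have hji : ∀ c p, Function.Injective (j c p) := fun c p k l h => (hj c p k p l h).2
  have hJ : ∀ c p, (emb (j c p))ᴴ * emb (j c p) = 1 := fun c p => embH_mul_emb (hji c p)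
  have ho : ∀ c p q, p ≠ q → (emb (j c p))ᴴ * emb (j c q) = 0 := by
    intro c p q hpq
    ext k l
    rw [embH_mul_apply, emb_apply, if_neg fun h => hpq (hj c p k q l h).1]
    rfl
  have hζ := Complex.isPrimitiveRoot_exp (n + 1) (Nat.succ_ne_zero n)
  obtain ⟨δ, hδ, hδi⟩ : ∃ δ : Fin n → ℂ, (∀ i, ‖δ i‖ = 1) ∧ Function.Injective δ :=
    ⟨fun i => _ ^ (i : ℕ), fun i => by rw [norm_pow, hζ.norm'_eq_one (Nat.succ_ne_zero n), one_pow],
      fun i k h => Fin.ext (hζ.pow_inj (by omega) (by omega) h)⟩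
  have h1 : ∀ c, Htp (fun b : BB α n => G0 (emb (j c (p₀ c))) δ d (b c)) fun b =>
      rho (fun p => emb (j c p)) (fun p => if ε c p = true then b (a c p) else (b (a c p))ᴴ)
        Finset.univ * C c := by
    intro c
    have h2 := htp_rho (hJ c) (ho c) (p₀ c) (a c) (ε c) c d (hc c) Finset.univ
    have h3 := Htp.const (α := α) (n := n)
      (G0_unitary (hJ c (p₀ c)) hδ d (b := 1) (by simp))
    refine ((h3.symm.mul h2).mul (Htp.const (hC c))).congr (fun b _ => ?_) fun b _ => by simp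
    simp only [G0, corner, Finset.mem_univ, if_true, one_pow, Matrix.mul_one, Matrix.mul_add,
      Matrix.sub_mul, Matrix.mul_sub, Matrix.mul_assoc, ← Matrix.mul_assoc _ (emb (j c (p₀ c))),
      hJ, Matrix.one_mul]
    abel
  choose F hF1 hF2 hF3 hF4 using h1
  have hsm : ∀ c, ContDiff ℝ 2 fun x : ℝ × BB α n =>
      F c x + (1 - x.1) • (G0 (emb (j c (p₀ c))) δ d (x.2 c) - F c (0, x.2)) := by
    intro c
    have := hF1 c
    unfold G0
    fun_prop
  obtain ⟨b, hb, h⟩ := fixed_vector (fun c => j c (p₀ c)) (fun c => hji c _)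
    (F := fun x c => F c x + (1 - x.1) • (G0 (emb (j c (p₀ c))) δ d (x.2 c) - F c (0, x.2)))
    (contDiff_pi.2 hsm)
    (fun s b hb c => by simpa [hF3 c b hb] using hF2 c s b hb) hδ hδi hd (fun b c => by simp)
  refine ⟨b, hb, fun c => ?_⟩
  obtain ⟨W, h1, h2⟩ := h c
  exact ⟨W, h1, by simpa [hF4 c b hb] using h2⟩

end Vale.Agent.P174b
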