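import Vale.Agent.P174b.Words
import Vale.Agent.P174b.Htp

/-! The length estimate for the diagonal matrix attached to a spherical picture. -/

set_option linter.unusedSectionVars false

open Matrix

namespace Vale.Agent.P174b

section Aux

variable {T ν κ : Type*} [Fintype T] [DecidableEq T] [Fintype ν] [DecidableEq ν]

theorem emb_proj {e : ν → T} (he : Function.Injective e) (M : Matrix T κ ℂ)
    (h : ∀ u q, M u q ≠ 0 → u ∈ Set.range e) : emb e * ((emb e)ᴴ * M) = M := by
  ext u q
  simp only [mul_apply (M := emb e), embH_mul_apply, emb_apply, ite_mul, one_mul, zero_mul]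
  by_cases hu : u ∈ Set.range e
  · obtain ⟨p, rfl⟩ := hu
    simp [he.eq_iff]
  · rw [Finset.sum_eq_zero fun p _ => if_neg fun e' => hu ⟨p, e'.symm⟩]
    by_contra hc
    exact hu (h u q (Ne.symm hc))

variable {P : Type*} [Fintype P] [DecidableEq P] {n : ℕ}

theorem rho_in (j : P → Fin n → T) (hj : ∀ p k q l, j p k = j q l → p = q ∧ k = l)
    (x : P → Matrix (Fin n) (Fin n) ℂ) (p q : P) (k l : Fin n) :
    rho (fun p => emb (j p)) x Finset.univ (j p k) (j q l) = if p = q then x p k l else 0 := by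
  have h1 : ∀ p q, (emb (j p))ᴴ * emb (j q) = if p = q then 1 else 0 := by
    intro p q
    split_ifs with h
    · subst h
      exact embH_mul_emb fun k l h => (hj _ _ _ _ h).2
    · ext k l
      rw [embH_mul_apply, emb_apply, if_neg fun e => h (hj _ _ _ _ e).1]
      rfl
  have h2 : (emb (j p))ᴴ * (rho (fun p => emb (j p)) x Finset.univ * emb (j q)) =
      if p = q then x p else 0 := by
    simp only [rho, Matrix.add_mul, Matrix.mul_add, Matrix.sum_mul, Matrix.mul_sum,
      Matrix.one_mul, Matrix.mul_assoc, h1, ← Matrix.mul_assoc (emb (j p))ᴴ]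
    simp only [ite_mul, mul_ite, Matrix.one_mul, Matrix.zero_mul, Matrix.mul_zero, Matrix.mul_one,
      one_mul, zero_mul, mul_zero, mul_one, Finset.sum_ite_eq, Finset.mem_univ, if_true]
    split_ifs with h <;> simp [h]
  have h3 := congrFun (congrFun h2 k) l
  rw [embH_mul_apply, mul_emb_apply] at h3
  rw [h3]
  split_ifs <;> rfl

theorem rho_out_left (j : P → Fin n → T) (x : P → Matrix (Fin n) (Fin n) ℂ) (u v : T)
    (hu : ∀ p k, u ≠ j p k) :
    rho (fun p => emb (j p)) x Finset.univ u v = if u = v then 1 else 0 := by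
  simp [rho, Matrix.sum_apply, mul_apply, emb_apply, hu, one_apply]

theorem rho_out_right (j : P → Fin n → T) (x : P → Matrix (Fin n) (Fin n) ℂ) (u v : T)
    (hv : ∀ p k, v ≠ j p k) :
    rho (fun p => emb (j p)) x Finset.univ u v = if u = v then 1 else 0 := by
  simp [rho, Matrix.sum_apply, mul_apply, emb_apply, hv, one_apply]

theorem mul_Mon_apply {A H : Type*} [Ring A] [StarRing A] [Algebra ℂ A] [StarModule ℂ A] [Group H]
    (π : H →* A) (M : Matrix T T A)
    (x : Wr T H) (u v : T) : (M * Mon π x) u v = M u (x.r v) * π (x.l (x.r v)) := by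
  simp only [mul_apply, Mon_apply, mul_ite, mul_zero, Finset.sum_ite_eq', Finset.mem_univ, if_true]

theorem liftMat_one {A : Type*} [Ring A] [StarRing A] [Algebra ℂ A] [StarModule ℂ A] :
    liftMat T A 1 = 1 := map_one _

theorem lift_Mon {G : Type*} [Group G] (x : Wr T Circle) (y : Wr T (Circle × G)) (h1 : y.r = x.r)
    (h2 : ∀ u, y.l u = (x.l u, 1)) :
    liftMat T (MonoidAlgebra ℂ G) (Mon Circle.coeHom x) = Mon (piG G) y := by
  refine Matrix.ext fun u v => ?_
  rw [liftMat_apply, Mon_apply, Mon_apply, h1, h2, piG_scalar]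
  split_ifs
  · rfl
  · exact map_zero _

end Aux

variable {G : Type*} [Group G] {α : Type*} [Fintype α] [DecidableEq α] {n : ℕ}
  {Pos St : Type*} [Fintype Pos] [DecidableEq Pos] [Fintype St] [DecidableEq St]

abbrev Pr (Pos St : Type*) (n : ℕ) := (Pos × Fin n) ⊕ St

def psi (ν : Equiv.Perm Pos) : Equiv.Perm (Pr Pos St n × Bool) where
  toFun
    | (.inl x, true) => (.inl (ν⁻¹ x.1, x.2), true)
    | (.inl x, false) => (.inl (ν x.1, x.2), false)
    | (.inr st, b) => (.inr st, !b)
  invFun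
    | (.inl x, true) => (.inl (ν x.1, x.2), true)
    | (.inl x, false) => (.inl (ν⁻¹ x.1, x.2), false)
    | (.inr st, b) => (.inr st, !b)
  left_inv := by rintro ⟨x | st, _ | _⟩ <;> simp
  right_inv := by rintro ⟨x | st, _ | _⟩ <;> simp

noncomputable def Qw (ν : Equiv.Perm Pos) (cf : Pos → G) (ω : Circle) :
    Wr (Option (Pr Pos St n × Bool)) (Circle × G) where
  l
    | none => 1
    | some (.inl x, true) => (ω, cf x.1)
    | some (.inl x, false) => (ω, (cf (ν⁻¹ x.1))⁻¹)
    | some (.inr _, _) => (ω, 1)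
  r := (psi ν).optionCongr

def rho0 (a : Pos → α) (b : BB α n) : Matrix (Pr Pos St n) (Pr Pos St n) ℂ :=
  fromBlocks (Matrix.of fun x y => if x.1 = y.1 then b (a x.1) x.2 y.2 else 0) 0 0 1

theorem rho0_unit (a : Pos → α) {b : BB α n} (hb : Un b) :
    (rho0 (St := St) a b)ᴴ * rho0 a b = 1 := by
  rw [rho0, fromBlocks_conjTranspose, fromBlocks_multiply, ← fromBlocks_one]
  simp only [conjTranspose_zero, Matrix.mul_zero, Matrix.zero_mul, add_zero, zero_add,
    conjTranspose_one, Matrix.mul_one]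
  congr 1
  ext ⟨p, i⟩ ⟨q, k⟩
  have := congrFun (congrFun (hb (a p)) i) k
  simp only [mul_apply, conjTranspose_apply, one_apply] at this
  simp only [mul_apply, conjTranspose_apply, of_apply, Fintype.sum_prod_type, one_apply,
    Prod.mk.injEq]
  rw [Finset.sum_eq_single p (fun r _ hr => by simp [hr]) (by simp)]
  by_cases e : p = q
  · simpa [e] using this
  · simp [e]

noncomputable def iota0 (r : Matrix (Pr Pos St n) (Pr Pos St n) ℂ) :
    Matrix (Option (Pr Pos St n × Bool)) (Option (Pr Pos St n × Bool)) ℂ :=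
  Matrix.of fun u v => match u, v with
    | none, none => 1
    | some (p, true), some (q, false) => r p q
    | some (p, false), some (q, true) => rᴴ p q
    | _, _ => 0

theorem iota0_star (r : Matrix (Pr Pos St n) (Pr Pos St n) ℂ) : star (iota0 r) = iota0 r := by
  ext (_ | ⟨p, _ | _⟩) (_ | ⟨q, _ | _⟩) <;> simp [iota0, star_apply]

theorem iota0_sq {r : Matrix (Pr Pos St n) (Pr Pos St n) ℂ} (hr : rᴴ * r = 1) :
    iota0 r * iota0 r = 1 := by
  have hr' := mul_eq_one_comm.1 hr
  ext (_ | ⟨p, _ | _⟩) (_ | ⟨q, _ | _⟩)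
  all_goals simp [iota0, mul_apply, Fintype.sum_option, Fintype.sum_prod_type, one_apply]
  · simpa [mul_apply, one_apply, Fintype.sum_prod_type] using congrFun (congrFun hr p) q
  · simpa [mul_apply, one_apply, Fintype.sum_prod_type] using congrFun (congrFun hr' p) q

theorem J_star (a : Pos → α) (ν : Equiv.Perm Pos) (hν : ∀ p, a (ν p) = a p) (cf : Pos → G)
    (b : BB α n) :
    star (liftMat _ _ (iota0 (rho0 (St := St) a b)) * Mon (piG G) (Qw ν cf 1)) =
      liftMat _ _ (iota0 (rho0 (St := St) a b)) * Mon (piG G) (Qw ν cf 1) := by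
  refine Matrix.ext fun u v => ?_
  rw [star_apply, mul_Mon_apply, mul_Mon_apply, liftMat_apply, liftMat_apply, star_mul, star_piG,
    ga_star_algebraMap, ← Algebra.commutes]
  rcases u with _ | ⟨⟨p, i⟩ | s, _ | _⟩ <;> rcases v with _ | ⟨⟨q, k⟩ | t, _ | _⟩ <;>
    simp [iota0, Qw, psi, rho0, one_apply]
  · by_cases e : q = ν p
    · subst e
      simp [hν]
    · have : ν.symm q ≠ p := fun h => e (by simp [← h])
      simp [e, this]
  · by_cases e : p = ν q
    · subst e
      simp [hν]
    · have : ν.symm p ≠ q := fun h => e (by simp [← h])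
      simp [e, this]
  · simp [eq_comm]
  · simp [eq_comm]

theorem J_trace (a : Pos → α) (ν : Equiv.Perm Pos) (cf : Pos → G) (b : BB α n) :
    mtr _ (tr0 G) (liftMat _ _ (iota0 (rho0 (St := St) a b)) * Mon (piG G) (Qw ν cf 1)) =
      1 + 2 * Fintype.card St := by
  have h1 : tr0 G 1 = 1 := MonoidAlgebra.coeff_one_one
  have h2 : piG G (1, 1) = 1 := map_one _
  simp [mtr_apply, mul_Mon_apply, liftMat_apply, Fintype.sum_option, Fintype.sum_prod_type,
    Fintype.sum_sum_type, iota0, Qw, psi, rho0, h2, ← MonoidAlgebra.one_def, h1]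
  ring

def sgn (ε : Pr Pos St n → Bool) (s : Pr Pos St n × Bool) : Bool := if s.2 then ε s.1 else !ε s.1

theorem iota0_ne (a : Pos → α) (b : BB α n) {β' : Type*} (gP : Pos → β') (gS : St → β')
    (p : Pr Pos St n) (β : Bool) (q : Pr Pos St n) (γ : Bool)
    (h : iota0 (rho0 (St := St) a b) (some (p, β)) (some (q, γ)) ≠ 0) :
    β = !γ ∧ Sum.elim (fun x => gP x.1) gS p = Sum.elim (fun x => gP x.1) gS q := by
  have hr : ∀ p q, rho0 (St := St) a b p q ≠ 0 →
      Sum.elim (fun x => gP x.1) gS p = Sum.elim (fun x => gP x.1) gS q := by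
    rintro (⟨p, i⟩ | s) (⟨q, k⟩ | t) h
    · have : p = q := by
        by_contra hc
        simp [rho0, hc] at h
      simp [this]
    · simp [rho0] at h
    · simp [rho0] at h
    · have : s = t := by
        by_contra hc
        simp [rho0, hc] at h
      simp [this]
  cases β <;> cases γ <;> simp only [iota0, of_apply, ne_eq, not_true, conjTranspose_apply,
    star_eq_zero] at h
  · exact ⟨rfl, (hr _ _ h).symm⟩
  · exact ⟨rfl, hr _ _ h⟩

noncomputable def Lm (ε : Pr Pos St n → Bool) (β : Bool) :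
    Matrix (Option (Pr Pos St n × Bool)) (Option (Pr Pos St n × Bool)) ℂ :=
  diagonal fun u => if u.map (sgn ε) = some β then 1 else 0

theorem exists_fixed (a : Pos → α) (lP : Pos → α) (εP : Pos → Bool) (lS : St → α) (εS : St → Bool)
    {d : ℕ} (hd : 0 < d)
    (hc : ∀ c a', (Finset.univ.filter fun p => lP p = c ∧ a p = a' ∧ εP p = true).card =
      (Finset.univ.filter fun p => lP p = c ∧ a p = a' ∧ εP p = false).card +
        if a' = c then d else 0)
    (Y : Matrix (Option (Pr Pos St n × Bool)) (Option (Pr Pos St n × Bool)) ℂ)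
    (hY2 : Y * Y = 1) (hYs : star Y = Y)
    (ι : Equiv.Perm (Pr Pos St n × Bool)) (hYne : ∀ u v, Y u v ≠ 0 → u = ι.optionCongr v)
    (hl : ∀ s, Sum.elim (fun x => lP x.1) lS (ι s).1 = Sum.elim (fun x => lP x.1) lS s.1)
    (hs : ∀ s, sgn (Sum.elim (fun x => εP x.1) εS) (ι s) = !sgn (Sum.elim (fun x => εP x.1) εS) s) :
    ∃ b : BB α n, Un b ∧ ∃ V : α → Matrix (Option (Pr Pos St n × Bool)) (Fin n) ℂ,
      (∀ c, iota0 (rho0 (St := St) a b) * Y * V c = V c) ∧
      (∀ c c', (V c)ᴴ * V c' = if c = c' then 1 else 0) ∧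
      ∀ c, Lm (n := n) (Sum.elim (fun x => εP x.1) εS) true * V c = V c := by
  obtain ⟨l0, hl0⟩ : ∃ l0 : Pr Pos St n → α, l0 = Sum.elim (fun x => lP x.1) lS := ⟨_, rfl⟩
  obtain ⟨ε, hε⟩ : ∃ ε : Pr Pos St n → Bool, ε = Sum.elim (fun x => εP x.1) εS := ⟨_, rfl⟩
  rw [← hl0] at hl
  rw [← hε] at hs ⊢
  let e : ∀ c, {p // l0 p = c} → Option (Pr Pos St n × Bool) := fun c p => some (p.1, ε p.1)
  let f : ∀ c, {p // l0 p = c} → Option (Pr Pos St n × Bool) := fun c p => some (p.1, !ε p.1)
  have he : ∀ c, Function.Injective (e c) := fun c p q h => Subtype.ext (by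
    simp only [e, Option.some.injEq, Prod.mk.injEq] at h; exact h.1)
  have hf : ∀ c, Function.Injective (f c) := fun c p q h => Subtype.ext (by
    simp only [f, Option.some.injEq, Prod.mk.injEq] at h; exact h.1)
  have hYe : ∀ c, emb (f c) * ((emb (f c))ᴴ * (Y * emb (e c))) = Y * emb (e c) := by
    intro c
    refine emb_proj (hf c) _ fun u q h => ?_
    rw [mul_emb_apply] at h
    have h1 := hl (q.1, ε q.1)
    have h2 := hs (q.1, ε q.1)
    refine ⟨⟨(ι (q.1, ε q.1)).1, h1.trans q.2⟩, ?_⟩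
    rw [hYne _ _ h]
    simp only [e, f, Equiv.optionCongr_apply, Option.map_some]
    generalize ι (q.1, ε q.1) = t at h2
    obtain ⟨t, β⟩ := t
    revert h2
    cases β <;> cases h3 : ε t <;> cases h4 : ε q.1 <;> simp [sgn, h3, h4]
  let j : ∀ c, {p // lP p = c} → Fin n → {p // l0 p = c} := fun c p k =>
    ⟨.inl (p.1, k), by simp [hl0, p.2]⟩
  have hj : ∀ c p k q l, j c p k = j c q l → p = q ∧ k = l := fun c p k q l h => by
    simpa [j, Subtype.ext_iff] using h
  obtain ⟨b, hb, hW⟩ := fixed_vector_blocks (ι := fun c => {p // l0 p = c})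
    (P := fun c => {p // lP p = c}) (fun c p => a p.1) (fun c p => εP p.1) j hj hd
    (fun c a' => by
      have := hc c a'
      simp only [← Fintype.card_subtype] at this ⊢
      rw [Fintype.card_congr (Equiv.subtypeSubtypeEquivSubtypeInter (fun p => lP p = c)
        fun p => a p = a' ∧ εP p = true), Fintype.card_congr (Equiv.subtypeSubtypeEquivSubtypeInter
        (fun p => lP p = c) fun p => a p = a' ∧ εP p = false), this])
    (fun c => (emb (f c))ᴴ * (Y * emb (e c))) (fun c => by
      rw [conjTranspose_mul, conjTranspose_conjTranspose, Matrix.mul_assoc, hYe,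
        conjTranspose_mul, ← star_eq_conjTranspose, hYs, Matrix.mul_assoc, ← Matrix.mul_assoc Y,
        hY2, Matrix.one_mul, embH_mul_emb (he c)])
  choose W hW1 hW2 using hW
  have hIf : ∀ c, iota0 (rho0 (St := St) a b) * emb (f c) = emb (e c) * rho (fun p => emb (j c p))
      (fun p => if εP p.1 = true then b (a p.1) else (b (a p.1))ᴴ) Finset.univ := by
    intro c
    rw [← emb_proj (he c) (iota0 (rho0 (St := St) a b) * emb (f c))]
    · congr 1
      ext ⟨p, hp⟩ ⟨q, hq⟩
      rw [embH_mul_apply, mul_emb_apply]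
      rcases p with ⟨p, i⟩ | s
      · rcases q with ⟨q, k⟩ | t
        · refine Eq.trans ?_ (rho_in (j c) (hj c) _ ⟨p, by simpa [hl0] using hp⟩
            ⟨q, by simpa [hl0] using hq⟩ i k).symm
          by_cases h : p = q
          · subst h
            cases h' : εP p <;> simp [e, f, hε, h', iota0, rho0]
          · cases h' : εP p <;> cases h'' : εP q <;> simp [e, f, hε, h', h'', iota0, rho0, h, Ne.symm h]
        · rw [rho_out_right _ _ _ _ (by simp [j])]
          cases h' : εP p <;> cases h'' : εS t <;> simp [e, f, hε, h', h'', iota0, rho0]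
      · rw [rho_out_left _ _ _ _ (by simp [j])]
        rcases q with ⟨q, k⟩ | t
        · cases h' : εS s <;> cases h'' : εP q <;> simp [e, f, hε, h', h'', iota0, rho0]
        · by_cases h : s = t
          · subst h
            cases h' : εS s <;> simp [e, f, hε, h', iota0, rho0]
          · cases h' : εS s <;> cases h'' : εS t <;> simp [e, f, hε, h', h'', iota0, rho0, h, Ne.symm h]
    · intro u q h
      rw [mul_emb_apply] at h
      rcases u with _ | ⟨p, β⟩
      · simp [iota0, f] at h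
      · obtain ⟨h1, h2⟩ := iota0_ne a b lP lS _ _ _ _ h
        have h3 := (iota0_ne a b εP εS _ _ _ _ h).2
        rw [← hl0] at h2
        rw [← hε] at h3
        exact ⟨⟨p, h2.trans q.2⟩, by simp [e, h1, h3]⟩
  refine ⟨b, hb, fun c => emb (e c) * W c, fun c => ?_, fun c c' => ?_, fun c => ?_⟩ <;> beta_reduce
  · rw [← Matrix.mul_assoc, Matrix.mul_assoc _ Y, ← hYe, ← Matrix.mul_assoc, hIf, Matrix.mul_assoc,
      Matrix.mul_assoc, ← Matrix.mul_assoc (rho _ _ _), hW2]
  · split_ifs with h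
    · subst h
      rw [conjTranspose_mul, Matrix.mul_assoc, ← Matrix.mul_assoc _ (emb _), embH_mul_emb (he c),
        Matrix.one_mul, hW1]
    · have : (emb (e c))ᴴ * emb (e c') = 0 := by
        ext p q
        rw [embH_mul_apply, emb_apply, if_neg]
        · rfl
        · intro h'
          simp only [e, Option.some.injEq, Prod.mk.injEq] at h'
          exact h (by rw [← p.2, ← q.2, h'.1])
      rw [conjTranspose_mul, Matrix.mul_assoc, ← Matrix.mul_assoc _ (emb _), this]
      simp
  · rw [← Matrix.mul_assoc]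
    congr 1
    ext u p
    rw [Lm, diagonal_mul, emb_apply]
    by_cases h : u = e c p
    · subst h
      cases h' : ε p.1 <;> simp [e, sgn, h']
    · simp [h]

theorem two_invol (a : Pos → α) (lP : Pos → α) (εP : Pos → Bool) (lS : St → α) (εS : St → Bool)
    {d : ℕ} (hd : 0 < d)
    (hc : ∀ c a', (Finset.univ.filter fun p => lP p = c ∧ a p = a' ∧ εP p = true).card =
      (Finset.univ.filter fun p => lP p = c ∧ a p = a' ∧ εP p = false).card +
        if a' = c then d else 0)
    (y : Wr (Option (Pr Pos St n × Bool)) Circle) (hy : y * y = 1) (hy0 : y.l none = 1)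
    (ι : Equiv.Perm (Pr Pos St n × Bool)) (hyι : y.r = ι.optionCongr)
    (hl : ∀ s, Sum.elim (fun x => lP x.1) lS (ι s).1 = Sum.elim (fun x => lP x.1) lS s.1)
    (hs : ∀ s, sgn (Sum.elim (fun x => εP x.1) εS) (ι s) = !sgn (Sum.elim (fun x => εP x.1) εS) s) :
    ∃ b : BB α n, Un b ∧ PL (traceLinearMap _ ℂ ℂ)
      (iota0 (rho0 (St := St) a b) * Mon Circle.coeHom y)
      (2 * Real.pi * (Fintype.card (Pr Pos St n) - Fintype.card α * n)) := by
  have hπ : ∀ h : Circle, star (Circle.coeHom h) = Circle.coeHom h⁻¹ := fun h =>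
    (Circle.coe_inv_eq_conj h).symm
  obtain ⟨Y, hY⟩ : ∃ Y, Y = Mon Circle.coeHom y := ⟨_, rfl⟩
  have hY2 : Y * Y = 1 := by rw [hY, ← map_mul, hy, map_one]
  have hYs : star Y = Y := by rw [hY, star_Mon hπ, inv_eq_of_mul_eq_one_right hy]
  have hYne : ∀ u v, Y u v ≠ 0 → u = ι.optionCongr v := fun u v h => by
    rw [hY, Mon_apply, hyι] at h
    by_contra hc
    exact h (if_neg hc)
  obtain ⟨b, hb, V, hfix, hVV, hLV⟩ := exists_fixed a lP εP lS εS hd hc Y hY2 hYs ι hYne hl hs
  refine ⟨b, hb, ?_⟩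
  have hI := iota0_ne a b εP εS
  obtain ⟨ε, hε⟩ : ∃ ε : Pr Pos St n → Bool, ε = Sum.elim (fun x => εP x.1) εS := ⟨_, rfl⟩
  rw [← hε] at hs hLV hI
  have hle : Fintype.card α * n ≤ Fintype.card (Pr Pos St n) := by
    have h1 : Function.Surjective lP := by
      intro c
      have := hc c c
      rw [if_pos rfl] at this
      obtain ⟨p, hp⟩ := Finset.card_pos.1 (show 0 < (Finset.univ.filter
        fun p => lP p = c ∧ a p = c ∧ εP p = true).card by omega)
      exact ⟨p, (Finset.mem_filter.1 hp).2.1⟩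
    have h2 := Nat.mul_le_mul_right n (Fintype.card_le_of_surjective _ h1)
    simp only [Fintype.card_sum, Fintype.card_prod, Fintype.card_fin]
    omega
  have hcomm : ∀ M : Matrix (Option (Pr Pos St n × Bool)) (Option (Pr Pos St n × Bool)) ℂ,
      (∀ u v, M u v ≠ 0 → u.map (sgn ε) = (v.map (sgn ε)).map not) →
      M * Lm ε true = Lm ε false * M := by
    intro M hM
    ext u v
    rw [Lm, Lm, mul_diagonal, diagonal_mul]
    by_cases h : M u v = 0
    · simp [h]
    · rw [hM u v h]
      rcases v.map (sgn ε) with _ | _ | _ <;> simp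
  have key := pl_two_invol (Fintype.card (Pr Pos St n) - Fintype.card α * n)
    (iota0 (rho0 (St := St) a b)) Y (Lm ε true) (Lm ε false) (∑ c, V c * (V c)ᴴ) (iota0_star _)
    (iota0_sq (rho0_unit a hb)) hYs hY2
    (by simp [Lm, star_eq_conjTranspose, diagonal_conjTranspose, Pi.star_def, apply_ite])
    (by simp [Lm, diagonal_mul_diagonal])
    (by
      simp only [Lm, diagonal_mul_diagonal]
      rw [← diagonal_zero]
      congr 1
      ext u
      rcases u.map (sgn ε) with _ | _ | _ <;> simp)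
    (hcomm _ ?_) (hcomm _ ?_) ?_
    (by simp [star_eq_conjTranspose, conjTranspose_mul, conjTranspose_sum]) ?_ ?_ ?_ ?_
  · rw [← hY]
    exact key.cast rfl (by rw [Nat.cast_sub hle]; push_cast; rfl)
  · rintro (_ | ⟨p, β⟩) (_ | ⟨q, γ⟩) h
    · rfl
    · simp [iota0] at h
    · cases β <;> simp [iota0] at h
    · obtain ⟨h1, h3⟩ := hI _ _ _ _ h
      cases γ <;> simp [sgn, h1, h3]
  · intro u v h
    rw [hYne u v h]
    rcases v with _ | s <;> simp [hs]
  · have : 1 - Lm ε true - Lm ε false = diagonal fun u => if u = none then 1 else 0 := by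
      simp only [Lm, ← diagonal_one, diagonal_sub]
      congr 1
      ext (_ | s)
      · simp
      · cases h : sgn ε s <;> simp [h]
    rw [this]
    ext u (_ | s)
    · rw [mul_diagonal, mul_diagonal, hY, Mon_apply, hyι]
      rcases u with _ | ⟨p, _ | _⟩ <;> simp [iota0, hy0]
    · simp
  · rw [Finset.sum_mul_sum]
    refine Finset.sum_congr rfl fun c _ => ?_
    simp only [Matrix.mul_assoc (V c), ← Matrix.mul_assoc (V c)ᴴ, hVV]
    rw [Finset.sum_eq_single c (fun c' _ h => by simp [Ne.symm h]) (by simp)]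
    simp
  · rw [Finset.mul_sum]
    refine Finset.sum_congr rfl fun c _ => ?_
    rw [← Matrix.mul_assoc, hLV]
  · rw [Finset.mul_sum]
    refine Finset.sum_congr rfl fun c _ => ?_
    rw [← Matrix.mul_assoc, hfix]
  · rw [trace_sum, Nat.cast_sub hle]
    simp only [trace_mul_comm (V _), hVV, if_true, trace_one, Lm, trace_diagonal,
      Fintype.sum_option, Fintype.sum_prod_type, Fintype.sum_bool]
    have : ∀ p, ((if Option.map (sgn ε) (some (p, true)) = some true then (1 : ℂ) else 0) +
        if Option.map (sgn ε) (some (p, false)) = some true then 1 else 0) = 1 := by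
      intro p
      cases h : ε p <;> simp [sgn, h]
    simp only [this]
    simp

theorem key_length (a : Pos → α) (ν : Equiv.Perm Pos) (hν : ∀ p, a (ν p) = a p) (cf : Pos → G)
    (lP : Pos → α) (εP : Pos → Bool) (lS : St → α) (εS : St → Bool) {d : ℕ} (hd : 0 < d)
    (hc : ∀ c a', (Finset.univ.filter fun p => lP p = c ∧ a p = a' ∧ εP p = true).card =
      (Finset.univ.filter fun p => lP p = c ∧ a p = a' ∧ εP p = false).card +
        if a' = c then d else 0)
    (D : Pr Pos St n × Bool → Circle × G) (ι : Equiv.Perm (Pr Pos St n × Bool))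
    (hι : ∀ s, ι (ι s) = s) (hD : ∀ s, (D (ι s)).2 = (D s).2)
    (hl : ∀ s, Sum.elim (fun x => lP x.1) lS (ι s).1 = Sum.elim (fun x => lP x.1) lS s.1)
    (hs : ∀ s, sgn (Sum.elim (fun x => εP x.1) εS) (ι s) = !sgn (Sum.elim (fun x => εP x.1) εS) s)
    (ω : Circle) (t : Circle × G) {R₁ R₂ : Wr (Option (Pr Pos St n × Bool)) (Circle × G)}
    (h₁ : TL R₁ (Fintype.card (Pr Pos St n)))
    (h₂ : TL R₂ (2 * (Fintype.card α * n) + Fintype.card St))
    (heq : Dhat D * Wr.perm ι.optionCongr * (Dhat D)⁻¹ * R₁ = R₂ * Qw ν cf ω * Gam t) :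
    PL (mtr _ (tr0 G))
      (diagonal fun u : Option (Pr Pos St n × Bool) => piG G (u.elim t fun _ => (ω, 1)))
      (4 * Real.pi * Fintype.card (Pr Pos St n)) := by
  have hιι : (ι.optionCongr : Equiv.Perm _) * ι.optionCongr = 1 := by
    refine Equiv.ext fun u => ?_
    rcases u with _ | s <;> simp [hι]
  have hιi : (ι.optionCongr : Equiv.Perm _)⁻¹ = ι.optionCongr := inv_eq_of_mul_eq_one_right hιι
  obtain ⟨b, hb, h₃⟩ := two_invol a lP εP lS εS hd hc
    (Dhat (fun s => (D s).1) * Wr.perm ι.optionCongr * (Dhat fun s => (D s).1)⁻¹)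
    (by rw [conj_mul, ← map_mul, hιι, map_one, mul_one, mul_inv_cancel])
    (by simp [Dhat, hιi]) ι (by simp [Dhat]) hl hs
  have htr : ∀ x : Matrix (Option (Pr Pos St n × Bool)) (Option (Pr Pos St n × Bool)) ℂ,
      mtr _ (tr0 G) (liftMat _ _ x) = traceLinearMap _ ℂ ℂ x := by
    intro x
    simp [mtr_apply, liftMat_apply, tr0_apply, trace]
  have h₄ := h₃.map (liftMat _ (MonoidAlgebra ℂ G)) htr
  have hY : liftMat _ (MonoidAlgebra ℂ G) (Mon Circle.coeHom
      (Dhat (fun s => (D s).1) * Wr.perm ι.optionCongr * (Dhat fun s => (D s).1)⁻¹)) =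
      Mon (piG G) (Dhat D * Wr.perm ι.optionCongr * (Dhat D)⁻¹) := by
    refine lift_Mon _ _ (by simp [Dhat]) fun u => ?_
    rcases u with _ | s
    · simp [Dhat, hιi, Prod.ext_iff]
    · simp [Dhat, hιi, Prod.ext_iff, hD]
  rw [map_mul, hY] at h₄
  generalize Dhat D * Wr.perm ι.optionCongr * (Dhat D)⁻¹ = y at h₄ heq
  have hI2 : liftMat _ (MonoidAlgebra ℂ G) (iota0 (rho0 (St := St) a b)) *
      liftMat _ (MonoidAlgebra ℂ G) (iota0 (rho0 (St := St) a b)) = 1 := by
    rw [← map_mul, iota0_sq (rho0_unit a hb), liftMat_one]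
  have hIs : star (liftMat _ (MonoidAlgebra ℂ G) (iota0 (rho0 (St := St) a b))) =
      liftMat _ (MonoidAlgebra ℂ G) (iota0 (rho0 (St := St) a b)) := by
    rw [← map_star, iota0_star]
  have hJs := J_star (St := St) a ν hν cf b
  have hJt := J_trace (St := St) a ν cf b
  generalize liftMat _ (MonoidAlgebra ℂ G) (iota0 (rho0 (St := St) a b)) = I0 at *
  have hJ' : I0 * Mon (piG G) (Qw ν cf 1) * I0 = Mon (piG G) (Qw ν cf 1)⁻¹ := by
    rw [← hJs, star_mul, hIs, star_Mon star_piG, mul_assoc, hI2, mul_one]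
  have hJ2 : I0 * Mon (piG G) (Qw ν cf 1) * (I0 * Mon (piG G) (Qw ν cf 1)) = 1 := by
    rw [← mul_assoc, hJ', ← map_mul, inv_mul_cancel, map_one]
  have h1 : tr0 G 1 = 1 := MonoidAlgebra.coeff_one_one
  have h₅ := (((PL.invol (τ := mtr _ (tr0 G)) hJs hJ2).mul h₄).mul
    (((h₂.inv.conj y⁻¹).pl star_piG isTr_tr0 h1))).mul (h₁.pl star_piG isTr_tr0 h1)
  refine h₅.cast ?_ ?_
  · have h6 : (Qw ν cf 1)⁻¹ * y * (y⁻¹ * R₂⁻¹ * y⁻¹⁻¹) * R₁ =
        Wr.diag fun u : Option (Pr Pos St n × Bool) => u.elim t fun _ => (ω, 1) := by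
      have h7 : (Qw ν cf ω : Wr (Option (Pr Pos St n × Bool)) (Circle × G)) * Gam t =
          Qw ν cf 1 * Wr.diag fun u => u.elim t fun _ => (ω, 1) := by
        refine Wr.ext (funext fun u => ?_) (by simp [Qw])
        rcases u with _ | ⟨x | st, _ | _⟩ <;> simp [Qw, Equiv.Perm.inv_def, ← Equiv.optionCongr_symm]
      calc _ = (Qw ν cf 1)⁻¹ * R₂⁻¹ * (y * R₁) := by group
        _ = _ := by rw [heq, mul_assoc R₂, h7]; group
    rw [← mul_assoc _ I0, hJ', ← map_mul, ← map_mul, ← map_mul, h6]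
    refine Matrix.ext fun u v => ?_
    by_cases h : u = v <;> simp [Mon_apply, h]
  · rw [hJt]
    have : mtr (Option (Pr Pos St n × Bool)) (tr0 G) 1 = 1 + 2 * Fintype.card (Pr Pos St n) := by
      simp [mtr_apply, h1]
      ring
    rw [this]
    simp
    ring

end Vale.Agent.P174b
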