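import Vale.Agent.P174b.Core
import Vale.Agent.P174b.Defs

/-! Reduction of the general nonsingular system to the balanced diagonal case. -/

set_option linter.unusedSectionVars false

open Matrix

namespace Vale.Agent.P174b

variable {G : Type*} [Group G] {α : Type*} [Fintype α] [DecidableEq α]

theorem evS_append (l l' : List (α × Bool × G)) : evS (l ++ l') = evS l * evS l' := by
  simp [evS]

theorem mk_false (c : α) : FreeGroup.mk [(c, false)] = (FreeGroup.of c)⁻¹ := by
  simp [FreeGroup.of, FreeGroup.inv_mk, FreeGroup.invRev]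

theorem evS_pair (a : α) (γ : G) : evS [(a, true, 1), (a, false, γ)] = Monoid.Coprod.inl γ := by
  have : FreeGroup.mk [(a, true)] = FreeGroup.of a := rfl
  simp [evS, syl, mk_false, this]

theorem evS_surj (a₀ : α) (x : Monoid.Coprod G (FreeGroup α)) : ∃ l, evS l = x := by
  induction x using Monoid.Coprod.induction_on with
  | inl γ => exact ⟨_, evS_pair a₀ γ⟩
  | inr f =>
    obtain ⟨L, rfl⟩ : ∃ L, FreeGroup.mk L = f := Quot.exists_rep f
    refine ⟨L.map fun y => (y.1, y.2, 1), ?_⟩
    induction L with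
    | nil => simp [evS, ← FreeGroup.one_eq_mk]
    | cons y L ih =>
      rw [← List.singleton_append, ← FreeGroup.mul_mk, map_mul, ← ih]
      simp [evS, syl]
  | mul x y hx hy =>
    obtain ⟨l, rfl⟩ := hx
    obtain ⟨l', rfl⟩ := hy
    exact ⟨l ++ l', evS_append _ _⟩

theorem expSum_evS (l : List (α × Bool × G)) (c : α) :
    (expSum G α (evS l)).toAdd c = (l.map fun x => (if x.1 = c ∧ x.2.1 = true then (1 : ℤ) else 0) -
      if x.1 = c ∧ x.2.1 = false then 1 else 0).sum := by
  induction l with
  | nil => simp [evS]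
  | cons x l ih =>
    rw [← List.singleton_append, evS_append, map_mul, toAdd_mul, Pi.add_apply, ih]
    obtain ⟨a, _ | _, γ⟩ := x
    · have : (expSum G α (evS [(a, false, γ)])).toAdd = -Pi.single a 1 := by
        rw [evS, List.map_singleton, List.prod_singleton, syl, mk_false]
        simp [expSum]
      rw [this]
      by_cases h : a = c <;> simp [h]
    · have : (expSum G α (evS [(a, true, γ)])).toAdd = Pi.single a 1 := by
        rw [evS, List.map_singleton, List.prod_singleton, syl,
          show FreeGroup.mk [(a, true)] = FreeGroup.of a from rfl]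
        simp [expSum]
      rw [this]
      by_cases h : a = c <;> simp [h]

def term (w : α → Monoid.Coprod G (FreeGroup α)) (t : α × Bool × Monoid.Coprod G (FreeGroup α)) :
    Monoid.Coprod G (FreeGroup α) :=
  t.2.2 * (if t.2.1 = true then w t.1 else (w t.1)⁻¹) * t.2.2⁻¹

theorem exists_terms (w : α → Monoid.Coprod G (FreeGroup α)) {y : Monoid.Coprod G (FreeGroup α)}
    (hy : y ∈ Subgroup.normalClosure (Set.range w)) : ∃ L : List _, (L.map (term w)).prod = y := by
  induction hy using Subgroup.closure_induction with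
  | mem x hx =>
    obtain ⟨_, ⟨a, rfl⟩, h⟩ := Group.mem_conjugatesOfSet_iff.1 hx
    obtain ⟨c, rfl⟩ := isConj_iff.1 h
    exact ⟨[(a, true, c)], by simp [term]⟩
  | one => exact ⟨[], rfl⟩
  | mul x y _ _ hx hy =>
    obtain ⟨L, rfl⟩ := hx
    obtain ⟨L', rfl⟩ := hy
    exact ⟨L ++ L', by simp⟩
  | inv x hx' hx =>
    obtain ⟨L, rfl⟩ := hx
    clear hx'
    refine ⟨(L.map fun t => (t.1, !t.2.1, t.2.2)).reverse, ?_⟩
    induction L with
    | nil => simp
    | cons t L ih =>
      simp only [List.map_cons, List.reverse_cons, List.map_append, List.prod_append, ih,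
        List.prod_cons, _root_.mul_inv_rev]
      obtain ⟨a, _ | _, c⟩ := t <;> simp [term, mul_assoc]

def cnt {β : Type*} (L : List (α × Bool × β)) (a : α) (ε : Bool) : ℕ :=
  (L.map fun t => if t.1 = a ∧ t.2.1 = ε then 1 else 0).sum

theorem cnt_le {β : Type*} (L : List (α × Bool × β)) (a : α) (ε : Bool) : cnt L a ε ≤ L.length := by
  induction L with
  | nil => simp [cnt]
  | cons t L ih =>
    simp only [cnt, List.map_cons, List.sum_cons, List.length_cons] at ih ⊢
    split_ifs <;> omega

theorem expSum_terms (w : α → Monoid.Coprod G (FreeGroup α)) (d : ℕ)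
    (hw : ∀ a, (expSum G α (w a)).toAdd = Pi.single a (d : ℤ))
    (L : List (α × Bool × Monoid.Coprod G (FreeGroup α))) (a : α) :
    (expSum G α (L.map (term w)).prod).toAdd a = d * ((cnt L a true : ℤ) - cnt L a false) := by
  induction L with
  | nil => simp [cnt]
  | cons t L ih =>
    rw [List.map_cons, List.prod_cons, map_mul, toAdd_mul, Pi.add_apply, ih]
    obtain ⟨c, _ | _, x⟩ := t <;> by_cases h : c = a <;>
      simp [term, cnt, hw, h, Pi.single_apply, Ne.symm] <;> ring

theorem exists_pad (w : α → Monoid.Coprod G (FreeGroup α)) (m : α → ℕ) :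
    ∃ P : List (α × Bool × Monoid.Coprod G (FreeGroup α)), (P.map (term w)).prod = 1 ∧
      ∀ a ε, cnt P a ε = m a := by
  have h1 : ∀ M : List α, ∃ P : List (α × Bool × Monoid.Coprod G (FreeGroup α)),
      (P.map (term w)).prod = 1 ∧ ∀ a ε, cnt P a ε = M.count a := by
    intro M
    induction M with
    | nil => exact ⟨[], rfl, by simp [cnt]⟩
    | cons c M ih =>
      obtain ⟨P, h1, h2⟩ := ih
      refine ⟨(c, true, 1) :: (c, false, 1) :: P, by simp [term, h1], fun a ε => ?_⟩
      have := h2 a ε
      simp only [cnt] at this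
      cases ε <;> by_cases h : c = a <;> simp [cnt, this, h, add_comm]
  obtain ⟨P, h2, h3⟩ := h1 (∑ a, Multiset.replicate (m a) a).toList
  refine ⟨P, h2, fun a ε => ?_⟩
  rw [h3, ← Multiset.coe_count, Multiset.coe_toList, Multiset.count_sum']
  simp [Multiset.count_replicate]

theorem diag_case (w : α → Monoid.Coprod G (FreeGroup α)) {d : ℕ} (hd : 0 < d)
    (hw : ∀ a, (expSum G α (w a)).toAdd = Pi.single a (d : ℤ)) (g : G)
    (hg : Monoid.Coprod.inl g ∈ Subgroup.normalClosure (Set.range w)) : g = 1 := by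
  obtain ⟨L₀, hL₀⟩ := exists_terms w hg
  rcases isEmpty_or_nonempty α with hα | ⟨⟨a₀⟩⟩
  · rcases L₀ with _ | ⟨t, L₀⟩
    · exact Monoid.Coprod.inl_injective (hL₀.symm.trans (map_one _).symm)
    · exact isEmptyElim t.1
  have hbal : ∀ a, cnt L₀ a true = cnt L₀ a false := by
    intro a
    have h1 := expSum_terms w d hw L₀ a
    rw [hL₀] at h1
    have h2 : (d : ℤ) * ((cnt L₀ a true : ℤ) - cnt L₀ a false) = 0 := by
      rw [← h1]
      simp [expSum]
    have h3 := (mul_eq_zero.1 h2).resolve_left (by exact_mod_cast hd.ne')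
    omega
  obtain ⟨P, hP1, hP2⟩ := exists_pad w fun a => L₀.length - cnt L₀ a true
  obtain ⟨L, hL, hcnt⟩ : ∃ L : List (α × Bool × Monoid.Coprod G (FreeGroup α)),
      (L.map (term w)).prod = Monoid.Coprod.inl g ∧ ∀ a ε, cnt L a ε = L₀.length := by
    refine ⟨L₀ ++ P, by simp [hL₀, hP1], fun a ε => ?_⟩
    have h1 : cnt (L₀ ++ P) a ε = cnt L₀ a ε + cnt P a ε := by simp [cnt]
    have h2 := cnt_le L₀ a true
    have h3 := hbal a
    rw [h1, hP2]
    cases ε <;> omega
  generalize L₀.length = n at hcnt
  have hfib : ∀ y : α × Bool, Fintype.card {i : Fin L.length // ((L.get i).1, (L.get i).2.1) = y} =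
      Fintype.card {f : α × Bool × Fin n // (f.1, f.2.1) = y} := by
    rintro ⟨a, ε⟩
    rw [Fintype.card_subtype, Fintype.card_subtype, Finset.card_filter, Finset.card_filter]
    have h1 := hcnt a ε
    rw [cnt, ← List.ofFn_get L, List.map_ofFn, List.sum_ofFn] at h1
    simp only [Prod.mk.injEq, Fintype.sum_prod_type]
    refine h1.trans ?_
    rw [Finset.sum_eq_single a (fun b _ hb => by simp [hb]) (by simp),
      Finset.sum_eq_single ε (fun b _ hb => by simp [hb]) (by simp)]
    simp
  let e : Fin L.length ≃ α × Bool × Fin n :=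
    Equiv.ofFiberEquiv fun y => Fintype.equivOfCardEq (hfib y)
  have he : ∀ i, ((e i).1, (e i).2.1) = ((L.get i).1, (L.get i).2.1) := fun i =>
    Equiv.ofFiberEquiv_map (fun y => Fintype.equivOfCardEq (hfib y)) i
  choose ul hul using fun f : α × Bool × Fin n => evS_surj a₀ (L.get (e.symm f)).2.2
  choose rl hrl using fun a => evS_surj a₀ (w a)
  have hr : ∀ a, evS (List.ofFn ((a₀, true, (1 : G)) :: (a₀, false, 1) :: rl a).get) = w a := by
    intro a
    rw [List.ofFn_get, ← hrl a]
    exact (evS_append [(a₀, true, 1), (a₀, false, 1)] _).trans (by simp [evS_pair])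
  refine core (fun a => (rl a).length + 1) (fun a => ((a₀, true, 1) :: (a₀, false, 1) :: rl a).get)
    hd ?_ n (List.ofFn e) (List.nodup_ofFn.2 e.injective)
    (fun f => List.mem_ofFn.2 ⟨e.symm f, by simp⟩) (fun f => (ul f).length) (fun f => (ul f).get)
    g ?_
  · intro c a'
    have h1 := expSum_evS (List.ofFn ((a₀, true, (1 : G)) :: (a₀, false, 1) :: rl a').get) c
    rw [hr, hw, List.map_ofFn, List.sum_ofFn] at h1
    simp only [Function.comp, Finset.sum_sub_distrib] at h1
    zify
    simp only [Finset.card_filter, Nat.cast_sum, Nat.cast_ite, Nat.cast_one, Nat.cast_zero,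
      Fintype.sum_sigma]
    rw [Finset.sum_eq_single a' (fun b _ hb => by simp [hb]) (by simp),
      Finset.sum_eq_single a' (fun b _ hb => by simp [hb]) (by simp)]
    simp only [true_and]
    rw [Pi.single_apply] at h1
    simp only [eq_comm (a := a')]
    exact (sub_eq_iff_eq_add'.1 h1.symm)
  · have h0 : L.map (term w) = List.ofFn (term w ∘ L.get) := by
      rw [← List.map_ofFn, List.ofFn_get]
    rw [← hL, h0, List.map_ofFn]
    congr 2
    funext i
    have h1 := he i
    rw [Prod.mk.injEq] at h1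
    simp only [Function.comp, hr]
    simp only [List.ofFn_get, hul, Equiv.symm_apply_apply, term]
    rw [h1.1, h1.2]

theorem howie (m n : ℕ) (w : Fin m → Monoid.Coprod G (FreeGroup (Fin n)))
    (hA : (Matrix.of fun i j => ((expSum G (Fin n) (w i)).toAdd j : ℚ)).rank = m) (g : G)
    (hg : Monoid.Coprod.inl g ∈ Subgroup.normalClosure (Set.range w)) : g = 1 := by
  obtain ⟨A, hA'⟩ : ∃ A : Matrix (Fin m) (Fin n) ℤ,
    A = Matrix.of fun i j => (expSum G (Fin n) (w i)).toAdd j := ⟨_, rfl⟩
  have h1 : (A.map (Int.cast : ℤ → ℚ)).rank = m := by rw [hA']; exact hA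
  have hdet : (A * Aᵀ).det ≠ 0 := by
    rw [← rank_self_mul_transpose, rank_eq_finrank_span_row] at h1
    have h2 := linearIndependent_rows_iff_isUnit.1
      (linearIndependent_iff_card_eq_finrank_span.2 (by rw [Fintype.card_fin]; exact h1.symm))
    have h3 : A.map (Int.cast : ℤ → ℚ) * (A.map (Int.cast : ℤ → ℚ))ᵀ =
        (Int.castRingHom ℚ).mapMatrix (A * Aᵀ) := by
      ext i j
      simp [mul_apply]
    rw [isUnit_iff_isUnit_det, h3, ← RingHom.map_det] at h2
    intro h
    simp [h] at h2
  obtain ⟨B, hB⟩ : ∃ B : Matrix (Fin n) (Fin m) ℤ,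
      A * B = (((A * Aᵀ).det.natAbs ^ 2 : ℕ) : ℤ) • (1 : Matrix (Fin m) (Fin m) ℤ) := by
    refine ⟨(A * Aᵀ).det • (Aᵀ * (A * Aᵀ).adjugate), ?_⟩
    rw [Matrix.mul_smul, ← Matrix.mul_assoc, mul_adjugate, smul_smul]
    simp [sq]
  let φ : FreeGroup (Fin n) →* FreeGroup (Fin m) :=
    FreeGroup.lift fun c => (List.ofFn fun a => FreeGroup.of a ^ B c a).prod
  have hφ : ∀ x, (expSum G (Fin m) (Monoid.Coprod.map (MonoidHom.id G) φ x)).toAdd =
      (expSum G (Fin n) x).toAdd ᵥ* B := by
    intro x
    induction x using Monoid.Coprod.induction_on with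
    | inl γ => simp [expSum]
    | inr f =>
      induction f using FreeGroup.induction_on with
      | C1 => simp
      | of c =>
        simp only [expSum, φ, Monoid.Coprod.map_apply_inr, Monoid.Coprod.lift_apply_inr,
          FreeGroup.lift_apply_of, map_list_prod, List.map_ofFn, List.prod_ofFn, Function.comp,
          map_zpow, toAdd_prod, toAdd_zpow, toAdd_ofAdd, single_one_vecMul]
        ext a
        simp [Pi.single_apply]
      | inv_of c ih => simp only [map_inv, toAdd_inv, ih, neg_vecMul]
      | mul x y hx hy => simp only [map_mul, toAdd_mul, hx, hy, add_vecMul]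
    | mul x y hx hy => simp only [map_mul, toAdd_mul, hx, hy, add_vecMul]
  refine diag_case (fun a => Monoid.Coprod.map (MonoidHom.id G) φ (w a))
    (d := (A * Aᵀ).det.natAbs ^ 2) (by positivity) (fun a => ?_) g ?_
  · rw [hφ]
    ext c
    have := congrFun (congrFun hB a) c
    rw [Matrix.smul_apply, one_apply, smul_eq_mul, mul_ite, mul_one, mul_zero] at this
    rw [Pi.single_apply, if_congr eq_comm rfl rfl, ← this, hA']
    rfl
  · have h2 : Subgroup.normalClosure (Set.range w) ≤ (Subgroup.normalClosure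
        (Set.range fun a => Monoid.Coprod.map (MonoidHom.id G) φ (w a))).comap
        (Monoid.Coprod.map (MonoidHom.id G) φ) := by
      refine Subgroup.normalClosure_le_normal ?_
      rintro _ ⟨a, rfl⟩
      exact Subgroup.subset_normalClosure ⟨a, rfl⟩
    exact h2 hg

end Vale.Agent.P174b
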