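import Mathlib

/-! Matrix tools: coordinate embeddings, calculus, charts of the Grassmannian. -/

set_option linter.unusedSectionVars false

open Matrix
open scoped Matrix.Norms.Elementwise

namespace Vale.Agent.P174b

section Emb

variable {ι ν κ : Type*} [Fintype ι] [DecidableEq ι] [Fintype ν] [DecidableEq ν]

def emb (j : ν → ι) : Matrix ι ν ℂ := Matrix.of fun i k => if i = j k then 1 else 0

theorem emb_apply (j : ν → ι) (i : ι) (k : ν) : emb j i k = if i = j k then 1 else 0 := rfl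

theorem embH_mul_apply (j : ν → ι) (M : Matrix ι κ ℂ) (l : ν) (k : κ) :
    ((emb j)ᴴ * M) l k = M (j l) k := by
  simp [emb, mul_apply, apply_ite]

theorem mul_emb_apply (j : ν → ι) (M : Matrix κ ι ℂ) (l : κ) (k : ν) :
    (M * emb j) l k = M l (j k) := by
  simp [emb, mul_apply]

theorem embH_mul_emb {j : ν → ι} (hj : Function.Injective j) : (emb j)ᴴ * emb j = 1 := by
  ext l k
  rw [embH_mul_apply, emb_apply, one_apply]
  simp [hj.eq_iff]

end Emb

section Calc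

variable {D : Type*} [NormedAddCommGroup D] [NormedSpace ℝ D] {a b c : Type*} [Fintype a]
  [Fintype b] [Fintype c] {N : WithTop ℕ∞}

theorem contDiff_matrix {f : D → Matrix a b ℂ} :
    ContDiff ℝ N f ↔ ∀ i j, ContDiff ℝ N fun x => f x i j := by
  have : ContDiff ℝ N f ↔ ∀ i, ContDiff ℝ N fun x => f x i := contDiff_pi (Φ := f)
  rw [this]
  exact forall_congr' fun i => contDiff_pi

theorem contDiff_entry {f : D → Matrix a b ℂ} (hf : ContDiff ℝ N f) (i : a) (j : b) :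
    ContDiff ℝ N fun x => f x i j := contDiff_matrix.1 hf i j

@[fun_prop]
theorem contDiff_mmul {f : D → Matrix a b ℂ} {g : D → Matrix b c ℂ} (hf : ContDiff ℝ N f)
    (hg : ContDiff ℝ N g) : ContDiff ℝ N fun x => f x * g x := by
  refine contDiff_matrix.2 fun i j => ?_
  simp only [mul_apply]
  exact ContDiff.sum fun k _ => (contDiff_entry hf i k).mul (contDiff_entry hg k j)

@[fun_prop]
theorem contDiff_mH {f : D → Matrix a b ℂ} (hf : ContDiff ℝ N f) :
    ContDiff ℝ N fun x => (f x)ᴴ := by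
  refine contDiff_matrix.2 fun i j => ?_
  exact Complex.conjCLE.contDiff.comp (contDiff_entry hf j i)

@[fun_prop]
theorem contDiff_mpow [DecidableEq a] {f : D → Matrix a a ℂ} (hf : ContDiff ℝ N f) (k : ℕ) :
    ContDiff ℝ N fun x => f x ^ k := by
  induction k with
  | zero => simpa using contDiff_const
  | succ k ih => simpa [pow_succ] using contDiff_mmul ih hf

theorem contDiff_csmul {f : D → ℂ} {g : D → Matrix a b ℂ} (hf : ContDiff ℝ N f)
    (hg : ContDiff ℝ N g) : ContDiff ℝ N fun x => f x • g x :=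
  contDiff_matrix.2 fun i j => hf.mul (contDiff_entry hg i j)

theorem hasDerivAt_matrix {f : ℝ → Matrix a b ℂ} {f' : Matrix a b ℂ} {t : ℝ} :
    HasDerivAt f f' t ↔ ∀ i j, HasDerivAt (fun x => f x i j) (f' i j) t := by
  have : HasDerivAt f f' t ↔ ∀ i, HasDerivAt (fun x => f x i) (f' i) t :=
    hasDerivAt_pi (φ := f)
  rw [this]
  exact forall_congr' fun i => hasDerivAt_pi

theorem hasDerivAt_mmul {f : ℝ → Matrix a b ℂ} {g : ℝ → Matrix b c ℂ} {f' : Matrix a b ℂ}
    {g' : Matrix b c ℂ} {t : ℝ} (hf : HasDerivAt f f' t) (hg : HasDerivAt g g' t) :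
    HasDerivAt (fun x => f x * g x) (f' * g t + f t * g') t := by
  refine hasDerivAt_matrix.2 fun i j => ?_
  simp only [mul_apply, Matrix.add_apply, ← Finset.sum_add_distrib]
  exact HasDerivAt.fun_sum fun k _ =>
    (hasDerivAt_matrix.1 hf i k).mul (hasDerivAt_matrix.1 hg k j)

theorem hasDerivAt_mH {f : ℝ → Matrix a b ℂ} {f' : Matrix a b ℂ} {t : ℝ}
    (hf : HasDerivAt f f' t) : HasDerivAt (fun x => (f x)ᴴ) f'ᴴ t :=
  hasDerivAt_matrix.2 fun i j => (hasDerivAt_matrix.1 hf j i).star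

theorem hasDerivAt_mpow_diag [DecidableEq a] {f : ℝ → Matrix a a ℂ} {f' : Matrix a a ℂ} {t : ℝ}
    (hf : HasDerivAt f f' t) (β : a → ℂ) (hβ : f t = diagonal β) (k : ℕ) :
    HasDerivAt (fun x => f x ^ k)
      (Matrix.of fun i j => (∑ l ∈ Finset.range k, β i ^ l * β j ^ (k - 1 - l)) * f' i j) t := by
  induction k with
  | zero =>
    refine hasDerivAt_matrix.2 fun i j => ?_
    simpa using hasDerivAt_const t ((1 : Matrix a a ℂ) i j)
  | succ k ih =>
    have := hasDerivAt_mmul ih hf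
    simp only [← pow_succ] at this
    refine this.congr_deriv ?_
    ext i j
    rw [hβ, diagonal_pow, Matrix.add_apply, mul_diagonal, diagonal_mul, of_apply, of_apply,
      Finset.sum_range_succ, add_mul, mul_right_comm, Finset.sum_mul]
    simp only [Nat.add_sub_cancel, Nat.sub_self, pow_zero, mul_one, Pi.pow_apply]
    congr 2
    refine Finset.sum_congr rfl fun l hl => ?_
    have : k - l = k - 1 - l + 1 := by have := Finset.mem_range.1 hl; omega
    rw [this, pow_succ, mul_assoc]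

end Calc

section Lin

variable {ι ν : Type*} [Fintype ι] [DecidableEq ι] [Fintype ν] [DecidableEq ν]

theorem exists_isometry (V : Matrix ι ν ℂ) (L : Matrix ν ι ℂ) (h : L * V = 1) :
    ∃ B C : Matrix ν ν ℂ, B * C = 1 ∧ C * B = 1 ∧ (V * C)ᴴ * (V * C) = 1 := by
  have hinj : Function.Injective V.mulVec := by
    intro x y hxy
    have := congrArg L.mulVec hxy
    simpa [mulVec_mulVec, h] using this
  open scoped ComplexOrder MatrixOrder in
  have hpd : (Vᴴ * V).PosDef := PosDef.conjTranspose_mul_self V hinj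
  open scoped ComplexOrder MatrixOrder in
  obtain ⟨B, hB, hB'⟩ := CStarAlgebra.isStrictlyPositive_iff_eq_star_mul_self.1
    hpd.isStrictlyPositive
  obtain ⟨u, rfl⟩ := hB
  refine ⟨u, ↑u⁻¹, u.mul_inv, u.inv_mul, ?_⟩
  rw [conjTranspose_mul, Matrix.mul_assoc, ← Matrix.mul_assoc Vᴴ, hB', star_eq_conjTranspose,
    Matrix.mul_assoc, Units.mul_inv, Matrix.mul_one, ← conjTranspose_mul, Units.mul_inv,
    conjTranspose_one]

theorem small_eq_zero (H : Matrix ι ι ℂ) (h : H + H + H * H = 0)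
    (hn : ‖H‖ ≤ 1 / (Fintype.card ι + 1)) : H = 0 := by
  have h0 := norm_nonneg H
  have h1 : ‖H * H‖ ≤ Fintype.card ι * (‖H‖ * ‖H‖) := by
    refine (norm_le_iff (by positivity)).2 fun i j => ?_
    rw [mul_apply]
    refine (norm_sum_le _ _).trans ?_
    have : ∀ k ∈ (Finset.univ : Finset ι), ‖H i k * H k j‖ ≤ ‖H‖ * ‖H‖ := fun k _ => by
      rw [norm_mul]
      gcongr <;> exact norm_entry_le_entrywise_sup_norm H
    simpa using Finset.sum_le_sum this
  have h2 : H * H = (-2 : ℝ) • H := by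
    rw [eq_neg_of_add_eq_zero_right h]
    module
  rw [h2, norm_smul] at h1
  have h3 : (0 : ℝ) ≤ Fintype.card ι := Nat.cast_nonneg _
  rw [le_div_iff₀ (by positivity)] at hn
  norm_num at h1
  have : ‖H‖ = 0 := by nlinarith
  exact norm_eq_zero.1 this

theorem isometry_herm_zero (W : Matrix ι ν ℂ) (F H : Matrix ι ι ℂ) (hF : Fᴴ * F = 1)
    (hH : Hᴴ = H) (hWH : W * (Wᴴ * H) = H) (heq : F * (1 + H) * W = W)
    (hn : ‖H‖ ≤ 1 / (Fintype.card ι + 1)) : H = 0 := by
  refine small_eq_zero H ?_ hn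
  have hHW : H * W * Wᴴ = H := by
    have := congrArg conjTranspose hWH
    simpa [conjTranspose_mul, hH] using this
  have h1 : Wᴴ * ((1 + H) * ((1 + H) * W)) = Wᴴ * W := by
    conv_rhs => rw [← heq]
    simp only [conjTranspose_mul, conjTranspose_add, conjTranspose_one, hH, Matrix.mul_assoc]
    rw [← Matrix.mul_assoc Fᴴ, hF, Matrix.one_mul]
  have h2 : Wᴴ * ((H + H + H * H) * W) = 0 := by
    simp only [Matrix.add_mul, Matrix.mul_add, Matrix.one_mul, Matrix.mul_assoc] at h1 ⊢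
    rw [← sub_eq_zero] at h1
    rw [← h1]
    abel
  calc H + H + H * H = W * (Wᴴ * ((H + H + H * H) * W)) * Wᴴ := by
        simp only [Matrix.add_mul, Matrix.mul_add, ← Matrix.mul_assoc]
        have h3 : W * Wᴴ * H = H := by rw [Matrix.mul_assoc, hWH]
        have h4 : H * H * W * Wᴴ = H * H := by
          rw [Matrix.mul_assoc H H, Matrix.mul_assoc H, hHW]
        rw [h3, hHW, h4]
    _ = 0 := by rw [h2]; simp

theorem exists_rows (W : Matrix ι ν ℂ) (L : Matrix ν ι ℂ) (h : L * W = 1) (s : Set ι)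
    (hs : LinearIndepOn ℂ W s) :
    ∃ I : ν → ι, Function.Injective I ∧ s ⊆ Set.range I ∧ IsUnit ((emb I)ᴴ * W) := by
  obtain ⟨b, -, hsb, hspan, hli⟩ := exists_linearIndepOn_extension hs (Set.subset_univ s)
  have htop : ⊤ ≤ Submodule.span ℂ (Set.range fun i : b => W i) := by
    intro x _
    have h1 : x = ∑ i, (x ᵥ* L) i • W i := by
      rw [← vecMul_eq_sum, vecMul_vecMul, h, vecMul_one]
    rw [h1]
    refine Submodule.sum_mem _ fun i _ => Submodule.smul_mem _ _ ?_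
    have := hspan ⟨i, trivial, rfl⟩
    refine Submodule.span_mono ?_ this
    rintro _ ⟨k, hk, rfl⟩
    exact ⟨⟨k, hk⟩, rfl⟩
  let B := Module.Basis.mk hli htop
  let e : b ≃ ν := B.indexEquiv (Pi.basisFun ℂ ν)
  refine ⟨fun k => e.symm k, fun k l hkl => e.symm.injective (Subtype.ext hkl),
    fun i hi => ⟨e ⟨i, hsb hi⟩, by simp⟩, ?_⟩
  rw [← linearIndependent_rows_iff_isUnit]
  have : ((emb fun k => (e.symm k : ι))ᴴ * W).row = (fun i : b => W i) ∘ e.symm := by
    ext k l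
    exact embH_mul_apply _ _ _ _
  rw [this]
  exact hli.comp _ e.symm.injective

abbrev Chart (ι ν : Type*) := (ν → ι) × (ν → ν → ι) × (ι → ν → Bool)

def ChartOK (ch : Chart ι ν) (V : Matrix ι ν ℂ) : Prop :=
  Function.Injective ch.1 ∧ (∀ k, Function.Injective fun l => ch.2.1 l k) ∧
    (∀ l k, ch.2.2 (ch.2.1 l k) k = true) ∧ (∀ i k, ch.2.2 i k = true → V i k = emb ch.1 i k) ∧
    ((emb ch.1)ᴴ * V) * (2 - (emb ch.1)ᴴ * V) = 1

theorem chart_generic (W : Matrix ι ν ℂ) (L : Matrix ν ι ℂ) (h : L * W = 1) :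
    ∃ (ch : Chart ι ν) (T T' : Matrix ν ν ℂ), T * T' = 1 ∧ ChartOK ch (W * T) := by
  obtain ⟨I, hI, -, u, hu⟩ := exists_rows W L h ∅ (linearIndepOn_empty _ _)
  have h1 : (emb I)ᴴ * (W * (↑u⁻¹ : Matrix ν ν ℂ)) = 1 := by
    rw [← Matrix.mul_assoc, ← hu, Units.mul_inv]
  refine ⟨(I, fun l _ => I l, fun i _ => decide (i ∈ Set.range I)), ↑u⁻¹, u, u.inv_mul, hI,
    fun _ => hI, by simp, ?_, ?_⟩
  · intro i k hi
    obtain ⟨l, rfl⟩ : i ∈ Set.range I := by simpa using hi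
    exact (embH_mul_apply I _ l k).symm.trans (by rw [h1, ← embH_mul_emb hI, embH_mul_apply])
  · rw [h1]
    norm_num

theorem chart_degenerate (W : Matrix ι ν ℂ) (L : Matrix ν ι ℂ) (h : L * W = 1) (j : ν → ι)
    (hj : Function.Injective j) (hdet : ((emb j)ᴴ * W).det = 0) :
    ∃ (ch : Chart ι ν) (T T' : Matrix ν ν ℂ) (i₁ : ι) (k₀ : ν), T * T' = 1 ∧ ChartOK ch (W * T) ∧
      ch.2.2 i₁ k₀ = true ∧ ∀ l, ch.2.1 l k₀ ≠ i₁ := by
  obtain ⟨x, hx0, hx⟩ := exists_mulVec_eq_zero_iff.2 hdet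
  obtain ⟨i₁, hi₁⟩ : ∃ i, (W *ᵥ x) i ≠ 0 := by
    by_contra hc
    push Not at hc
    have : W *ᵥ x = 0 := funext hc
    apply hx0
    have h2 := congrArg L.mulVec this
    simpa [mulVec_mulVec, h] using h2
  have htop : ∀ l, (W *ᵥ x) (j l) = 0 := by
    intro l
    have := congrFun hx l
    simpa [mulVec, dotProduct, embH_mul_apply] using this
  have hrow : W i₁ ≠ 0 := fun hc => hi₁ (by simp [mulVec, hc])
  obtain ⟨I, hI, hs, u, hu⟩ := exists_rows W L h {i₁} (LinearIndepOn.singleton hrow)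
  obtain ⟨k₀, rfl⟩ := hs rfl
  obtain ⟨V', hV'⟩ : ∃ V', V' = W * (↑u⁻¹ : Matrix ν ν ℂ) := ⟨_, rfl⟩
  have h1 : (emb I)ᴴ * V' = 1 := by rw [hV', ← Matrix.mul_assoc, ← hu, Units.mul_inv]
  obtain ⟨v, hv⟩ : ∃ v, v = ((W *ᵥ x) (I k₀))⁻¹ • (W *ᵥ x) := ⟨_, rfl⟩
  have hv1 : v (I k₀) = 1 := by simp [hv, hi₁]
  have hv0 : ∀ l, v (j l) = 0 := fun l => by simp [hv, htop]
  have hvV : V' *ᵥ (fun l => v (I l)) = v := by
    have h3 : (fun l => v (I l)) = (emb I)ᴴ *ᵥ v := by
      ext l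
      simp [mulVec, dotProduct, emb, apply_ite]
    rw [h3, hv, mulVec_smul, mulVec_smul, hV', mulVec_mulVec, mulVec_mulVec, Matrix.mul_assoc,
      Matrix.mul_assoc, ← hu, Units.inv_mul, Matrix.mul_one]
  obtain ⟨S, hS⟩ : ∃ S, S = (1 : Matrix ν ν ℂ).updateCol k₀ (fun l => v (I l)) := ⟨_, rfl⟩
  have hVS : V' * S = V'.updateCol k₀ v := by
    rw [hS, mul_updateCol, hvV, Matrix.mul_one]
  have hSS : S * (2 - S) = 1 := by
    have h4 : (S - 1) * (S - 1) = 0 := by
      ext a b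
      rw [mul_apply]
      refine Finset.sum_eq_zero fun c _ => ?_
      by_cases hc : c = k₀
      · subst hc
        by_cases hb : b = c
        · simp [hS, hb, hv1]
        · simp [hS, updateCol_ne hb]
      · simp [hS, updateCol_ne hc]
    have : S * (2 - S) = 1 - (S - 1) * (S - 1) := by noncomm_ring
    rw [this, h4, sub_zero]
  have hne : ∀ l, j l ≠ I k₀ := fun l hl => by
    have := hv0 l
    rw [hl, hv1] at this
    exact one_ne_zero this
  refine ⟨(I, fun l k => if k = k₀ then j l else I l,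
    fun i k => if k = k₀ then decide (i = I k₀ ∨ i ∈ Set.range j) else decide (i ∈ Set.range I)),
    (↑u⁻¹ : Matrix ν ν ℂ) * S, (2 - S) * (u : Matrix ν ν ℂ), I k₀, k₀, ?_, ⟨hI, ?_, ?_, ?_, ?_⟩, by simp, by simpa using hne⟩
  · rw [Matrix.mul_assoc, ← Matrix.mul_assoc S, hSS, Matrix.one_mul, Units.inv_mul]
  · intro k
    by_cases hk : k = k₀
    · simpa [hk] using hj
    · simpa [hk] using hI
  · intro l k
    by_cases hk : k = k₀ <;> simp [hk]
  · intro i k hi
    rw [← Matrix.mul_assoc, ← hV', hVS]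
    by_cases hk : k = k₀
    · subst hk
      rw [updateCol_self, emb_apply]
      rcases (by simpa using hi : i = I k ∨ ∃ l, j l = i) with rfl | ⟨l, rfl⟩
      · simp [hv1]
      · simp [hv0, hne]
    · obtain ⟨l, rfl⟩ : i ∈ Set.range I := by simpa [hk] using hi
      rw [updateCol_ne hk]
      exact (embH_mul_apply I _ l k).symm.trans (by rw [h1, ← embH_mul_emb hI, embH_mul_apply])
  · rw [← Matrix.mul_assoc W, ← hV', ← Matrix.mul_assoc, h1, Matrix.one_mul, hSS]

noncomputable def chV (ch : Chart ι ν) (Z : Matrix ι ι ℂ) : Matrix ι ν ℂ :=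
  emb ch.1 + Matrix.of fun i k => if ch.2.2 i k = true then 0 else Z i (ch.1 k)

def chX (ch : Chart ι ν) (Z : Matrix ι ι ℂ) : Matrix ν ν ℂ :=
  Matrix.of fun l k => Z (ch.2.1 l k) (ch.1 k)

theorem chart_pack (ch : Chart ι ν) (V : Matrix ι ν ℂ) (hV : ChartOK ch V) (X : Matrix ν ν ℂ)
    (M : Matrix ι ι ℂ) (hM : M * V = 0) (sp : ℂ) :
    ∃ Z : Matrix ι ι ℂ, chV ch Z = V ∧ chX ch Z = X ∧
      Z * (1 - V * (2 - (emb ch.1)ᴴ * V) * (emb ch.1)ᴴ) = M ∧
      ∀ i k, ch.2.2 i k = true → (∀ l, ch.2.1 l k ≠ i) → Z i (ch.1 k) = sp := by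
  classical
  obtain ⟨hI, hsl, hμ, hVμ, hT⟩ := hV
  obtain ⟨Y, hY⟩ : ∃ Y : Matrix ι ν ℂ, Y = Matrix.of fun i k =>
    if h : ∃ l, ch.2.1 l k = i then X h.choose k else
      if ch.2.2 i k = true then sp else V i k - emb ch.1 i k := ⟨_, rfl⟩
  have hE := embH_mul_emb hI
  have hZ : ∀ i k, (M * (1 - emb ch.1 * (emb ch.1)ᴴ) + Y * (emb ch.1)ᴴ : Matrix ι ι ℂ) i (ch.1 k)
      = Y i k := by
    intro i k
    refine (mul_emb_apply ch.1 _ i k).symm.trans ?_
    rw [Matrix.add_mul, Matrix.mul_assoc, Matrix.mul_assoc, Matrix.sub_mul,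
      Matrix.mul_assoc, hE]
    simp
  refine ⟨M * (1 - emb ch.1 * (emb ch.1)ᴴ) + Y * (emb ch.1)ᴴ, ?_, ?_, ?_, ?_⟩
  · ext i k
    rw [chV, Matrix.add_apply, of_apply, hZ]
    by_cases hi : ch.2.2 i k = true
    · rw [if_pos hi, hVμ i k hi, add_zero]
    · have : ¬ ∃ l, ch.2.1 l k = i := by
        rintro ⟨l, rfl⟩
        exact hi (hμ l k)
      rw [if_neg hi, hY, of_apply, dif_neg this, if_neg hi]
      ring
  · ext l k
    have h1 : ∃ l', ch.2.1 l' k = ch.2.1 l k := ⟨l, rfl⟩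
    rw [chX, of_apply, hZ, hY, of_apply, dif_pos h1, hsl k h1.choose_spec]
  · have h2 : (emb ch.1)ᴴ * (1 - V * (2 - (emb ch.1)ᴴ * V) * (emb ch.1)ᴴ) = 0 := by
      rw [Matrix.mul_sub, ← Matrix.mul_assoc, ← Matrix.mul_assoc, hT]
      simp
    rw [Matrix.add_mul, Matrix.mul_assoc Y, h2, Matrix.mul_assoc, Matrix.sub_mul,
      Matrix.mul_assoc _ (emb ch.1)ᴴ, h2, Matrix.one_mul, Matrix.mul_zero, sub_zero,
      Matrix.mul_sub, ← Matrix.mul_assoc, ← Matrix.mul_assoc, hM]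
    simp
  · intro i k hi hl
    have : ¬ ∃ l, ch.2.1 l k = i := fun ⟨l, h⟩ => hl l h
    rw [hZ, hY, of_apply, dif_neg this, if_pos hi]

end Lin

end Vale.Agent.P174b
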