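import Mathlib

/-! The phase inequality in a tracial star algebra. -/

set_option linter.unusedSectionVars false

open Complex Finset

namespace Vale.Agent.P174b

variable {A : Type*} [Ring A] [StarRing A] [Algebra ℂ A] [StarModule ℂ A]

structure IsTr (τ : A →ₗ[ℂ] ℂ) : Prop where
  comm : ∀ x y, τ (x * y) = τ (y * x)
  pos : ∀ x, 0 ≤ (τ (star x * x)).re
  star_eq : ∀ x, τ (star x) = star (τ x)

noncomputable def refl (θ : ℝ) (p : A) : A := 1 + (cexp (θ * I) - 1) • p

theorem refl_mul_refl {p : A} (hp : p * p = p) (a b : ℝ) :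
    refl a p * refl b p = refl (a + b) p := by
  simp only [refl, add_mul, mul_add, one_mul, mul_one, smul_mul_assoc, mul_smul_comm, hp,
    smul_smul, ofReal_add, Complex.exp_add]
  module

theorem refl_zero (p : A) : refl 0 p = 1 := by simp [refl]

theorem refl_two_pi (p : A) : refl (2 * Real.pi) p = 1 := by simp [refl]

theorem star_refl {p : A} (hp : star p = p) (a : ℝ) : star (refl a p) = refl (-a) p := by
  simp only [refl, star_add, star_one, star_smul, hp, star_sub, Complex.star_def,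
    ← Complex.exp_conj]
  simp

theorem refl_mem {p : A} (hp : star p = p) (hp2 : p * p = p) (a : ℝ) : refl a p ∈ unitary A := by
  rw [Unitary.mem_iff, star_refl hp, refl_mul_refl hp2, refl_mul_refl hp2]
  simp [refl_zero]

inductive PL (τ : A →ₗ[ℂ] ℂ) : A → ℝ → Prop
  | one : PL τ 1 0
  | step (x : A) (Θ θ : ℝ) (p : A) : PL τ x Θ → star p = p → p * p = p → 0 ≤ θ →
      PL τ (x * refl θ p) (Θ + θ * (τ p).re)
  | mono (x : A) (a b : ℝ) : PL τ x a → a ≤ b → PL τ x b

variable {τ : A →ₗ[ℂ] ℂ}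

theorem PL.mem {x : A} {Θ : ℝ} (h : PL τ x Θ) : x ∈ unitary A := by
  induction h with
  | one => exact one_mem _
  | step x Θ θ p _ h1 h2 _ ih => exact mul_mem ih (refl_mem h1 h2 θ)
  | mono x a b _ _ ih => exact ih

theorem PL.cast {x y : A} {a b : ℝ} (h : PL τ x a) (h1 : x = y) (h2 : a = b) : PL τ y b :=
  h1 ▸ h2 ▸ h

theorem PL.refl {p : A} (h1 : star p = p) (h2 : p * p = p) {θ : ℝ} (h : 0 ≤ θ) :
    PL τ (refl θ p) (θ * (τ p).re) :=
  (PL.step 1 0 θ p PL.one h1 h2 h).cast (one_mul _) (zero_add _)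

theorem PL.mul {x y : A} {a b : ℝ} (hx : PL τ x a) (hy : PL τ y b) : PL τ (x * y) (a + b) := by
  induction hy with
  | one => exact hx.cast (mul_one _).symm (add_zero _).symm
  | step y Θ θ p _ h1 h2 h3 ih =>
    exact (PL.step _ _ θ p ih h1 h2 h3).cast (mul_assoc _ _ _) (add_assoc _ _ _)
  | mono y c d _ h ih => exact PL.mono _ _ _ ih (by linarith)

theorem PL.conj (hτ : IsTr τ) {x u : A} {a : ℝ} (hu : u ∈ unitary A) (hx : PL τ x a) :
    PL τ (u * x * star u) a := by
  have h1 := hu.1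
  have h2 := hu.2
  induction hx with
  | one => exact PL.one.cast (by simp [h2]) rfl
  | step y Θ θ p _ h3 h4 h5 ih =>
    have hpp : u * p * star u * (u * p * star u) = u * p * star u := by
      calc _ = u * p * (star u * u) * p * star u := by simp only [mul_assoc]
        _ = _ := by rw [h1, mul_one, mul_assoc u, h4]
    refine (PL.step _ _ θ (u * p * star u) ih (by simp [h3, mul_assoc]) hpp h5).cast ?_ ?_
    · simp only [Vale.Agent.P174b.refl, mul_add, add_mul, mul_one, mul_smul_comm, smul_mul_assoc]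
      congr 2
      calc _ = u * y * (star u * u) * p * star u := by simp only [mul_assoc]
        _ = _ := by rw [h1, mul_one]; simp only [mul_assoc]
    · rw [hτ.comm, ← mul_assoc, h1, one_mul]
  | mono y c d _ h ih => exact PL.mono _ _ _ ih h

theorem PL.invol {J : A} (h1 : star J = J) (h2 : J * J = 1) :
    PL τ J (Real.pi * ((τ 1).re - (τ J).re) / 2) := by
  have h3 : ((1 / 2 : ℂ) • (1 - J)) * ((1 / 2 : ℂ) • (1 - J)) = (1 / 2 : ℂ) • (1 - J) := by
    simp only [smul_mul_assoc, mul_smul_comm, mul_sub, sub_mul, h2, one_mul, mul_one]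
    module
  refine (PL.refl (p := (1 / 2 : ℂ) • (1 - J)) (by simp [h1]) h3 Real.pi_pos.le).cast ?_ ?_
  · simp only [Vale.Agent.P174b.refl, exp_pi_mul_I]
    module
  · simp
    ring

theorem PL.map {B : Type*} [Ring B] [StarRing B] [Algebra ℂ B] [StarModule ℂ B]
    {σ : B →ₗ[ℂ] ℂ} (φ : A →⋆ₐ[ℂ] B) (hφ : ∀ x, σ (φ x) = τ x) {x : A} {a : ℝ}
    (h : PL τ x a) : PL σ (φ x) a := by
  induction h with
  | one => exact PL.one.cast (map_one φ).symm rfl
  | step y Θ θ p _ h1 h2 h3 ih =>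
    refine (PL.step _ _ θ (φ p) ih (by rw [← map_star, h1]) (by rw [← map_mul, h2]) h3).cast ?_ ?_
    · simp [Vale.Agent.P174b.refl]
    · rw [hφ]
  | mono y c d _ h ih => exact PL.mono _ _ _ ih h

theorem hasDerivAt_tr_pow (τ : A →ₗ[ℂ] ℂ) (x y : A) (c : ℂ) (k : ℕ) : ∀ a : A,
    HasDerivAt (fun c : ℂ => τ (a * (x + c • y) ^ k))
      (∑ i ∈ range k, τ (a * (x + c • y) ^ i * y * (x + c • y) ^ (k - 1 - i))) c := by
  induction k with
  | zero => intro a; simpa using hasDerivAt_const _ _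
  | succ k ih =>
    intro a
    have h1 := (ih (a * x)).add ((hasDerivAt_id c).mul (ih (a * y)))
    have h2 : (fun c : ℂ => τ (a * (x + c • y) ^ (k + 1))) =
        (fun c : ℂ => τ (a * x * (x + c • y) ^ k)) +
          id * (fun c : ℂ => τ (a * y * (x + c • y) ^ k)) := by
      ext c
      simp [pow_succ', add_mul, mul_add, mul_assoc]
    rw [h2]
    refine h1.congr_deriv ?_
    rw [sum_range_succ', mul_sum, add_comm (1 * _), ← add_assoc, ← sum_add_distrib]
    simp only [id, one_mul, pow_zero, mul_one, Nat.add_sub_cancel, Nat.sub_zero]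
    congr 1
    refine sum_congr rfl fun i _ => ?_
    have : k - (i + 1) = k - 1 - i := by omega
    rw [this, pow_succ']
    simp [add_mul, mul_add, mul_assoc]

noncomputable def Psi (τ : A →ₗ[ℂ] ℂ) (K : ℕ) (z : ℂ) (x : A) : ℝ :=
  -(∑ j ∈ range K, z ^ (j + 1) * τ (x ^ (j + 1)) / (j + 1)).im

theorem IsTr.proj_nonneg (hτ : IsTr τ) {p : A} (h1 : star p = p) (h2 : p * p = p) :
    0 ≤ (τ p).re := by
  have := hτ.pos p
  rwa [h1, h2] at this

theorem poisson_bound (hτ : IsTr τ) {u p : A} (hu : u ∈ unitary A) (h1 : star p = p)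
    (h2 : p * p = p) {z : ℂ} (hz : ‖z‖ ≤ 1) (K : ℕ) :
    -(∑ j ∈ range K, z ^ (j + 1) * τ (u ^ (j + 1) * p)).re
      ≤ (τ p).re * (1 / 2 + K * ‖z‖ ^ (K + 1)) := by
  let B : A → A → ℝ := fun a b => (τ (star (a * p) * (b * p))).re
  have hT := hτ.proj_nonneg h1 h2
  have Bsymm : ∀ a b, B a b = B b a := by
    intro a b
    have := hτ.star_eq (star (b * p) * (a * p))
    rw [star_mul, star_star] at this
    simp only [B, this]
    simp
  have Badd : ∀ a b c, B a (b + c) = B a b + B a c := by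
    intro a b c
    simp [B, add_mul, mul_add]
  have Badd' : ∀ a b c, B (b + c) a = B b a + B c a := by
    intro a b c
    rw [Bsymm, Badd, Bsymm a, Bsymm a]
  have Bsmul : ∀ (r : ℝ) a b, B a ((r : ℂ) • b) = r * B a b := by
    intro r a b
    simp [B]
  have Bsmul' : ∀ (r : ℝ) a b, B ((r : ℂ) • a) b = r * B a b := by
    intro r a b
    rw [Bsymm, Bsmul, Bsymm]
  have Bnn : ∀ a, 0 ≤ B a a := fun a => hτ.pos _
  have B1 : ∀ a, B 1 a = (τ (a * p)).re := by
    intro a
    simp only [B, one_mul, h1]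
    rw [hτ.comm, mul_assoc, h2]
  set w := z • u with hw
  have Bw : ∀ a, B (w * a) (w * a) = ‖z‖ ^ 2 * B a a := by
    intro a
    have h3 : star (w * a * p) * (w * a * p) = ((‖z‖ ^ 2 : ℝ) : ℂ) • (star (a * p) * (a * p)) := by
      calc _ = star (a * p) * (star w * w) * (a * p) := by simp [mul_assoc]
        _ = _ := by
          simp only [hw, star_smul, smul_mul_assoc, mul_smul_comm, hu.1, smul_smul, mul_one]
          congr 1
          rw [Complex.star_def, Complex.mul_conj, Complex.normSq_eq_norm_sq]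
    simp only [B, h3, map_smul, smul_eq_mul, re_ofReal_mul]
  have Bpow : ∀ j, B (w ^ j) (w ^ j) = (‖z‖ ^ j) ^ 2 * (τ p).re := by
    intro j
    induction j with
    | zero => simp [B1]
    | succ j ih => rw [pow_succ', Bw, ih]; ring
  set q := w ^ (K + 1) with hq
  set ρ := ‖z‖ ^ (K + 1) with hρ
  have hρ0 : 0 ≤ ρ := by positivity
  have herr : ∀ j, -(ρ * (τ p).re) ≤ B (w ^ j) q := by
    intro j
    rcases hρ0.eq_or_lt with h | h
    · have hz0 : z = 0 := by
        have := pow_eq_zero_iff (Nat.succ_ne_zero K) |>.1 h.symm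
        simpa using this
      simp [← h, B, hq, hw, hz0]
    · have h4 := Bnn ((ρ : ℂ) • w ^ j + q)
      rw [Badd, Badd', Badd', Bsmul, Bsmul, Bsmul', Bsmul', Bsymm q (w ^ j), Bpow, hq, Bpow,
        ← hρ, ← hq] at h4
      have h5 : (‖z‖ ^ j) ^ 2 ≤ 1 := pow_le_one₀ (by positivity) (pow_le_one₀ (by positivity) hz)
      have h6 : ρ * (ρ * ((‖z‖ ^ j) ^ 2 * (τ p).re)) ≤ ρ * (ρ * (τ p).re) := by
        gcongr
        exact mul_le_of_le_one_left hT h5
      nlinarith
  set s := ∑ j ∈ range K, w ^ (j + 1) with hs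
  have hws : w * (1 + s) = s + q := by
    rw [hs, hq, ← sum_range_succ (fun j => w ^ (j + 1)), sum_range_succ', mul_add, mul_sum,
      add_comm]
    simp [pow_succ']
  have hsq : -(K * (ρ * (τ p).re)) ≤ B s q := by
    have : B s q = ∑ j ∈ range K, B (w ^ (j + 1)) q := by
      simp [B, hs, Finset.sum_mul, star_sum, Finset.mul_sum]
    rw [this]
    have h7 := Finset.sum_le_sum (s := range K) fun j _ => herr (j + 1)
    simpa using h7
  have h8 := Bw (1 + s)
  rw [hws] at h8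
  have h9 : ‖z‖ ^ 2 * B (1 + s) (1 + s) ≤ B (1 + s) (1 + s) :=
    mul_le_of_le_one_left (Bnn _) (pow_le_one₀ (by positivity) hz)
  rw [← h8, Badd, Badd, Badd', Badd', Badd', Badd', Bsymm q s, Bsymm s 1, B1, B1, one_mul] at h9
  have h10 : (τ (s * p)).re = (∑ j ∈ range K, z ^ (j + 1) * τ (u ^ (j + 1) * p)).re := by
    simp [hs, hw, Finset.sum_mul, smul_pow]
  have := Bnn q
  rw [← h10]
  nlinarith

theorem psi_step (hτ : IsTr τ) {x p : A} (hx : x ∈ unitary A) (h1 : star p = p)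
    (h2 : p * p = p) {z : ℂ} (hz : ‖z‖ ≤ 1) (K : ℕ) {θ : ℝ} (hθ : 0 ≤ θ) :
    Psi τ K z (x * refl θ p) ≤ Psi τ K z x + θ * (τ p).re * (1 / 2 + K * ‖z‖ ^ (K + 1)) := by
  have hu : ∀ t : ℝ, x * refl t p = x + (cexp (t * I) - 1) • (x * p) := fun t => by
    simp [refl, mul_add]
  have hd : ∀ (t : ℝ) (j : ℕ), HasDerivAt (fun t : ℝ => τ ((x * refl t p) ^ (j + 1)))
      ((j + 1) * I * τ ((x * refl t p) ^ (j + 1) * p)) t := by
    intro t j
    have h3 := hasDerivAt_tr_pow τ x (x * p) (cexp (t * I) - 1) (j + 1) 1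
    have h4 : HasDerivAt (fun t : ℝ => cexp (t * I) - 1) (cexp (t * I) * I) t := by
      have := ((hasDerivAt_id (t : ℂ)).mul_const I).cexp.sub_const 1
      simpa using this.comp_ofReal
    have h5 := h3.scomp t h4
    simp only [one_mul, ← hu] at h5
    have h6 : (fun t : ℝ => τ ((x * refl t p) ^ (j + 1))) =
        (fun c => τ ((x + c • (x * p)) ^ (j + 1))) ∘ fun t : ℝ => cexp (t * I) - 1 := by
      ext t
      simp [hu]
    rw [h6]
    refine h5.congr_deriv ?_
    have h7 : ∀ i ∈ range (j + 1), τ ((x * refl t p) ^ i * (x * p) * (x * refl t p) ^ (j + 1 - 1 - i))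
        = τ ((x * refl t p) ^ j * (x * p)) := by
      intro i hi
      rw [hτ.comm, ← mul_assoc, ← pow_add]
      congr 3
      have := mem_range.1 hi
      omega
    have h8 : (x * refl t p) * p = cexp (t * I) • (x * p) := by
      rw [hu, add_mul, smul_mul_assoc, mul_assoc, h2]
      module
    rw [sum_congr rfl h7, pow_succ, mul_assoc _ _ p, h8]
    simp
    ring
  set C := (τ p).re * (1 / 2 + K * ‖z‖ ^ (K + 1)) with hC
  have hD : ∀ t : ℝ, HasDerivAt (fun t : ℝ => Psi τ K z (x * refl t p) - t * C)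
      (-(∑ j ∈ range K, z ^ (j + 1) * τ ((x * refl t p) ^ (j + 1) * p)).re - C) t := by
    intro t
    have h3 : HasDerivAt (fun t : ℝ =>
        ∑ j ∈ range K, z ^ (j + 1) * τ ((x * refl t p) ^ (j + 1)) / (j + 1))
        (I * ∑ j ∈ range K, z ^ (j + 1) * τ ((x * refl t p) ^ (j + 1) * p)) t := by
      refine (HasDerivAt.fun_sum fun j _ => ((hd t j).const_mul _).div_const _).congr_deriv ?_
      rw [mul_sum]
      refine sum_congr rfl fun j _ => ?_
      have : ((j : ℂ) + 1) ≠ 0 := by exact_mod_cast Nat.succ_ne_zero j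
      field_simp
    have h4 := (Complex.imCLM.hasFDerivAt.comp_hasDerivAt t h3).neg.sub
      ((hasDerivAt_id t).mul_const C)
    exact h4.congr_deriv (by simp)
  have hanti : Antitone fun t : ℝ => Psi τ K z (x * refl t p) - t * C := by
    refine antitone_of_hasDerivAt_nonpos hD fun t => ?_
    have := poisson_bound hτ (mul_mem hx (refl_mem h1 h2 t)) h1 h2 hz K
    simp only [Pi.zero_apply]
    linarith
  have := hanti hθ
  simp only [refl_zero, mul_one, zero_mul, sub_zero] at this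
  rw [mul_assoc, ← hC]
  linarith

theorem PL.psi_le (hτ : IsTr τ) {x : A} {Θ : ℝ} (h : PL τ x Θ) {z : ℂ} (hz : ‖z‖ ≤ 1) (K : ℕ) :
    Psi τ K z x ≤ Psi τ K z 1 + Θ * (1 / 2 + K * ‖z‖ ^ (K + 1)) := by
  induction h with
  | one => simp
  | step y Θ θ p hy h1 h2 h3 ih =>
    have := psi_step hτ hy.mem h1 h2 hz K h3
    rw [add_mul]
    linarith
  | mono y c d _ h ih =>
    have : c * (1 / 2 + K * ‖z‖ ^ (K + 1)) ≤ d * (1 / 2 + K * ‖z‖ ^ (K + 1)) := by gcongr
    linarith

theorem hasSum_log {ζ : ℂ} (h : ‖ζ‖ < 1) :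
    HasSum (fun j : ℕ => ζ ^ (j + 1) / (j + 1)) (-log (1 - ζ)) := by
  have := (hasSum_nat_add_iff' 1).2 (Complex.hasSum_taylorSeries_neg_log h)
  simpa using this

theorem hasSum_sparse {ζ : ℂ} (h : ‖ζ‖ < 1) {o : ℕ} (ho : o ≠ 1) :
    ∃ L : ℂ, HasSum (fun j : ℕ => (if o ∣ j + 1 then ζ ^ (j + 1) else 0) / (j + 1)) L ∧
      L.im ≤ Real.pi / 4 := by
  rcases Nat.eq_zero_or_pos o with rfl | ho0
  · exact ⟨0, by simpa using hasSum_zero, by simp; positivity⟩
  have ho2 : (2 : ℝ) ≤ o := by exact_mod_cast (show 2 ≤ o by omega)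
  have hn : ‖ζ ^ o‖ < 1 := by rw [norm_pow]; exact pow_lt_one₀ (norm_nonneg _) h ho0.ne'
  refine ⟨-log (1 - ζ ^ o) / o, ?_, ?_⟩
  · have h1 := (Complex.hasSum_taylorSeries_neg_log hn).div_const (o : ℂ)
    have hinj : Function.Injective fun k : ℕ => o * k := mul_right_injective₀ ho0.ne'
    have h2 : HasSum (fun j : ℕ => (if o ∣ j then ζ ^ j else 0) / (j : ℂ))
        (-log (1 - ζ ^ o) / o) := by
      rw [← hinj.hasSum_iff]
      · refine h1.congr_fun ?_
        intro k
        simp [pow_mul, div_div, mul_comm]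
      · intro j hj
        rw [if_neg, zero_div]
        rintro ⟨k, rfl⟩
        exact hj ⟨k, rfl⟩
    have := (hasSum_nat_add_iff' 1).2 h2
    simpa using this
  · have h3 : 0 < (1 - ζ ^ o).re := by
      have := (abs_le.1 (Complex.abs_re_le_norm (ζ ^ o))).2
      simp only [sub_re, one_re]
      linarith
    have h4 : -(Real.pi / 2) < arg (1 - ζ ^ o) := Complex.neg_pi_div_two_lt_arg_iff.2 (Or.inl h3)
    have : (-log (1 - ζ ^ o) / o).im = -arg (1 - ζ ^ o) / o := by
      rw [div_natCast_im, neg_im, log_im]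
    rw [this, div_le_iff₀ (by linarith)]
    nlinarith [Real.pi_pos]

theorem phase_contra (E o : ℕ) (ho : o ≠ 1)
    (h : ∀ ω : Circle, ∃ lam : Circle, ∀ z : ℂ, ‖z‖ ≤ 1 → ∀ K : ℕ,
      -(∑ j ∈ range K, z ^ (j + 1) * (2 * E * (ω : ℂ) ^ (j + 1) +
          if o ∣ j + 1 then (lam : ℂ) ^ (j + 1) else 0) / (j + 1)).im ≤
        -(∑ j ∈ range K, z ^ (j + 1) * (2 * E + 1) / (j + 1)).im +
          4 * Real.pi * E * (1 / 2 + K * ‖z‖ ^ (K + 1))) : False := by
  have hpi := Real.pi_pos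
  have hE : (0 : ℝ) ≤ E := Nat.cast_nonneg E
  set δ : ℝ := Real.pi / (8 * (4 * E + 1)) with hδ
  have hδ0 : 0 < δ := by positivity
  have hδ1 : (4 * E + 1) * δ = Real.pi / 8 := by rw [hδ]; field_simp
  have hδ2 : δ ≤ Real.pi / 8 := by nlinarith
  have hc0 : 0 < Real.cos δ := Real.cos_pos_of_mem_Ioo ⟨by linarith, by linarith⟩
  have hs0 : 0 < Real.sin δ := Real.sin_pos_of_pos_of_lt_pi hδ0 (by linarith)
  have hc1 : Real.cos δ < 1 := by nlinarith [Real.sin_sq_add_cos_sq δ]
  obtain ⟨lam, hl⟩ := h (Circle.exp (-2 * δ))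
  set z : ℂ := Real.cos δ * cexp (δ * I) with hz
  have hzn : ‖z‖ = Real.cos δ := by
    rw [hz, norm_mul, norm_exp_ofReal_mul_I, mul_one, norm_real, Real.norm_of_nonneg hc0.le]
  have hzω : z * (Circle.exp (-2 * δ) : ℂ) = Real.cos δ * cexp ((-δ : ℝ) * I) := by
    rw [hz, Circle.coe_exp, mul_assoc, ← Complex.exp_add]
    congr 2
    push_cast
    ring
  have harg : ∀ t : ℝ, 0 < t → ∀ a ∈ Set.Ioc (-Real.pi) Real.pi, arg (t * cexp (a * I)) = a := by
    intro t ht a ha
    rw [arg_real_mul _ ht, exp_mul_I, arg_cos_add_sin_mul_I ha]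
  have h1 : arg (1 - z) = δ - Real.pi / 2 := by
    rw [← harg _ hs0 (δ - Real.pi / 2) ⟨by linarith, by linarith⟩]
    congr 1
    apply Complex.ext
    · simp only [hz, sub_re, one_re, re_ofReal_mul, exp_ofReal_mul_I_re, Real.cos_sub_pi_div_two]
      nlinarith [Real.sin_sq_add_cos_sq δ]
    · simp only [hz, sub_im, one_im, im_ofReal_mul, exp_ofReal_mul_I_im, Real.sin_sub_pi_div_two]
      ring
  have h2 : arg (1 - z * (Circle.exp (-2 * δ) : ℂ)) = Real.pi / 2 - δ := by
    rw [← harg _ hs0 (Real.pi / 2 - δ) ⟨by linarith, by linarith⟩, hzω]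
    congr 1
    apply Complex.ext
    · simp only [sub_re, one_re, re_ofReal_mul, exp_ofReal_mul_I_re, Real.cos_pi_div_two_sub,
        Real.cos_neg]
      nlinarith [Real.sin_sq_add_cos_sq δ]
    · simp only [sub_im, one_im, im_ofReal_mul, exp_ofReal_mul_I_im, Real.sin_pi_div_two_sub,
        Real.sin_neg]
      ring
  have hz1 : ‖z‖ < 1 := hzn ▸ hc1
  obtain ⟨L, hL, hL'⟩ := hasSum_sparse (ζ := z * lam)
    (by rw [norm_mul, Circle.norm_coe, mul_one]; exact hz1) ho
  have hA := ((hasSum_log (ζ := z * (Circle.exp (-2 * δ) : ℂ))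
    (by rw [norm_mul, Circle.norm_coe, mul_one]; exact hz1)).mul_left (2 * E : ℂ)).add hL
  have hB := (hasSum_log hz1).mul_left (2 * E + 1 : ℂ)
  have hA' := (Complex.continuous_im.tendsto _).comp hA.tendsto_sum_nat |>.neg
  have hB' := (Complex.continuous_im.tendsto _).comp hB.tendsto_sum_nat |>.neg
  have hC : Filter.Tendsto (fun K : ℕ => (K : ℝ) * ‖z‖ ^ (K + 1)) Filter.atTop (nhds 0) := by
    have := (tendsto_self_mul_const_pow_of_lt_one (norm_nonneg z) hz1).mul_const ‖z‖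
    simpa [pow_succ, mul_assoc] using this
  have hD := hB'.add ((hC.const_add (1 / 2)).const_mul (4 * Real.pi * E))
  have hle := le_of_tendsto_of_tendsto' hA' hD fun K => by
    have := hl z hz1.le K
    simp only [Function.comp]
    refine le_of_eq_of_le ?_ (this.trans_eq ?_)
    · congr 2
      refine sum_congr rfl fun j _ => ?_
      split_ifs <;> simp only [mul_pow] <;> ring
    · congr 3
      refine sum_congr rfl fun j _ => ?_
      ring
  have e1 : ((2 * E : ℂ) * -log (1 - z * (Circle.exp (-2 * δ) : ℂ)) + L).im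
      = -(2 * E * (Real.pi / 2 - δ)) + L.im := by
    rw [← h2, ← log_im]
    simp
  have e2 : ((2 * E + 1 : ℂ) * -log (1 - z)).im = -((2 * E + 1) * (δ - Real.pi / 2)) := by
    rw [← h1, ← log_im]
    simp
  rw [e1, e2] at hle
  nlinarith

end Vale.Agent.P174b
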