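import Vale.Agent.P174b.GroupAlg

/-! Words in letters and coefficients, evaluated in a wreath product. -/

set_option linter.unusedSectionVars false

open Equiv

namespace Vale.Agent.P174b

variable {S H : Type*} [DecidableEq S] [Group H]

def Gam : H →* Wr (Option S) H := Wr.diag.comp (MonoidHom.mulSingle (fun _ => H) none)

@[simp] theorem Gam_none (h : H) : (Gam h : Wr (Option S) H).l none = h := by simp [Gam]

@[simp] theorem Gam_some (h : H) (s : S) : (Gam h : Wr (Option S) H).l (some s) = 1 := by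
  simp [Gam]

@[simp] theorem Gam_r (h : H) : (Gam h : Wr (Option S) H).r = 1 := rfl

def Tr (s : S) : Wr (Option S) H := Wr.perm (swap none (some s))

@[simp] theorem Tr_l (s : S) (i : Option S) : (Tr s : Wr (Option S) H).l i = 1 := rfl

@[simp] theorem Tr_r (s : S) : (Tr s : Wr (Option S) H).r = swap none (some s) := rfl

theorem Tr_inv (s : S) : (Tr s : Wr (Option S) H)⁻¹ = Tr s := by
  rw [Tr, ← map_inv, swap_inv]

theorem TL_Tr (w : Wr (Option S) H) (s : S) : TL (w * Tr s * w⁻¹) 1 := TL.swap w (by simp)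

def EW (l : List (H ⊕ S)) : Wr (Option S) H := (l.map (Sum.elim Gam Tr)).prod

@[simp] theorem EW_nil : EW ([] : List (H ⊕ S)) = 1 := rfl

@[simp] theorem EW_inl (h : H) (l : List (H ⊕ S)) : EW (.inl h :: l) = Gam h * EW l := by
  simp [EW]

@[simp] theorem EW_inr (s : S) (l : List (H ⊕ S)) : EW (.inr s :: l) = Tr s * EW l := by
  simp [EW]

@[simp] theorem EW_append (l l' : List (H ⊕ S)) : EW (l ++ l') = EW l * EW l' := by simp [EW]

def lets (l : List (H ⊕ S)) : List S := l.filterMap Sum.getRight?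

@[simp] theorem lets_nil : lets ([] : List (H ⊕ S)) = [] := rfl

@[simp] theorem lets_inl (h : H) (l : List (H ⊕ S)) : lets (.inl h :: l) = lets l := rfl

@[simp] theorem lets_inr (s : S) (l : List (H ⊕ S)) : lets (.inr s :: l) = s :: lets l := by
  simp [lets]

@[simp] theorem lets_append (l l' : List (H ⊕ S)) : lets (l ++ l') = lets l ++ lets l' := by
  simp [lets]

def tot (l : List (H ⊕ S)) : H := (l.map (Sum.elim id fun _ => 1)).prod

@[simp] theorem tot_nil : tot ([] : List (H ⊕ S)) = 1 := rfl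

@[simp] theorem tot_inl (h : H) (l : List (H ⊕ S)) : tot (.inl h :: l) = h * tot l := by
  simp [tot]

@[simp] theorem tot_inr (s : S) (l : List (H ⊕ S)) : tot (.inr s :: l) = tot l := by simp [tot]

theorem tot_append (l l' : List (H ⊕ S)) : tot (l ++ l') = tot l * tot l' := by simp [tot]

def pairs : List (H ⊕ S) → List (S × H)
  | [] => []
  | .inl _ :: l => pairs l
  | .inr s :: l => (s, tot l) :: pairs l

theorem EW_pairs (l : List (H ⊕ S)) :
    EW l = Gam (tot l) * ((pairs l).map fun p => (Gam p.2)⁻¹ * Tr p.1 * Gam p.2).prod := by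
  induction l with
  | nil => simp [pairs]
  | cons a l ih =>
    rcases a with h | s
    · simp [pairs, ih, mul_assoc]
    · simp [pairs, ih, mul_assoc]

theorem pairs_fst (l : List (H ⊕ S)) : (pairs l).map Prod.fst = lets l := by
  induction l with
  | nil => simp [pairs]
  | cons a l ih => rcases a with h | s <;> simp [pairs, ih]

theorem exists_fun_of_nodup (L : List (S × H)) (h : (L.map Prod.fst).Nodup) :
    ∃ D : S → H, L = (L.map Prod.fst).map fun s => (s, D s) := by
  induction L with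
  | nil => exact ⟨fun _ => 1, rfl⟩
  | cons a L ih =>
    rw [List.map_cons, List.nodup_cons] at h
    obtain ⟨D, hD⟩ := ih h.2
    refine ⟨Function.update D a.1 a.2, ?_⟩
    rw [List.map_cons, List.map_cons, Function.update_self]
    congr 1
    conv_lhs => rw [hD]
    refine List.map_congr_left fun s hs => ?_
    rw [Function.update_of_ne fun e : s = a.1 => h.1 (e ▸ hs)]

def Dhat (D : S → H) : Wr (Option S) H := Wr.diag fun i => i.elim 1 D

theorem conj_Tr (D : S → H) (s : S) :
    (Gam (D s))⁻¹ * Tr s * Gam (D s) = Dhat D * Tr s * (Dhat D)⁻¹ := by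
  refine Wr.ext (funext fun i => ?_) (by simp [Dhat])
  rcases i with _ | t
  · simp [Dhat]
  · by_cases e : t = s
    · simp [Dhat, e]
    · simp [Dhat, swap_apply_of_ne_of_ne, e]

theorem prod_conj (u : Wr (Option S) H) (L : List S) :
    (L.map fun s => u * Tr s * u⁻¹).prod = u * (L.map Tr).prod * u⁻¹ := by
  induction L with
  | nil => simp
  | cons a L ih =>
    rw [List.map_cons, List.prod_cons, ih, List.map_cons, List.prod_cons]
    group

theorem planar {β : Type*} (φ : S → β × Bool) (n : ℕ) : ∀ L : List S, L.length = n → L.Nodup →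
    FreeGroup.Red (L.map φ) [] → ∃ (ι : Perm S) (k : ℕ) (R : Wr (Option S) H),
      (∀ s, ι (ι s) = s) ∧ (∀ s ∈ L, φ (ι s) = ((φ s).1, !(φ s).2)) ∧ (∀ s ∉ L, ι s = s) ∧
      2 * k = L.length ∧ TL R k ∧ (L.map Tr).prod = Wr.perm ι.optionCongr * R := by
  induction n using Nat.strong_induction_on with
  | _ n ih =>
    intro L hL hnd hred
    rcases hred.cases_head with h | ⟨c, h1, h2⟩
    · obtain rfl : L = [] := by simpa using h
      exact ⟨1, 0, 1, by simp, by simp, by simp, rfl, TL.one, by simp⟩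
    generalize hM : L.map φ = M at h1
    rcases h1 with @⟨L₁, L₂, x, b⟩
    obtain ⟨A, B', rfl, rfl, hB⟩ := List.map_eq_append_iff.1 hM
    obtain ⟨s, B'', rfl, hs, hB⟩ := List.map_eq_cons_iff.1 hB
    obtain ⟨s', B, rfl, hs', rfl⟩ := List.map_eq_cons_iff.1 hB
    have hp : (A ++ s :: s' :: B).Perm (s :: s' :: (A ++ B)) :=
      List.perm_middle.trans (List.Perm.cons _ List.perm_middle)
    have hnd' := hp.nodup_iff.1 hnd
    rw [List.nodup_cons, List.nodup_cons, List.mem_cons, not_or] at hnd'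
    obtain ⟨⟨hss, hsAB⟩, hs'AB, hAB⟩ := hnd'
    obtain ⟨ι, k, R, h3, h4, h5, h6, h7, h8⟩ := ih (A ++ B).length
      (by rw [← hL]; simp) (A ++ B) rfl hAB (by rw [List.map_append]; exact h2)
    have hmem : ∀ t ∈ A ++ B, ι t ∈ A ++ B := by
      intro t ht
      by_contra hc
      have := h5 _ hc
      rw [h3] at this
      exact hc (this ▸ ht)
    have hcomm : ∀ t, ι (swap s s' t) = swap s s' (ι t) := by
      intro t
      rw [ι.injective.map_swap, h5 s hsAB, h5 s' hs'AB]
    refine ⟨swap s s' * ι, k + 1, R * ((B.map Tr).prod⁻¹ * Tr s * (B.map Tr).prod⁻¹⁻¹), ?_, ?_, ?_,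
      ?_, h7.mul (TL_Tr _ s), ?_⟩
    · intro t
      simp [hcomm, h3]
    · intro t ht
      rcases List.mem_cons.1 (hp.subset ht) with rfl | ht
      · simp [h5 t hsAB, hs, hs']
      rcases List.mem_cons.1 ht with rfl | ht
      · simp [h5 t hs'AB, hs, hs']
      · rw [Perm.mul_apply, swap_apply_of_ne_of_ne (fun e : ι t = s => hsAB (e ▸ hmem t ht))
          (fun e : ι t = s' => hs'AB (e ▸ hmem t ht)), h4 t ht]
    · intro t ht
      have ht' := fun h => ht (hp.symm.subset h)
      simp only [List.mem_cons, imp_false, not_or] at ht'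
      rw [Perm.mul_apply, h5 t ht'.2.2, swap_apply_of_ne_of_ne ht'.1 ht'.2.1]
    · rw [hp.length_eq, List.length_cons, List.length_cons, ← h6]
      ring
    · have h9 : (Tr s * Tr s' : Wr (Option S) H) = Wr.perm (swap (some s) (some s')) * Tr s := by
        rw [Tr, Tr, ← map_mul, ← map_mul, mul_swap_eq_swap_mul]
        simp [swap_apply_of_ne_of_ne, Ne.symm hss]
      have h10 : Commute (A.map Tr).prod (Wr.perm (swap (some s) (some s')) : Wr (Option S) H) := by
        refine Commute.list_prod_left _ _ fun y hy => ?_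
        obtain ⟨a, ha, rfl⟩ := List.mem_map.1 hy
        refine Commute.map ?_ Wr.perm
        have e1 : s ≠ a := fun e => hsAB (e ▸ List.mem_append_left _ ha)
        have e2 : s' ≠ a := fun e => hs'AB (e ▸ List.mem_append_left _ ha)
        rw [Commute, SemiconjBy, mul_swap_eq_swap_mul]
        simp [swap_apply_of_ne_of_ne, e1, e2]
      rw [List.map_append, List.prod_append] at h8
      have h11 : (swap s s' * ι).optionCongr = swap (some s) (some s') * ι.optionCongr := by
        refine Equiv.ext fun i => ?_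
        rw [← optionCongr_swap, Perm.mul_apply]
        rcases i with _ | t <;> rfl
      rw [List.map_append, List.prod_append, List.map_cons, List.map_cons, List.prod_cons,
        List.prod_cons, ← mul_assoc (Tr s), h9, h11, map_mul, mul_assoc (Wr.perm _) (Wr.perm _),
        ← mul_assoc (Wr.perm ι.optionCongr), ← h8, ← mul_assoc, ← mul_assoc, h10.eq]
      group

section Free

variable {G X : Type*} [Group G]

def actG : G →* Perm (FreeGroup (G × X) × G) where
  toFun g := Equiv.prodCongr (Equiv.refl _) (Equiv.mulLeft g)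
  map_one' := by ext <;> simp
  map_mul' a b := by ext <;> simp [mul_assoc]

def actX (c : X) : Perm (FreeGroup (G × X) × G) where
  toFun y := (FreeGroup.of (y.2, c) * y.1, y.2)
  invFun y := ((FreeGroup.of (y.2, c))⁻¹ * y.1, y.2)
  left_inv y := by simp
  right_inv y := by simp

def EF (κ : H →* G) (lt : S → X) (sg : S → Bool) (l : List (H ⊕ S)) :
    Monoid.Coprod G (FreeGroup X) :=
  (l.map (Sum.elim (fun h => Monoid.Coprod.inl (κ h))
    fun s => Monoid.Coprod.inr (FreeGroup.mk [(lt s, sg s)]))).prod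

variable (κ : H →* G) (lt : S → X) (sg : S → Bool)

@[simp] theorem EF_nil : EF κ lt sg [] = 1 := rfl

@[simp] theorem EF_inl (h : H) (l : List (H ⊕ S)) :
    EF κ lt sg (.inl h :: l) = Monoid.Coprod.inl (κ h) * EF κ lt sg l := by simp [EF]

@[simp] theorem EF_inr (s : S) (l : List (H ⊕ S)) :
    EF κ lt sg (.inr s :: l) =
      Monoid.Coprod.inr (FreeGroup.mk [(lt s, sg s)]) * EF κ lt sg l := by simp [EF]

@[simp] theorem EF_append (l l' : List (H ⊕ S)) :
    EF κ lt sg (l ++ l') = EF κ lt sg l * EF κ lt sg l' := by simp [EF]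

theorem act_EF (l : List (H ⊕ S)) :
    Monoid.Coprod.lift actG (FreeGroup.lift actX) (EF κ lt sg l) (1, 1) =
      (FreeGroup.mk ((pairs l).map fun p => ((κ p.2, lt p.1), sg p.1)), κ (tot l)) := by
  induction l with
  | nil => simp [pairs, FreeGroup.one_eq_mk]
  | cons a l ih =>
    rcases a with h | s
    · rw [EF_inl, map_mul, Perm.mul_apply, ih]
      simp [pairs, actG]
    · rw [EF_inr, map_mul, Perm.mul_apply, ih, pairs, List.map_cons, ← List.singleton_append,
        ← FreeGroup.mul_mk]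
      cases sg s
      · simp [actX, FreeGroup.of, FreeGroup.inv_mk, FreeGroup.invRev, Perm.inv_def]
      · simp [actX, FreeGroup.of]

theorem word_planar (l : List (H ⊕ S)) (hnd : (lets l).Nodup) (hall : ∀ s, s ∈ lets l)
    (h1 : EF κ lt sg l = 1) :
    κ (tot l) = 1 ∧ ∃ (D : S → H) (ι : Perm S) (k : ℕ) (R : Wr (Option S) H),
      (∀ s, ι (ι s) = s) ∧ (∀ s, κ (D (ι s)) = κ (D s) ∧ lt (ι s) = lt s ∧ sg (ι s) = !sg s) ∧
      2 * k = (lets l).length ∧ TL R k ∧
      EW l = Gam (tot l) * (Dhat D * Wr.perm ι.optionCongr * (Dhat D)⁻¹) * R := by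
  have h2 := act_EF κ lt sg l
  rw [h1, map_one, Perm.one_apply, Prod.mk.injEq] at h2
  refine ⟨h2.2.symm, ?_⟩
  obtain ⟨D, hD⟩ := exists_fun_of_nodup (pairs l) (by rwa [pairs_fst])
  rw [pairs_fst] at hD
  have h3 := h2.1.symm
  rw [hD, List.map_map, FreeGroup.one_eq_mk, FreeGroup.Red.exact] at h3
  obtain ⟨c, h4, h5⟩ := h3
  rw [FreeGroup.Red.nil_iff] at h5
  subst h5
  obtain ⟨ι, k, R, h6, h7, -, h8, h9, h10⟩ := planar (H := H) _ _ (lets l) rfl hnd h4
  refine ⟨D, ι, k, Dhat D * R * (Dhat D)⁻¹, h6, fun s => ?_, h8, h9.conj _, ?_⟩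
  · simpa [and_assoc] using h7 s (hall s)
  · rw [EW_pairs, hD, List.map_map]
    have : ((fun p : S × H => (Gam p.2)⁻¹ * Tr p.1 * Gam p.2) ∘ fun s => (s, D s)) =
        fun s => Dhat D * Tr s * (Dhat D)⁻¹ := funext fun s => conj_Tr D s
    rw [this, prod_conj, h10]
    group

end Free

def Restr (Q x : Wr (Option S) H) (A : List S) : Prop :=
  x.l none = 1 ∧ x.r none = none ∧
    (∀ s ∈ A, x.l (some s) = Q.l (some s) ∧ x.r (some s) = Q.r (some s)) ∧
    ∀ s ∉ A, x.l (some s) = 1 ∧ x.r (some s) = some s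

theorem Restr.inv_none {Q x : Wr (Option S) H} {A : List S} (h : Restr Q x A) :
    x.r⁻¹ none = none := by rw [Perm.inv_eq_iff_eq, h.2.1]

theorem Restr.inv_out {Q x : Wr (Option S) H} {A : List S} (h : Restr Q x A) {s : S}
    (hs : s ∉ A) : x.r⁻¹ (some s) = some s := by rw [Perm.inv_eq_iff_eq, (h.2.2.2 s hs).2]

theorem Restr.map_in {Q x : Wr (Option S) H} {A : List S} (h : Restr Q x A) {s : S}
    (hs : s ∈ A) : ∃ t ∈ A, x.r (some s) = some t := by
  rcases e : x.r (some s) with _ | t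
  · rw [← h.2.1] at e
    simpa using x.r.injective e
  · refine ⟨t, by_contra fun ht => ?_, rfl⟩
    rw [← (h.2.2.2 t ht).2] at e
    obtain rfl : s = t := by simpa using x.r.injective e
    exact ht hs

theorem Restr.inv_in {Q x : Wr (Option S) H} {A : List S} (h : Restr Q x A) {s : S}
    (hs : s ∈ A) : ∃ t ∈ A, x.r⁻¹ (some s) = some t := by
  rcases e : x.r⁻¹ (some s) with _ | t
  · rw [Perm.inv_eq_iff_eq, h.2.1] at e
    simp at e
  · refine ⟨t, by_contra fun ht => ?_, rfl⟩
    rw [Perm.inv_eq_iff_eq, (h.2.2.2 t ht).2] at e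
    obtain rfl : s = t := by simpa using e
    exact ht hs

theorem Restr.inv {Q x : Wr (Option S) H} {A B : List S} (h : Restr Q⁻¹ x A)
    (hAB : ∀ s, s ∈ B ↔ s ∈ A) : Restr Q x⁻¹ B := by
  refine ⟨by simp [h.2.1, h.1], h.inv_none, fun s hs => ⟨?_, ?_⟩, fun s hs => ?_⟩
  · obtain ⟨t, ht, e⟩ := h.map_in ((hAB s).1 hs)
    rw [Wr.inv_l, e, (h.2.2.1 t ht).1, Wr.inv_l, inv_inv, ← e, (h.2.2.1 s ((hAB s).1 hs)).2]
    simp
  · obtain ⟨t, ht, e⟩ := h.inv_in ((hAB s).1 hs)
    rw [Wr.inv_r, e]
    rw [Perm.inv_eq_iff_eq, (h.2.2.1 t ht).2] at e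
    simp [e]
  · have hs' : s ∉ A := fun e => hs ((hAB s).2 e)
    exact ⟨by simp [h.2.2.2 s hs'], h.inv_out hs'⟩

theorem Restr.mul {Q x y : Wr (Option S) H} {A B C : List S} (hx : Restr Q x A)
    (hy : Restr Q y B) (hd : ∀ s ∈ A, s ∉ B) (hC : ∀ s, s ∈ C ↔ s ∈ A ∨ s ∈ B) :
    Restr Q (x * y) C := by
  refine ⟨by simp [hx.1, hx.inv_none, hy.1], by simp [hx.2.1, hy.2.1], fun s hs => ?_,
    fun s hs => ?_⟩
  · rcases (hC s).1 hs with h | h
    · obtain ⟨t, ht, e⟩ := hx.inv_in h
      simp [e, hy.2.2.2 t (hd t ht), hy.2.2.2 s (hd s h), hx.2.2.1 s h]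
    · have h' : s ∉ A := fun e => hd s e h
      obtain ⟨t, ht, e⟩ := hy.map_in h
      refine ⟨by simp [hx.inv_out h', hx.2.2.2 s h', hy.2.2.1 s h], ?_⟩
      rw [Wr.mul_r, Perm.mul_apply, ← (hy.2.2.1 s h).2, e,
        (hx.2.2.2 t fun e' => hd t e' ht).2]
  · rw [hC, not_or] at hs
    simp [hx.inv_out hs.1, hx.2.2.2 s hs.1, hy.2.2.2 s hs.2]

theorem Restr.comm_Gam {Q x : Wr (Option S) H} {A : List S} (hx : Restr Q x A) (c : H) :
    x * Gam c = Gam c * x := by
  refine Wr.ext (funext fun i => ?_) (by simp)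
  rcases i with _ | t
  · simp [hx.inv_none, hx.1]
  · rcases e : x.r⁻¹ (some t) with _ | u
    · rw [Perm.inv_eq_iff_eq, hx.2.1] at e
      simp at e
    · simp [e]

theorem Restr.comm_Tr {Q x : Wr (Option S) H} {A : List S} (hx : Restr Q x A) {s : S}
    (hs : s ∉ A) : x * Tr s = Tr s * x := by
  refine Wr.ext (funext fun i => ?_) ?_
  · rcases i with _ | t
    · simp [hx.1, hx.2.2.2 s hs]
    · by_cases e : t = s
      · simp [e, hx.1, hx.2.2.2 s hs]
      · simp [swap_apply_of_ne_of_ne, e]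
  · simp [mul_swap_eq_swap_mul, hx.2.1, hx.2.2.2 s hs]

def Good (Q : Wr (Option S) H) (l : List (H ⊕ S)) (k : ℕ) : Prop :=
  ∃ x R, Restr Q x (lets l) ∧ TL R k ∧ EW l = R * x

theorem Good.nil (Q : Wr (Option S) H) : Good Q [] 0 :=
  ⟨1, 1, by simp [Restr], TL.one, by simp⟩

theorem Good.append {Q : Wr (Option S) H} {l l' : List (H ⊕ S)} {k k' : ℕ} (h : Good Q l k)
    (h' : Good Q l' k') (hd : ∀ s ∈ lets l, s ∉ lets l') : Good Q (l ++ l') (k + k') := by
  obtain ⟨x, R, h1, h2, h3⟩ := h
  obtain ⟨x', R', h1', h2', h3'⟩ := h'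
  refine ⟨x * x', R * (x * R' * x⁻¹), h1.mul h1' hd (by simp), h2.mul (h2'.conj x), ?_⟩
  rw [EW_append, h3, h3']
  group

theorem Good.flatMap {Q : Wr (Option S) H} {F : Type*} (w : F → List (H ⊕ S)) (k : F → ℕ)
    (fs : List F) (h : ∀ f ∈ fs, Good Q (w f) (k f)) (hnd : (lets (fs.flatMap w)).Nodup) :
    Good Q (fs.flatMap w) (fs.map k).sum := by
  induction fs with
  | nil => exact Good.nil Q
  | cons f fs ih =>
    rw [List.flatMap_cons, lets_append, List.nodup_append] at hnd
    exact (h f (by simp)).append (ih (fun g hg => h g (by simp [hg])) hnd.2.1)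
      fun s h1 h2 => hnd.2.2 s h1 s h2 rfl

def faceWord (Q : Wr (Option S) H) (L : List S) : List (H ⊕ S) :=
  L.flatMap fun s => [.inr s, .inl (Q.l (some s))]

@[simp] theorem lets_faceWord (Q : Wr (Option S) H) (L : List S) : lets (faceWord Q L) = L := by
  induction L with
  | nil => rfl
  | cons a L ih => simpa [faceWord] using ih

theorem face_aux (Q : Wr (Option S) H) (L : List S) : ∀ s : S, (s :: L).Nodup →
    (s :: L).IsChain (fun u v => Q.r (some v) = some u) →
    (EW (faceWord Q (s :: L))).l none = 1 ∧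
    (EW (faceWord Q (s :: L))).r none = some ((s :: L).getLast (by simp)) ∧
    (EW (faceWord Q (s :: L))).r (some s) = none ∧
    (∀ v ∈ s :: L, (EW (faceWord Q (s :: L))).l (some v) = Q.l (some v)) ∧
    (∀ v ∈ L, (EW (faceWord Q (s :: L))).r (some v) = Q.r (some v)) ∧
    ∀ v ∉ s :: L, (EW (faceWord Q (s :: L))).l (some v) = 1 ∧
      (EW (faceWord Q (s :: L))).r (some v) = some v := by
  induction L with
  | nil =>
    intro s _ _
    simp +contextual [faceWord, swap_apply_of_ne_of_ne]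
  | cons s' L ih =>
    intro s hnd hch
    rw [List.nodup_cons] at hnd
    rw [List.isChain_cons_cons] at hch
    obtain ⟨h1, h2, h3, h4, h5, h6⟩ := ih s' hnd.2 hch.2
    have e : EW (faceWord Q (s :: s' :: L)) =
        Tr s * (Gam (Q.l (some s)) * EW (faceWord Q (s' :: L))) := by
      simp [faceWord]
    rw [e]
    generalize EW (faceWord Q (s' :: L)) = y at *
    have h7 := h6 s hnd.1
    have h8 : ∀ v, v ≠ s → y.r (some v) ≠ some s := fun v hv h =>
      hv (by simpa using y.r.injective (h.trans h7.2.symm))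
    refine ⟨by simp [h7.1], ?_, by simp [h7.2], fun v hv => ?_, fun v hv => ?_, fun v hv => ?_⟩
    · have : (s' :: L).getLast (by simp) ≠ s := fun h => hnd.1 (h ▸ List.getLast_mem _)
      simp [h2, swap_apply_of_ne_of_ne, this]
    · rcases List.mem_cons.1 hv with rfl | hv
      · simp [h1]
      · have : v ≠ s := fun h => hnd.1 (h ▸ hv)
        simp [swap_apply_of_ne_of_ne, this, h4 v hv]
    · rcases List.mem_cons.1 hv with rfl | hv'
      · simp [h3, hch.1]
      · have h9 : v ≠ s := fun h => hnd.1 (h ▸ hv)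
        have h10 : y.r (some v) ≠ none := fun h => by
          obtain rfl : v = s' := by simpa using y.r.injective (h.trans h3.symm)
          exact (List.nodup_cons.1 hnd.2).1 hv'
        rw [← h5 v hv']
        simp [swap_apply_of_ne_of_ne h10 (h8 v h9)]
    · rw [List.mem_cons, not_or] at hv
      simp [swap_apply_of_ne_of_ne, hv.1, h6 v hv.2]

theorem face_restr (Q : Wr (Option S) H) (s : S) (L : List S) (hnd : (s :: L).Nodup)
    (hch : (s :: L).IsChain fun u v => Q.r (some v) = some u)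
    (hl : Q.r (some s) = some ((s :: L).getLast (by simp))) :
    Restr Q (EW (faceWord Q (s :: L)) * Tr s) (s :: L) := by
  obtain ⟨h1, h2, h3, h4, h5, h6⟩ := face_aux Q L s hnd hch
  refine ⟨by simp [h1], by simp [h3], fun v hv => ⟨by simp [h4 v hv], ?_⟩, fun v hv => ?_⟩
  · rcases List.mem_cons.1 hv with rfl | hv'
    · simp [h2, hl]
    · have : v ≠ s := fun h => (List.nodup_cons.1 hnd).1 (h ▸ hv')
      simp [swap_apply_of_ne_of_ne, this, h5 v hv']
  · have : v ≠ s := fun h => hv (by simp [h])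
    simp [swap_apply_of_ne_of_ne, this, h6 v hv]

theorem ofFn_restr (Q : Wr (Option S) H) {k : ℕ} (s : Fin (k + 1) → S)
    (hs : Function.Injective s) (h : ∀ j, Q.r (some (s (finRotate _ j))) = some (s j)) :
    Restr Q (EW (faceWord Q (List.ofFn s)) * Tr (s 0)) (List.ofFn s) := by
  have h1 : (List.ofFn s).Nodup := List.nodup_ofFn.2 hs
  have h2 : (List.ofFn s).IsChain fun u v => Q.r (some v) = some u := by
    rw [List.isChain_iff_getElem]
    intro i hi
    have hi' : i < k := by simpa using hi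
    simp only [List.getElem_ofFn]
    rw [← h ⟨i, by omega⟩, finRotate_of_lt hi']
  have h3 : ∀ h', Q.r (some (s 0)) = some ((List.ofFn s).getLast h') := by
    intro h'
    rw [List.getLast_ofFn_succ, ← h (Fin.last k), finRotate_last]
  revert h1 h2 h3
  rw [List.ofFn_succ]
  exact fun h1 h2 h3 => face_restr Q _ _ h1 h2 (h3 _)

theorem good_face (Q : Wr (Option S) H) {k : ℕ} (s : Fin (k + 1) → S)
    (hs : Function.Injective s) (h : ∀ j, Q.r (some (s (finRotate _ j))) = some (s j)) :
    Good Q (faceWord Q (List.ofFn s)) 1 := by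
  refine ⟨_, _, by rw [lets_faceWord]; exact ofFn_restr Q s hs h,
    TL_Tr (EW (faceWord Q (List.ofFn s))) (s 0), ?_⟩
  rw [mul_assoc, inv_mul_cancel_left, mul_assoc, ← Tr_inv (s 0)]
  conv_rhs => enter [2, 1]; rw [Tr_inv]
  simp

def invWord (l : List (H ⊕ S)) : List (H ⊕ S) := (l.map (Sum.map (fun h => h⁻¹) id)).reverse

theorem EW_invWord (l : List (H ⊕ S)) : EW (invWord l) = (EW l)⁻¹ := by
  induction l with
  | nil => simp [invWord]
  | cons a l ih =>
    rw [invWord] at ih
    rcases a with h | s <;> simp [invWord, ih, Tr_inv]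

theorem lets_invWord (l : List (H ⊕ S)) : lets (invWord l) = (lets l).reverse := by
  induction l with
  | nil => simp [invWord]
  | cons a l ih =>
    rw [invWord] at ih
    rcases a with h | s <;> simp [invWord, ih]

theorem EF_invWord {G X : Type*} [Group G] (κ : H →* G) (lt : S → X) (sg : S → Bool)
    (l : List (H ⊕ S)) : EF κ lt sg (invWord l) = (EF κ lt (fun s => !sg s) l)⁻¹ := by
  induction l with
  | nil => simp [invWord]
  | cons a l ih =>
    rw [invWord] at ih
    rcases a with h | s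
    · simp [invWord, ih]
    · simp [invWord, ih, ← map_inv, FreeGroup.inv_mk, FreeGroup.invRev]

theorem good_inv_face (Q : Wr (Option S) H) {k : ℕ} (s : Fin (k + 1) → S)
    (hs : Function.Injective s) (h : ∀ j, Q⁻¹.r (some (s (finRotate _ j))) = some (s j)) :
    Good Q (invWord (faceWord Q⁻¹ (List.ofFn s))) 1 := by
  refine ⟨_, _, (ofFn_restr Q⁻¹ s hs h).inv
    (by simp only [lets_invWord, lets_faceWord, List.mem_reverse, implies_true]),
    TL_Tr 1 (s 0), ?_⟩
  rw [EW_invWord, mul_inv_rev]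
  simp

def conjW (ω : H) : List (S × S × H) → List (H ⊕ S) → List (H ⊕ S)
  | [], w => w
  | u :: us, w => .inr u.1 :: .inl (ω * u.2.2) :: conjW ω us w ++ [.inl u.2.2⁻¹, .inr u.2.1, .inl ω]

theorem lets_conjW (ω : H) (us : List (S × S × H)) (w : List (H ⊕ S)) :
    (lets (conjW ω us w)).Perm (us.map Prod.fst ++ (us.map (fun u => u.2.1) ++ lets w)) := by
  induction us with
  | nil => simp [conjW]
  | cons u us ih =>
    simp only [conjW, List.cons_append, lets_inr, lets_inl, lets_append, lets_nil, List.map_cons]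
    exact List.Perm.cons _ ((List.perm_append_singleton _ _).trans
      ((ih.cons _).trans List.perm_middle.symm))

theorem good_conjW {Q : Wr (Option S) H} {ω : H} {w : List (H ⊕ S)} {k : ℕ} (hw : Good Q w k)
    (us : List (S × S × H))
    (hu : ∀ u ∈ us, Q.r (some u.1) = some u.2.1 ∧ Q.r (some u.2.1) = some u.1 ∧
      Q.l (some u.1) = ω ∧ Q.l (some u.2.1) = ω) (hnd : (lets (conjW ω us w)).Nodup) :
    Good Q (conjW ω us w) (k + us.length) := by
  induction us with
  | nil => exact hw
  | cons u us ih =>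
    obtain ⟨s, s', c⟩ := u
    obtain ⟨h1, h2, h3, h4⟩ := hu (s, s', c) (by simp)
    simp only [conjW, List.cons_append, lets_inr, lets_inl, lets_append, lets_nil, List.nodup_cons,
      List.mem_append, List.mem_singleton, not_or, List.nodup_append] at hnd h1 h2 h3 h4
    obtain ⟨⟨h5, h6⟩, h7, -, h8⟩ := hnd
    have h9 : s' ∉ lets (conjW ω us w) := fun h => h8 _ h _ rfl rfl
    obtain ⟨x, R, hx, hR, e⟩ := ih (fun u hu' => hu u (by simp [hu'])) h7
    have hz := face_restr Q s [s'] (by simp [h6]) (by simp [h2]) (by simp [h1])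
    have ez : EW (faceWord Q [s, s']) = Tr s * Gam ω * Tr s' * Gam ω := by
      simp [faceWord, h3, h4, mul_assoc]
    rw [ez] at hz
    refine ⟨_, _, hz.mul hx (by simp [h5, h9]) (by simp [conjW]; tauto),
      (hR.conj (Tr s * Gam (ω * c))).mul (TL_Tr (Tr s * Gam ω * Tr s' * Gam ω) s), ?_⟩
    have hTT : (Tr s * Tr s : Wr (Option S) H) = 1 := by
      conv_lhs => enter [1]; rw [← Tr_inv]
      exact inv_mul_cancel _
    have e1 : x * (Gam c⁻¹ * (Tr s' * Gam ω)) = Gam c⁻¹ * (Tr s' * Gam ω) * x := by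
      rw [← mul_assoc, hx.comm_Gam, mul_assoc, ← mul_assoc x, hx.comm_Tr h9, mul_assoc,
        hx.comm_Gam]
      simp only [mul_assoc]
    simp only [conjW, List.cons_append, EW_inr, EW_inl, EW_append, EW_nil, e, mul_one]
    rw [mul_assoc R, e1]
    calc _ = Tr s * Gam (ω * c) * R * (Tr s * Gam (ω * c))⁻¹ *
          (Tr s * Gam ω * Tr s' * Gam ω * (Tr s * Tr s) * x) := by
          rw [hTT, map_mul, map_inv]
          group
      _ = _ := by group

theorem EF_conjW {G X : Type*} [Group G] (κ : H →* G) (lt : S → X) (sg : S → Bool) {ω : H}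
    (hω : κ ω = 1) (us : List (S × S × H))
    (hu : ∀ u ∈ us, lt u.2.1 = lt u.1 ∧ sg u.2.1 = !sg u.1) (w : List (H ⊕ S)) :
    EF κ lt sg (conjW ω us w) =
      (us.map fun u => Monoid.Coprod.inr (FreeGroup.mk [(lt u.1, sg u.1)]) *
        Monoid.Coprod.inl (κ u.2.2)).prod * EF κ lt sg w *
      (us.map fun u => Monoid.Coprod.inr (FreeGroup.mk [(lt u.1, sg u.1)]) *
        Monoid.Coprod.inl (κ u.2.2)).prod⁻¹ := by
  induction us with
  | nil => simp [conjW]
  | cons u us ih =>
    obtain ⟨h1, h2⟩ := hu u (by simp)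
    have h3 : FreeGroup.mk [(lt u.1, !sg u.1)] = (FreeGroup.mk [(lt u.1, sg u.1)])⁻¹ := by
      simp [FreeGroup.inv_mk, FreeGroup.invRev]
    simp only [conjW, List.cons_append, EF_inr, EF_inl, EF_append, EF_nil, map_mul, hω, map_inv,
      ih fun u hu' => hu u (by simp [hu']), h1, h2, h3, List.map_cons, List.prod_cons, map_one]
    group

end Vale.Agent.P174b
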